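import Crest.Agent.R196.AmalA

/-!
Task R196-P3: amalgams of patterns and the statistics of the concrete model.

* `unif1_whp`, `unif2_whp`: `cons` with `V' = Unit`/`Fin 1` resp. `Bool`/`Fin 2`, `J' = ∅` (for `v'` take any constant map).
* `samp_whp`: variables `Fin m × V`, `ι i a = if a ∈ Z then (0, a) else (i, a)`, positions `J = J₀ ∪ ⋃ i, J₁ i`, slot maps
  `c ↦ ι (own c) ∘ v c` where `own c = i` for `c ∈ J₁ i`; `Ψ = (Fin m × V → P)`, `μ = Wt / card Ψ`, `f ψ i = ψ ∘ ι i`.  Apply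
  `cons` with `ι i` (sub-pattern `J₀ ∪ J₁ i`) and with `i ↦ (i, a)` (`J' = ∅`).  The condition `Sur`: split `𝒦` into `𝒦 ∩ J₀` and the
  `𝒦 ∩ J₁ i`; the variables `(i, b)`, `b ∉ Z`, are disjoint for different `i`.  With root `range (ι i₀)` every nonempty part has
  surplus `≥ 1` by `h1`.  With roots `(i, a)`: pick `i₀` with nonempty part (any `i₀` if only `𝒦 ∩ J₀` is nonempty), use `h2` for
  `(𝒦 ∩ J₀) ∪ (𝒦 ∩ J₁ i₀)` and `h1` (minus the variable `a`) for the other parts.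
* `stat_whp`: instances.  `Sur` for a three-element `J` reduces to seven `decide`-able inequalities.
  `c_s1`, `c_s2`: `J₀ = ∅`, `J₁ = Jc`.  `e_sC j`: `J₀ = {inl (0, j)}`, `J₁ k = {inl (1, k), eta (j, k)}`; `e_sB` symmetric;
  `e_s1`–`e_s5 d`: `J₀ = ∅`, `J₁ i = Je i (i + d)`.
* `many_whp`: with `J = {inl (0, 0)}`, `V = Fin 6`, `v = id` on that colour: total weight `≥ 3/4` (`cons` with `V' = Empty`, or
  `unif1_whp` with `F = 1`), non-generic weight `≤ 1/4`, so `# * n⁴ r / n⁶ ≥ 1/2`, `# ≥ n² / (2 r) > n`.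
-/

set_option autoImplicit false

namespace Crest.Agent.R196

open Finset Filter Topology
open scoped BigOperators

theorem Model.sur_of {M : Model} {V : Type} [DecidableEq V] (e : Fin 3 → M.Col)
    (v : (c : M.Col) → Fin (M.ar c) → V) (k : Fin 3 → ℕ) (A : Fin 3 → Finset V)
    (hk : ∀ a, M.kk (e a) = k a) (hA : ∀ a, univ.image (v (e a)) = A a) (I : Finset (Fin 3))
    (R : Finset V) (h : ∀ 𝒮 ⊆ I, 𝒮.Nonempty → ∑ a ∈ 𝒮, k a + 1 ≤ (𝒮.biUnion A \ R).card)
    (J : Finset M.Col) (hJ : ∀ c ∈ J, ∃ a ∈ I, e a = c) : Model.Sur J v R := by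
  intro 𝒦 h𝒦 hne
  have h1 : 𝒦 = (I.filter (fun a => e a ∈ 𝒦)).image e := by
    ext c
    simp only [mem_image, mem_filter]
    constructor
    · intro hc
      obtain ⟨a, ha, rfl⟩ := hJ c (h𝒦 hc)
      exact ⟨a, ⟨ha, hc⟩, rfl⟩
    · rintro ⟨a, ⟨_, ha⟩, rfl⟩
      exact ha
  have h2 := h (I.filter (fun a => e a ∈ 𝒦)) (filter_subset _ _) (by
    rw [h1] at hne
    exact hne.of_image)
  rw [h1, image_biUnion]
  simp only [hA]
  refine le_trans (Nat.add_le_add_right ?_ 1) h2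
  refine (sum_image_le_of_nonneg fun _ _ => Nat.zero_le _).trans ?_
  simp only [hk, le_refl]

theorem Model.samp' {M : Model} {m : ℕ} [NeZero m] {V : Type} [Fintype V] [DecidableEq V]
    (J₀ : Finset M.Col) (J₁ Jt : Fin m → Finset M.Col) (hJ : ∀ i c, c ∈ Jt i ↔ c ∈ J₀ ∨ c ∈ J₁ i)
    (hd₀ : ∀ i, Disjoint J₀ (J₁ i))
    (hd₁ : ∀ i j, i ≠ j → Disjoint (J₁ i) (J₁ j)) (hK : J₀.card + ∑ i, (J₁ i).card < M.K)
    (v : (c : M.Col) → Fin (M.ar c) → V) (Z : Finset V) (hZ : ∀ c ∈ J₀, ∀ s, v c s ∈ Z)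
    (e e' : V) (he : e ∉ Z) (he' : e' ∉ Z) (h1 : ∀ i, Model.Sur (J₁ i) v Z)
    (h2 : ∀ i a, Model.Sur (Jt i) v {a}) {δ : ℝ} (hδ : 0 < δ) :
    Model.WHP (fun r (ω : M.Om r) => Samp (fun i => Model.Wt ω (Jt i) v) Z e e' δ) := by
  have hu : ∀ i, J₀ ∪ J₁ i = Jt i := fun i => by
    ext c
    rw [mem_union, hJ]
  have h := Model.samp_whp J₀ J₁ hd₀ hd₁ hK v Z hZ e e' he he' h1
    (fun i => by rw [hu]; exact h2 i e) (fun i => by rw [hu]; exact h2 i e') hδ
  simpa only [hu] using h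

namespace Am

/-- Variables of the corner thetas. -/
def AC (a : Fin 3) : Finset (Fin 15) := univ.image (vc3 a)

/-- Variables of the eta positions. -/
def AE : Fin 3 → Finset (Fin 21) := ![univ.image (ve3 0), univ.image (ve3 1), univ]

/-- The finite surplus check for corners. -/
def SC (R : Finset (Fin 15)) : Prop :=
  ∀ 𝒮 ⊆ (univ : Finset (Fin 3)), 𝒮.Nonempty → ∑ _a ∈ 𝒮, 4 + 1 ≤ (𝒮.biUnion AC \ R).card

/-- The finite surplus check for etas. -/
def SE (I : Finset (Fin 3)) (R : Finset (Fin 21)) : Prop :=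
  ∀ 𝒮 ⊆ I, 𝒮.Nonempty → ∑ a ∈ 𝒮, ![4, 4, 10] a + 1 ≤ (𝒮.biUnion AE \ R).card

instance (R : Finset (Fin 15)) : Decidable (SC R) := by unfold SC; infer_instance

instance (I : Finset (Fin 3)) (R : Finset (Fin 21)) : Decidable (SE I R) := by
  unfold SE; infer_instance

variable {m : ℕ}

theorem surC (i : Fin m) {R : Finset (Fin 15)} (h : SC R) : Model.Sur (M := Mod m) (Jc i) vc R :=
  Model.sur_of (M := Mod m) (fun a => Sum.inl (a, i)) vc (fun _ => 4) AC (fun _ => rfl) (fun _ => rfl)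
    univ R h _ (by
      intro c hc
      simp only [Jc, mem_insert, mem_singleton] at hc
      rcases hc with rfl | rfl | rfl <;> exact ⟨_, mem_univ _, rfl⟩)

/-- The positions of an eta pattern. -/
def eE (j k : Fin m) : Fin 3 → (Mod m).Col := ![Sum.inl (0, j), Sum.inl (1, k), Sum.inr (Sum.inl (j, k))]

theorem surE (j k : Fin m) {I : Finset (Fin 3)} {R : Finset (Fin 21)} (h : SE I R)
    (J : Finset (Mod m).Col) (hJ : ∀ c ∈ J, ∃ a ∈ I, eE j k a = c) : Model.Sur (M := Mod m) J ve R :=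
  Model.sur_of (M := Mod m) (eE j k) ve ![4, 4, 10] AE (fun a => by fin_cases a <;> rfl)
    (fun a => by
      fin_cases a
      · rfl
      · rfl
      · exact image_id) I R h J hJ

theorem Je_sub (j k : Fin m) : ∀ c ∈ Je j k, ∃ a ∈ univ, eE j k a = c := by
  intro c hc
  simp only [Je, mem_insert, mem_singleton] at hc
  rcases hc with rfl | rfl | rfl
  · exact ⟨0, mem_univ _, rfl⟩
  · exact ⟨1, mem_univ _, rfl⟩
  · exact ⟨2, mem_univ _, rfl⟩

theorem surE' (j k : Fin m) {R : Finset (Fin 21)} (h : SE univ R) :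
    Model.Sur (M := Mod m) (Je j k) ve R := surE j k h _ (Je_sub j k)

theorem sc1 : ∀ a, SC {a} := by decide +kernel

theorem se1 : ∀ a, SE univ {a} := by decide +kernel

variable [NeZero m]

theorem Jc_card (i : Fin m) : (Jc i).card < (Mod m).K := by
  have := NeZero.pos m
  exact lt_of_le_of_lt card_le_three (by change 3 < 3 * m + 1; omega)

theorem Je_card (j k : Fin m) : (Je j k).card < (Mod m).K := by
  have := NeZero.pos m
  exact lt_of_le_of_lt card_le_three (by change 3 < 3 * m + 1; omega)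

open Model

theorem samp0 {V : Type} [Fintype V] [DecidableEq V] (J₁ : Fin m → Finset (Mod m).Col)
    (hd₁ : ∀ i j, i ≠ j → Disjoint (J₁ i) (J₁ j)) (hK : ∀ i, (J₁ i).card ≤ 3)
    (v : (c : (Mod m).Col) → Fin ((Mod m).ar c) → V) (Z : Finset V)
    (e e' : V) (he : e ∉ Z) (he' : e' ∉ Z) (h1 : ∀ i, Sur (J₁ i) v Z)
    (h2 : ∀ i a, Sur (J₁ i) v {a}) {δ : ℝ} (hδ : 0 < δ) :
    WHP (fun r (ω : (Mod m).Om r) => Samp (fun i => Wt ω (J₁ i) v) Z e e' δ) := by
  refine samp' ∅ J₁ J₁ (by simp) (fun _ => disjoint_empty_left _) hd₁ ?_ v Z (by simp) e e' he he' h1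
    h2 hδ
  have := sum_le_card_nsmul univ (fun i => (J₁ i).card) 3 (fun i _ => hK i)
  simp only [card_univ, Fintype.card_fin, smul_eq_mul, card_empty] at this ⊢
  omega

theorem sampC (Z : Finset (Fin 15)) (e e' : Fin 15) (h : e ∉ Z ∧ e' ∉ Z ∧ SC Z) {δ : ℝ}
    (hδ : 0 < δ) :
    WHP (fun r (ω : (Mod m).Om r) => Samp (fun i : Fin m => Wt ω (Jc i) vc) Z e e' δ) :=
  samp0 Jc (fun i j hij => by simp [Jc, hij.symm]) (fun _ => card_le_three) vc Z e e' h.1 h.2.1
    (fun i => surC i h.2.2) (fun i a => surC i (sc1 a)) hδ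

theorem sampE (Z : Finset (Fin 21)) (e e' : Fin 21) (h : e ∉ Z ∧ e' ∉ Z ∧ SE univ Z) {δ : ℝ}
    (hδ : 0 < δ) :
    WHP (fun r (ω : (Mod m).Om r) => ∀ d : Fin m,
      Samp (fun i : Fin m => Wt ω (Je i (i + d)) ve) Z e e' δ) :=
  WHP.forall fun d => samp0 (fun i => Je i (i + d)) (fun i j hij => by simp [Je, hij.symm])
    (fun _ => card_le_three) ve Z e e' h.1 h.2.1 (fun i => surE' _ _ h.2.2)
    (fun i a => surE' _ _ (se1 a)) hδ

theorem sampEC {δ : ℝ} (hδ : 0 < δ) :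
    WHP (fun r (ω : (Mod m).Om r) => ∀ j : Fin m,
      Samp (fun k : Fin m => Wt ω (Je j k) ve) {0, 1, 2, 3, 4, 5} 13 7 δ) := by
  refine WHP.forall fun j => ?_
  exact samp' (M := Mod m) {Sum.inl (0, j)}
    (fun k : Fin m => {Sum.inl (1, k), Sum.inr (Sum.inl (j, k))}) (Je j) (by simp [Je])
    (fun k => by simp) (fun k l hkl => by simp [hkl.symm]) (by
      have := sum_le_card_nsmul univ (fun k : Fin m =>
        ({Sum.inl (1, k), Sum.inr (Sum.inl (j, k))} : Finset (Mod m).Col).card) 2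
        (fun i _ => card_le_two)
      have h0 := NeZero.pos m
      simp only [card_univ, Fintype.card_fin, smul_eq_mul, card_singleton] at this ⊢
      omega) ve {0, 1, 2, 3, 4, 5} (by
      intro c hc
      rw [mem_singleton.mp hc]
      exact (by decide : ∀ s, ve3 0 s ∈ ({0, 1, 2, 3, 4, 5} : Finset (Fin 21)))) 13 7
    (by decide) (by decide)
    (fun k => surE j k (I := {1, 2}) (by decide +kernel) _ (by
      intro c hc
      simp only [mem_insert, mem_singleton] at hc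
      rcases hc with rfl | rfl
      · exact ⟨1, by decide, rfl⟩
      · exact ⟨2, by decide, rfl⟩))
    (fun k a => surE' _ _ (se1 a)) hδ

theorem sampEB {δ : ℝ} (hδ : 0 < δ) :
    WHP (fun r (ω : (Mod m).Om r) => ∀ k : Fin m,
      Samp (fun j : Fin m => Wt ω (Je j k) ve) {6, 7, 8, 9, 10, 11} 1 12 δ) := by
  refine WHP.forall fun k => ?_
  exact samp' (M := Mod m) {Sum.inl (1, k)}
    (fun j : Fin m => {Sum.inl (0, j), Sum.inr (Sum.inl (j, k))}) (fun j => Je j k)
    (by simp [Je, or_left_comm])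
    (fun k => by simp) (fun k l hkl => by simp [hkl.symm]) (by
      have := sum_le_card_nsmul univ (fun j : Fin m =>
        ({Sum.inl (0, j), Sum.inr (Sum.inl (j, k))} : Finset (Mod m).Col).card) 2
        (fun i _ => card_le_two)
      have h0 := NeZero.pos m
      simp only [card_univ, Fintype.card_fin, smul_eq_mul, card_singleton] at this ⊢
      omega) ve {6, 7, 8, 9, 10, 11} (by
      intro c hc
      rw [mem_singleton.mp hc]
      exact (by decide : ∀ s, ve3 1 s ∈ ({6, 7, 8, 9, 10, 11} : Finset (Fin 21)))) 1 12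
    (by decide) (by decide)
    (fun j => surE j k (I := {0, 2}) (by decide +kernel) _ (by
      intro c hc
      simp only [mem_insert, mem_singleton] at hc
      rcases hc with rfl | rfl
      · exact ⟨0, by decide, rfl⟩
      · exact ⟨2, by decide, rfl⟩))
    (fun j a => surE' _ _ (se1 a)) hδ

theorem u2E (a b : Fin 21) (h : a ≠ b ∧ SE univ {a, b}) (j k : Fin m) {δ : ℝ} (hδ : 0 < δ) :
    WHP (fun r (ω : (Mod m).Om r) => Unif2 (Wt ω (Je j k) ve) a b δ) :=
  unif2_whp _ (Je_card j k) ve a b h.1 (surE' j k h.2) hδ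

/-- The slot map of a single theta. -/
def vm : (c : Col m) → Fin ((Mod m).ar c) → Fin 6
  | Sum.inl _ => id
  | Sum.inr _ => fun _ => 0

end Am

open Model Am in
theorem stat_whp (m : ℕ) [NeZero m] {δ : ℝ} (hδ : 0 < δ) : WHP (M := Mod m) (fun r ω =>
    Stat (P := PP (3 * m + 1) r) (fun i => Wt ω (Jc i) vc) (fun j k => Wt ω (Je j k) ve) Gen Gen
      (fun f => Gen f ∧ Pres ω (hxO f)) δ) := by
  have hK : 0 < (Mod m).K := Nat.succ_pos _
  have a1 := WHP.forall fun i : Fin m => gen_whp hK (Jc i) vc hδ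
  have a2 := WHP.forall fun j : Fin m => WHP.forall fun k : Fin m => gen_whp hK (Je j k) ve hδ
  have a3 := WHP.forall fun i : Fin m => WHP.forall fun a =>
    unif1_whp _ (Jc_card i) vc a (surC i (sc1 a)) hδ
  have a4 := WHP.forall fun j : Fin m => WHP.forall fun k : Fin m => WHP.forall fun a =>
    unif1_whp _ (Je_card j k) ve a (surE' j k (se1 a)) hδ
  have a5 := WHP.forall fun i : Fin m =>
    unif2_whp _ (Jc_card i) vc 1 6 (by decide) (surC i (by decide +kernel)) hδ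
  have a6 := WHP.forall fun j : Fin m => WHP.forall fun k : Fin m =>
    (u2E 12 13 (by decide +kernel) j k hδ).and ((u2E 14 15 (by decide +kernel) j k hδ).and
    ((u2E 16 17 (by decide +kernel) j k hδ).and ((u2E 13 0 (by decide +kernel) j k hδ).and
    ((u2E 1 7 (by decide +kernel) j k hδ).and ((u2E 12 6 (by decide +kernel) j k hδ).and
    (u2E 18 19 (by decide +kernel) j k hδ))))))
  have a7 := sampC (m := m) {1, 6} 4 9 (by decide +kernel) hδ
  have a8 := sampC (m := m) {3} 12 12 (by decide +kernel) hδ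
  have a9 := sampEC (m := m) hδ
  have a10 := sampEB (m := m) hδ
  have a11 := sampE (m := m) {12, 6} 13 13 (by decide +kernel) hδ
  have a12 := sampE (m := m) {13, 0} 12 12 (by decide +kernel) hδ
  have a13 := sampE (m := m) {18, 19} 20 20 (by decide +kernel) hδ
  have a14 := sampE (m := m) {0} 3 1 (by decide +kernel) hδ
  have a15 := sampE (m := m) {6} 9 7 (by decide +kernel) hδ
  refine (a1.and (a2.and (a3.and (a4.and (a5.and (a6.and (a7.and (a8.and (a9.and (a10.and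
    (a11.and (a12.and (a13.and (a14.and (a15.and (hex_whp m)))))))))))))))).mono ?_
  rintro r ω ⟨b1, b2, b3, b4, b5, b6, b7, b8, b9, b10, b11, b12, b13, b14, b15, b16⟩
  exact ⟨fun _ _ => Wt_nonneg _ _ _ _, fun _ _ _ => Wt_nonneg _ _ _ _, b1, b2, b3, b4, b5, b6, b7, b8,
    b9, b10, b11, b12, b13, b14, b15, b16⟩

open Model Classical in
theorem many_whp (m : ℕ) [NeZero m] : WHP (M := Mod m) (fun r ω =>
    Fintype.card (PP (3 * m + 1) r) <
      (univ.filter (fun f : Fin 6 → PP (3 * m + 1) r => Gen f ∧ Pres ω (thO 0 0 f))).card) := by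
  have hm := NeZero.pos m
  have a1 := unif1_whp (M := Mod m) {Sum.inl (0, 0)} (by change 1 < 3 * m + 1; omega) Am.vm 0 (by
    intro 𝒦 h𝒦 hne
    rw [(subset_singleton_iff.mp h𝒦).resolve_left hne.ne_empty, sum_singleton, singleton_biUnion]
    exact (by decide : 4 + 1 ≤ ((univ.image (id : Fin 6 → Fin 6)) \ {0}).card))
    (δ := 1 / 4) (by norm_num)
  have a2 := gen_whp (M := Mod m) (Nat.succ_pos _) {Sum.inl (0, 0)} Am.vm (δ := 1 / 4) (by norm_num)
  refine (a1.and a2).mono' ((eventually_ge_atTop 2).mono fun r hr ω h => ?_)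
  obtain ⟨h1, h2⟩ := h
  have hr0 : 0 < r := by omega
  have : Nonempty (PP (3 * m + 1) r) := ⟨(⟨0, pow_pos hr0 _⟩, true)⟩
  have h3 := h1 (fun _ => 1) (by simp)
  simp only [mul_one, Fintype.expect_const] at h3
  have h4 : (𝔼 φ, Wt ω {Sum.inl (0, 0)} Am.vm φ) =
      (𝔼 φ, Wt ω {Sum.inl (0, 0)} Am.vm φ * (if Gen φ then 0 else 1)) +
        𝔼 φ : Fin 6 → PP (3 * m + 1) r, if Gen φ ∧ Pres ω (thO 0 0 φ) then
          ((Mod m).nn r (Sum.inl (0, 0)) : ℝ) else 0 := by
    rw [← expect_add_distrib]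
    refine expect_congr rfl fun φ _ => ?_
    have : Wt ω {Sum.inl (0, 0)} Am.vm φ =
        if Pres ω (thO 0 0 φ) then ((Mod m).nn r (Sum.inl (0, 0)) : ℝ) else 0 := by
      unfold Wt
      rw [prod_singleton]
      rfl
    rw [this]
    by_cases g1 : Gen φ <;> by_cases g2 : Pres ω (thO 0 0 φ) <;> simp [g1, g2]
  rw [Fintype.expect_eq_sum_div_card (fun φ : Fin 6 → PP (3 * m + 1) r =>
    if Gen φ ∧ Pres ω (thO 0 0 φ) then ((Mod m).nn r (Sum.inl (0, 0)) : ℝ) else 0), ← sum_filter,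
    sum_const, nsmul_eq_mul] at h4
  set N := (univ.filter (fun f : Fin 6 → PP (3 * m + 1) r => Gen f ∧ Pres ω (thO 0 0 f))).card
  have h5 : 1 / 2 ≤ (N : ℝ) * ((Mod m).nn r (Sum.inl (0, 0)) : ℝ) /
      Fintype.card (Fin 6 → PP (3 * m + 1) r) := by
    have := (abs_le.mp h3).1
    linarith
  have hn : Fintype.card (PP (3 * m + 1) r) = 2 * r ^ (3 * m + 1) := by
    simp [mul_comm]
  have hnn : (Mod m).nn r (Sum.inl (0, 0)) = (2 * r ^ (3 * m + 1)) ^ 4 * r := rfl
  rw [Fintype.card_fun, Fintype.card_fin, hn, hnn] at h5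
  rw [hn]
  have hlt : 2 * r < 2 * r ^ (3 * m + 1) := by
    have := Nat.pow_lt_pow_right (show 1 < r by omega) (show 1 < 3 * m + 1 by omega)
    rw [pow_one] at this
    omega
  set n := 2 * r ^ (3 * m + 1)
  have hn0 : 0 < n := by omega
  rw [div_le_div_iff₀ (by norm_num) (by positivity)] at h5
  have h6 : n ^ 6 ≤ N * (n ^ 4 * r) * 2 := by
    rw [one_mul] at h5
    exact_mod_cast h5
  by_contra hc
  have h7 : N * (n ^ 4 * r) * 2 ≤ n * (n ^ 4 * r) * 2 :=
    Nat.mul_le_mul_right _ (Nat.mul_le_mul_right _ (not_lt.mp hc))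
  have h8 : n ^ 5 * (2 * r) < n ^ 5 * n := Nat.mul_lt_mul_of_pos_left hlt (by positivity)
  nlinarith

end Crest.Agent.R196
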