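import Crest.Agent.R196.Cons

/-!
Task R196-P3a: amalgams of patterns.
-/

set_option autoImplicit false

namespace Crest.Agent.R196

open Finset Filter Topology
open scoped BigOperators

/-- The inclusion of the `i`-th copy into the amalgam. -/
def am {m : ℕ} [NeZero m] {V : Type} [DecidableEq V] (Z : Finset V) (i : Fin m) (a : V) : Fin m × V :=
  if a ∈ Z then (0, a) else (i, a)

theorem am_snd {m : ℕ} [NeZero m] {V : Type} [DecidableEq V] (Z : Finset V) (i : Fin m) (a : V) :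
    (am Z i a).2 = a := by
  unfold am
  split_ifs <;> rfl

theorem am_inj {m : ℕ} [NeZero m] {V : Type} [DecidableEq V] (Z : Finset V) (i : Fin m) :
    Function.Injective (am Z i) := fun a b h => by
  rw [← am_snd Z i a, h, am_snd]

theorem am_of_mem {m : ℕ} [NeZero m] {V : Type} [DecidableEq V] {Z : Finset V} {a : V} (h : a ∈ Z)
    (i j : Fin m) : am Z i a = am Z j a := by
  simp only [am, if_pos h]

theorem am_of_not {m : ℕ} [NeZero m] {V : Type} [DecidableEq V] {Z : Finset V} {a : V} (h : a ∉ Z)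
    (i : Fin m) : am Z i a = (i, a) := by
  simp only [am, if_neg h]

theorem card_glue {m : ℕ} [NeZero m] {V : Type} [DecidableEq V] (Z : Finset V) (i₀ : Fin m)
    (A : Fin m → Finset V) (T : Finset (Fin m × V)) (h1 : ∀ j, ∀ b ∈ A j, am Z j b ∈ T)
    (h2 : ∀ j, j ≠ i₀ → ∀ b ∈ A j, b ∉ Z) : ∑ j, (A j).card ≤ T.card := by
  rw [← Finset.card_sigma]
  refine card_le_card_of_injOn (fun z => am Z z.1 z.2) ?_ ?_
  · intro z hz
    exact h1 _ _ (mem_sigma.mp hz).2
  · rintro ⟨j, b⟩ hz ⟨j', b'⟩ hz' e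
    have hb := (mem_sigma.mp hz).2
    have hb' := (mem_sigma.mp hz').2
    simp only at e hb hb'
    obtain rfl : b = b' := by rw [← am_snd Z j b, e, am_snd]
    by_cases h : b ∈ Z
    · have a1 : j = i₀ := by
        by_contra hc
        exact h2 j hc b hb h
      have a2 : j' = i₀ := by
        by_contra hc
        exact h2 j' hc b hb' h
      rw [a1, a2]
    · rw [am_of_not h, am_of_not h] at e
      obtain rfl : j = j' := congrArg Prod.fst e
      rfl

namespace Model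

variable {M : Model}

theorem unif_whp {V V' : Type} [Fintype V] [DecidableEq V] [Fintype V'] [DecidableEq V'] [Nonempty V']
    (ι : V' → V) (hι : Function.Injective ι) (J : Finset M.Col) (hK : J.card < M.K)
    (v : (c : M.Col) → Fin (M.ar c) → V) (hS : Sur J v (univ.image ι)) {δ : ℝ} (hδ : 0 < δ) :
    WHP (fun r (ω : M.Om r) => ∀ F : (V' → PP M.K r) → ℝ, (∀ ρ, |F ρ| ≤ 1) →
      |(𝔼 φ, Wt ω J v φ * F (φ ∘ ι)) - 𝔼 ρ, F ρ| ≤ δ) := by
  refine (cons ι hι J ∅ (empty_subset _) hK v (fun _ _ => Classical.arbitrary _) (by simp)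
    (by rwa [sdiff_empty]) hδ).mono fun r ω h F hF => ?_
  simpa only [Wt, prod_empty, one_mul] using h F hF

theorem unif1_whp {V : Type} [Fintype V] [DecidableEq V] (J : Finset M.Col) (hK : J.card < M.K)
    (v : (c : M.Col) → Fin (M.ar c) → V) (a : V) (hS : Sur J v {a}) {δ : ℝ} (hδ : 0 < δ) :
    WHP (fun r (ω : M.Om r) => Unif1 (Wt ω J v) a δ) := by
  refine (unif_whp (fun _ : Unit => a) (fun _ _ _ => rfl) J hK v (by simpa using hS) hδ).mono
    fun r ω h F hF => ?_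
  have h1 := h (fun ρ => F (ρ ())) (fun ρ => hF _)
  rwa [Fintype.expect_equiv (Equiv.funUnique Unit _) (fun ρ => F (ρ ())) F (fun _ => rfl)] at h1

theorem unif2_whp {V : Type} [Fintype V] [DecidableEq V] (J : Finset M.Col) (hK : J.card < M.K)
    (v : (c : M.Col) → Fin (M.ar c) → V) (a b : V) (hab : a ≠ b) (hS : Sur J v {a, b}) {δ : ℝ}
    (hδ : 0 < δ) : WHP (fun r (ω : M.Om r) => Unif2 (Wt ω J v) a b δ) := by
  refine (unif_whp ![a, b] (by
    intro i j h
    fin_cases i <;> fin_cases j <;> simp_all [eq_comm]) J hK v (by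
      have : univ.image ![a, b] = {a, b} := by
        ext x
        simp [Fin.exists_fin_two, eq_comm]
      rwa [this]) hδ).mono fun r ω h F hF => ?_
  have h1 := h (fun ρ => F (ρ 0) (ρ 1)) (fun ρ => hF _ _)
  rwa [Fintype.expect_equiv (finTwoArrowEquiv _) (fun ρ => F (ρ 0) (ρ 1)) (fun z => F z.1 z.2)
    (fun _ => rfl),
    ← univ_product_univ, expect_product] at h1

theorem samp_whp {m : ℕ} [NeZero m] {V : Type} [Fintype V] [DecidableEq V] (J₀ : Finset M.Col)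
    (J₁ : Fin m → Finset M.Col) (hd₀ : ∀ i, Disjoint J₀ (J₁ i))
    (hd₁ : ∀ i j, i ≠ j → Disjoint (J₁ i) (J₁ j)) (hK : J₀.card + ∑ i, (J₁ i).card < M.K)
    (v : (c : M.Col) → Fin (M.ar c) → V) (Z : Finset V) (hZ : ∀ c ∈ J₀, ∀ s, v c s ∈ Z)
    (e e' : V) (he : e ∉ Z) (he' : e' ∉ Z) (h1 : ∀ i, Sur (J₁ i) v Z)
    (h2 : ∀ i, Sur (J₀ ∪ J₁ i) v {e}) (h2' : ∀ i, Sur (J₀ ∪ J₁ i) v {e'}) {δ : ℝ} (hδ : 0 < δ) :
    WHP (fun r (ω : M.Om r) => Samp (fun i => Wt ω (J₀ ∪ J₁ i) v) Z e e' δ) := by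
  have hex : ∀ c : M.Col, ∃ j : Fin m, ∀ i, c ∈ J₁ i → j = i := by
    intro c
    by_cases h : ∃ i, c ∈ J₁ i
    · obtain ⟨i, hi⟩ := h
      refine ⟨i, fun j hj => ?_⟩
      by_contra hc
      exact disjoint_left.mp (hd₁ i j hc) hi hj
    · exact ⟨0, fun i hi => absurd ⟨i, hi⟩ h⟩
  choose own hown using hex
  let J := J₀ ∪ univ.biUnion J₁
  have hJ : J.card < M.K :=
    lt_of_le_of_lt ((card_union_le _ _).trans (Nat.add_le_add_left card_biUnion_le _)) hK
  let v2 : (c : M.Col) → Fin (M.ar c) → Fin m × V := fun c s => am Z (own c) (v c s)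
  -- the general surplus estimate
  have key : ∀ (i₀ : Fin m) (𝒦 : Finset M.Col), 𝒦 ⊆ J → ∃ 𝒦' : Fin m → Finset M.Col,
      ∑ c ∈ 𝒦, M.kk c = ∑ j, ∑ c ∈ 𝒦' j, M.kk c ∧ (∀ j, 𝒦' j ⊆ 𝒦) ∧ 𝒦' i₀ ⊆ J₀ ∪ J₁ i₀ ∧
      (∀ j, j ≠ i₀ → 𝒦' j ⊆ J₁ j) ∧ (∀ c ∈ 𝒦, ∃ j, c ∈ 𝒦' j) ∧
      (∀ c ∈ 𝒦, c ∈ J₀ ∪ J₁ i₀ → c ∈ 𝒦' i₀) ∧
      ∀ j, ∀ b ∈ (𝒦' j).biUnion (fun c => univ.image (v c)),
        am Z j b ∈ 𝒦.biUnion (fun c => univ.image (v2 c)) := by
    intro i₀ 𝒦 h𝒦
    let ow : M.Col → Fin m := fun c => if c ∈ J₀ then i₀ else own c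
    have how : ∀ c ∈ 𝒦, c ∉ J₀ → c ∈ J₁ (own c) := by
      intro c hc h0
      rcases mem_union.mp (h𝒦 hc) with h | h
      · exact absurd h h0
      · obtain ⟨i, _, hi⟩ := mem_biUnion.mp h
        rwa [hown c i hi]
    refine ⟨fun j => 𝒦.filter (fun c => ow c = j), (sum_fiberwise _ _ _).symm,
      fun j => filter_subset _ _, fun c hc => ?_, fun j hj c hc => ?_,
      fun c hc => ⟨ow c, mem_filter.mpr ⟨hc, rfl⟩⟩, fun c hc h => mem_filter.mpr ⟨hc, ?_⟩,
      fun j b hb => ?_⟩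
    · obtain ⟨a1, a2⟩ := mem_filter.mp hc
      by_cases h0 : c ∈ J₀
      · exact mem_union_left _ h0
      · simp only [ow, if_neg h0] at a2
        exact mem_union_right _ (a2 ▸ how c a1 h0)
    · obtain ⟨a1, a2⟩ := mem_filter.mp hc
      by_cases h0 : c ∈ J₀
      · simp only [ow, if_pos h0] at a2
        exact absurd a2.symm hj
      · simp only [ow, if_neg h0] at a2
        exact a2 ▸ how c a1 h0
    · by_cases h0 : c ∈ J₀
      · simp only [ow, if_pos h0]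
      · simp only [ow, if_neg h0]
        exact hown c i₀ ((mem_union.mp h).resolve_left h0)
    · obtain ⟨c, hc, hb⟩ := mem_biUnion.mp hb
      obtain ⟨s, _, rfl⟩ := mem_image.mp hb
      obtain ⟨a1, a2⟩ := mem_filter.mp hc
      refine mem_biUnion.mpr ⟨c, a1, mem_image.mpr ⟨s, mem_univ _, ?_⟩⟩
      by_cases h0 : c ∈ J₀
      · exact am_of_mem (hZ c h0 s) _ _
      · simp only [ow, if_neg h0] at a2
        simp only [v2, a2]
  have hA : ∀ i, WHP (fun r (ω : M.Om r) => ∀ F : (V → PP M.K r) → ℝ, (∀ ρ, |F ρ| ≤ 1) →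
      |(𝔼 φ, Wt ω J v2 φ * F (φ ∘ am Z i)) - 𝔼 ρ, Wt ω (J₀ ∪ J₁ i) v ρ * F ρ| ≤ δ) := by
    intro i
    refine cons (am Z i) (am_inj Z i) J (J₀ ∪ J₁ i)
      (union_subset_union_right (subset_biUnion_of_mem J₁ (mem_univ i))) hJ v2 v ?_ ?_ hδ
    · intro c hc s
      rcases mem_union.mp hc with h | h
      · exact am_of_mem (hZ c h s) _ _
      · simp only [v2, hown c i h]
    · intro 𝒦 h𝒦 hne
      obtain ⟨𝒦', k1, k2, k3, k4, k5, -, k7⟩ := key i 𝒦 (h𝒦.trans sdiff_subset)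
      have hi : 𝒦' i = ∅ := eq_empty_of_forall_notMem fun c hc =>
        (mem_sdiff.mp (h𝒦 (k2 i hc))).2 (k3 hc)
      refine le_trans ?_ (card_glue Z i (fun j => (𝒦' j).biUnion (fun c => univ.image (v c)) \ Z) _
        (fun j b hb => ?_) (fun j _ b hb => (mem_sdiff.mp hb).2))
      · rw [k1]
        obtain ⟨c, hc⟩ := hne
        obtain ⟨j, hj⟩ := k5 c hc
        have hji : j ≠ i := by
          rintro rfl
          rw [hi] at hj
          simp at hj
        refine Nat.succ_le_of_lt (sum_lt_sum (fun l _ => ?_)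
          ⟨j, mem_univ _, Nat.lt_of_succ_le (h1 j _ (k4 j hji) ⟨c, hj⟩)⟩)
        rcases (𝒦' l).eq_empty_or_nonempty with h0 | h0
        · rw [h0]; simp
        · have hl : l ≠ i := by
            rintro rfl
            exact h0.ne_empty hi
          exact (Nat.le_succ _).trans (h1 l _ (k4 l hl) h0)
      · obtain ⟨b1, b2⟩ := mem_sdiff.mp hb
        refine mem_sdiff.mpr ⟨k7 j b b1, fun h => ?_⟩
        obtain ⟨a, _, ha⟩ := mem_image.mp h
        obtain rfl : a = b := by rw [← am_snd Z i a, ha, am_snd]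
        rw [am_of_not b2, am_of_not b2] at ha
        obtain rfl : i = j := congrArg Prod.fst ha
        rw [hi] at b1
        simp at b1
  have hB : ∀ a, (∀ i, Sur (J₀ ∪ J₁ i) v {a}) →
      WHP (fun r (ω : M.Om r) => ∀ F : (Fin m → PP M.K r) → ℝ, (∀ ρ, |F ρ| ≤ 1) →
      |(𝔼 φ, Wt ω J v2 φ * F (φ ∘ fun i => (i, a))) - 𝔼 ρ, F ρ| ≤ δ) := by
    intro a ha
    refine unif_whp (fun i : Fin m => (i, a)) (fun i j h => congrArg Prod.fst h) J hJ v2 ?_ hδ
    intro 𝒦 h𝒦 hne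
    obtain ⟨c, hc⟩ := hne
    obtain ⟨i, hi⟩ : ∃ i, c ∈ J₀ ∪ J₁ i := by
      rcases mem_union.mp (h𝒦 hc) with h | h
      · exact ⟨0, mem_union_left _ h⟩
      · obtain ⟨i, _, hi⟩ := mem_biUnion.mp h
        exact ⟨i, mem_union_right _ hi⟩
    obtain ⟨𝒦', k1, k2, k3, k4, -, k6, k7⟩ := key i 𝒦 h𝒦
    refine le_trans ?_ (card_glue Z i (fun j => ((𝒦' j).biUnion (fun c => univ.image (v c)) \
      (if j = i then ∅ else Z)) \ {a}) _ (fun j b hb => ?_) (fun j hj b hb => ?_))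
    · rw [k1]
      refine Nat.succ_le_of_lt (sum_lt_sum (fun l _ => ?_) ⟨i, mem_univ _, ?_⟩)
      · rcases (𝒦' l).eq_empty_or_nonempty with h0 | h0
        · rw [h0]; simp
        · by_cases hl : l = i
          · subst hl
            rw [if_pos rfl, sdiff_empty]
            exact (Nat.le_succ _).trans (ha l _ k3 h0)
          · rw [if_neg hl]
            have a1 := h1 l _ (k4 l hl) h0
            have a2 := le_card_sdiff ({a} : Finset V)
              ((𝒦' l).biUnion (fun c => univ.image (v c)) \ Z)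
            rw [card_singleton] at a2
            omega
      · rw [if_pos rfl, sdiff_empty]
        exact ha i _ k3 ⟨c, k6 c hc hi⟩
    · obtain ⟨b1, b2⟩ := mem_sdiff.mp hb
      refine mem_sdiff.mpr ⟨k7 j b (mem_sdiff.mp b1).1, fun h => b2 ?_⟩
      obtain ⟨l, _, hl⟩ := mem_image.mp h
      rw [mem_singleton, ← am_snd Z j b, ← hl]
    · have := (Finset.mem_sdiff.mp (Finset.mem_sdiff.mp hb).1).2
      rwa [if_neg hj] at this
  refine (((WHP.forall hA).and (hB e h2)).and (hB e' h2')).mono ?_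
  rintro r ω ⟨⟨a1, a2⟩, a3⟩
  have hsum : ∀ G : (Fin m × V → PP M.K r) → ℝ,
      ∑ ψ, Wt ω J v2 ψ / Fintype.card (Fin m × V → PP M.K r) * G ψ = 𝔼 ψ, Wt ω J v2 ψ * G ψ := by
    intro G
    rw [Fintype.expect_eq_sum_div_card, sum_div]
    exact sum_congr rfl fun ψ _ => by ring
  refine ⟨Fin m × V → PP M.K r, inferInstance,
    fun ψ => Wt ω J v2 ψ / Fintype.card (Fin m × V → PP M.K r), fun ψ i => ψ ∘ am Z i,
    fun ψ => div_nonneg (Wt_nonneg _ _ _ _) (Nat.cast_nonneg _),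
    fun ψ i j z hz => congrArg ψ (am_of_mem hz _ _), fun i F hF => ?_, fun a ha F hF => ?_⟩
  · rw [hsum]
    exact a1 i F hF
  · rw [hsum]
    rcases ha with rfl | rfl
    · simp only [Function.comp, am_of_not he]
      exact a2 F hF
    · simp only [Function.comp, am_of_not he']
      exact a3 F hF

end Model

end Crest.Agent.R196
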