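import Mathlib
import Crest.Prelude.Def_GeometricAction

/-!
Task R196-G1: CAT(0) toolbox.

* `pt hX t x y` is the point at parameter `t * dist x y` on a chosen geodesic.  `cn`: apply the comparison inequality at
  the vertex `x` with `γ` from `x` to `y`, `γ'` from `x` to `z`, parameters `t * dist x y` and `dist x z` (treat
  `dist x y = 0`, `dist x z = 0` separately).
* `pt_unique`: apply `cn` with `z = w`.  `pt_smul` from `pt_unique`.  `quad`: `cn` twice at midpoints.
* `pt_convex`: via the intermediate point `pt t x y'`; `dist (pt t x y) (pt t x y') ≤ t * dist y y'` is the comparison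
  inequality (or `cn` twice), and `pt t x y = pt (1 - t) y x` by `pt_unique`.
* `exists_harmonic`: `E q = 𝔼 c, dist q (x c • q) ^ 2` has a minimiser.  Let `K` be the compact set of cocompactness,
  `C = E q₀`.  If `E (g • k) ≤ C`, `k ∈ K`, then `g⁻¹ * x c * g` moves `k` by at most `√(card P * C)`, so it lies in the finite
  set `F` given by properness for the compact set `cthickening (√(card P * C)) K` (or a closed ball containing it).  So there
  are finitely many patterns `c ↦ g⁻¹ * x c * g`; `E (g • k)` depends only on the pattern and `k`; hence `E` attains its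
  infimum on a finite union of translates of `K`.  At a minimiser `p`, with `p_t = pt t p q`, two applications of `cn` give
  `d²(p_t, s p_t) ≤ (1-t)² d²(p, s p) + t (1-t) (d²(p, s q) + d²(q, s p)) + t² d²(q, s q) - 2 t (1-t) d²(p, q)`; average over
  `c` (use `σ`), divide by `t`, let `t → 0`.
-/

set_option autoImplicit false

namespace Crest.Agent.R196

open Crest.Geometry
open scoped BigOperators

universe u

variable {X : Type u} [MetricSpace X] (hX : IsCAT0Space X)

/-- The point at the fraction `t` of the geodesic from `x` to `y`. -/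
noncomputable def pt (t : ℝ) (x y : X) : X := (hX.1 x y).choose (t * dist x y)

theorem pt_mem {t : ℝ} (h0 : 0 ≤ t) (h1 : t ≤ 1) (x y : X) :
    t * dist x y ∈ Set.Icc (0 : ℝ) (dist x y) :=
  ⟨mul_nonneg h0 dist_nonneg, mul_le_of_le_one_left dist_nonneg h1⟩

theorem pt_left {t : ℝ} (h0 : 0 ≤ t) (h1 : t ≤ 1) (x y : X) :
    dist x (pt hX t x y) = t * dist x y := by
  obtain ⟨e0, -, h⟩ := (hX.1 x y).choose_spec
  have := h 0 ⟨le_rfl, dist_nonneg⟩ _ (pt_mem h0 h1 x y)
  rw [e0, zero_sub, abs_neg, abs_of_nonneg (pt_mem h0 h1 x y).1] at this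
  exact this

theorem pt_right {t : ℝ} (h0 : 0 ≤ t) (h1 : t ≤ 1) (x y : X) :
    dist (pt hX t x y) y = (1 - t) * dist x y := by
  obtain ⟨-, e1, h⟩ := (hX.1 x y).choose_spec
  have := h _ (pt_mem h0 h1 x y) _ ⟨dist_nonneg, le_rfl⟩
  rw [e1, abs_of_nonpos (sub_nonpos.2 (pt_mem h0 h1 x y).2)] at this
  rw [pt, this]
  ring

theorem pt_one (x y : X) : pt hX 1 x y = y := by
  have := pt_right hX zero_le_one le_rfl x y
  rwa [sub_self, zero_mul, dist_eq_zero] at this

theorem cmp {s t : ℝ} (s0 : 0 ≤ s) (s1 : s ≤ 1) (t0 : 0 ≤ t) (t1 : t ≤ 1) (x y z : X) :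
    dist (pt hX s x y) (pt hX t x z) ^ 2 ≤ s ^ 2 * dist x y ^ 2 + t ^ 2 * dist x z ^ 2 -
      s * t * (dist x y ^ 2 + dist x z ^ 2 - dist y z ^ 2) := by
  have h := hX.2 x y z _ _ (hX.1 x y).choose_spec (hX.1 x z).choose_spec _ (pt_mem s0 s1 x y) _
    (pt_mem t0 t1 x z)
  refine h.trans (le_of_eq ?_)
  by_cases hy : x = y
  · subst hy
    simp [mul_pow]
  by_cases hz : x = z
  · subst hz
    simp [mul_pow, dist_comm y x]
  have h1 : dist x y ≠ 0 := dist_ne_zero.2 hy
  have h2 : dist x z ≠ 0 := dist_ne_zero.2 hz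
  field_simp

theorem cn {t : ℝ} (h0 : 0 ≤ t) (h1 : t ≤ 1) (x y z : X) :
    dist z (pt hX t x y) ^ 2 ≤
      (1 - t) * dist z x ^ 2 + t * dist z y ^ 2 - t * (1 - t) * dist x y ^ 2 := by
  have h := cmp hX h0 h1 zero_le_one le_rfl x y z
  rw [pt_one, dist_comm _ z, dist_comm x z, dist_comm y z] at h
  linarith

theorem pt_unique {t : ℝ} (h0 : 0 ≤ t) (h1 : t ≤ 1) {x y w : X} (hl : dist x w = t * dist x y)
    (hr : dist w y = (1 - t) * dist x y) : w = pt hX t x y := by
  have h := cn hX h0 h1 x y w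
  rw [dist_comm w x, hl, hr] at h
  have h2 : dist w (pt hX t x y) ^ 2 ≤ 0 := h.trans (le_of_eq (by ring))
  exact dist_eq_zero.1 (pow_eq_zero_iff two_ne_zero |>.1 (le_antisymm h2 (sq_nonneg _)))

theorem pt_smul {G : Type*} [Group G] [MulAction G X] [IsIsometricSMul G X] {t : ℝ} (h0 : 0 ≤ t)
    (h1 : t ≤ 1) (g : G) (x y : X) : g • pt hX t x y = pt hX t (g • x) (g • y) :=
  pt_unique hX h0 h1 (by rw [dist_smul, dist_smul, pt_left hX h0 h1])
    (by rw [dist_smul, dist_smul, pt_right hX h0 h1])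

theorem pt_symm {t : ℝ} (h0 : 0 ≤ t) (h1 : t ≤ 1) (x y : X) :
    pt hX t x y = pt hX (1 - t) y x :=
  pt_unique hX (by linarith) (by linarith) (by rw [dist_comm, pt_right hX h0 h1, dist_comm])
    (by rw [dist_comm, pt_left hX h0 h1, dist_comm, sub_sub_cancel])

include hX in
theorem quad (a b c d : X) :
    dist a c ^ 2 + dist b d ^ 2 ≤ dist a b ^ 2 + dist b c ^ 2 + dist c d ^ 2 + dist d a ^ 2 := by
  have h0 : (0 : ℝ) ≤ 1 / 2 := by norm_num
  have h1 : (1 / 2 : ℝ) ≤ 1 := by norm_num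
  have e1 := cn hX h0 h1 a c b
  have e2 := cn hX h0 h1 a c d
  have e3 := dist_triangle_right b d (pt hX (1 / 2) a c)
  rw [dist_comm b a] at e1
  rw [dist_comm d c] at e2
  have e4 : dist b d ^ 2 ≤ (dist b (pt hX (1 / 2) a c) + dist d (pt hX (1 / 2) a c)) ^ 2 :=
    pow_le_pow_left₀ dist_nonneg e3 2
  nlinarith [sq_nonneg (dist b (pt hX (1 / 2) a c) - dist d (pt hX (1 / 2) a c))]

theorem pt_fan {t : ℝ} (h0 : 0 ≤ t) (h1 : t ≤ 1) (x y y' : X) :
    dist (pt hX t x y) (pt hX t x y') ≤ t * dist y y' := by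
  have h := cmp hX h0 h1 h0 h1 x y y'
  refine (pow_le_pow_iff_left₀ dist_nonneg (mul_nonneg h0 dist_nonneg) two_ne_zero).1 ?_
  exact h.trans (le_of_eq (by ring))

theorem pt_convex {t : ℝ} (h0 : 0 ≤ t) (h1 : t ≤ 1) (x y x' y' : X) :
    dist (pt hX t x y) (pt hX t x' y') ≤ (1 - t) * dist x x' + t * dist y y' := by
  have e1 := pt_fan hX h0 h1 x y y'
  have e2 := pt_fan hX (t := 1 - t) (by linarith) (by linarith) y' x x'
  rw [← pt_symm hX h0 h1, ← pt_symm hX h0 h1] at e2
  linarith [dist_triangle (pt hX t x y) (pt hX t x y') (pt hX t x' y')]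

theorem exists_min [ProperSpace X] [Nonempty X] {G P : Type} [Group G] [MulAction G X]
    (hG : IsGeometricAction G X) [Fintype P] [Nonempty P] (x : P → G) :
    ∃ p : X, ∀ q : X, ∑ c, dist p (x c • p) ^ 2 ≤ ∑ c, dist q (x c • q) ^ 2 := by
  obtain ⟨hI, hP, K, hK, hcov⟩ := hG
  obtain ⟨q₀⟩ := ‹Nonempty X›
  set E : X → ℝ := fun q => ∑ c, dist q (x c • q) ^ 2 with hE
  have hc : Continuous E := by
    refine continuous_finset_sum _ fun c _ => ?_
    exact (continuous_id.dist (isometry_smul X (x c)).continuous).pow 2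
  obtain ⟨R, hR⟩ := hK.isBounded.subset_closedBall q₀
  have hF := hP (Metric.closedBall q₀ (R + √(E q₀))) (isCompact_closedBall _ _)
  set F := {g : G | ((fun x => g • x) '' Metric.closedBall q₀ (R + √(E q₀)) ∩
    Metric.closedBall q₀ (R + √(E q₀))).Nonempty}
  have hconj : ∀ (g : G) (k : X) (c : P),
      dist (g • k) (x c • g • k) = dist k ((g⁻¹ * x c * g) • k) := fun g k c => by
    rw [← dist_smul g k, smul_smul g, ← mul_assoc, mul_inv_cancel_left, mul_smul]
  set T : Set (P → G) := {f | (∀ c, f c ∈ F) ∧ ∃ g : G, ∀ c, f c = g⁻¹ * x c * g}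
  have hT : T.Finite := (Set.Finite.pi' fun _ : P => hF).subset fun f hf => hf.1
  choose γ hγ using fun f : T => f.2.2
  haveI := hT.to_subtype
  have hK' : IsCompact (⋃ f : T, (fun k => γ f • k) '' K) :=
    isCompact_iUnion fun f => hK.image (isometry_smul X (γ f)).continuous
  have key : ∀ q, E q ≤ E q₀ → ∃ q' ∈ ⋃ f : T, (fun k => γ f • k) '' K, E q' = E q := by
    intro q hq
    obtain ⟨g, k, hk, rfl⟩ := hcov q
    have h1 : (fun c => g⁻¹ * x c * g) ∈ T := by
      refine ⟨fun c => ?_, g, fun c => rfl⟩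
      have h2 : dist k ((g⁻¹ * x c * g) • k) ≤ √(E q₀) := by
        refine Real.le_sqrt_of_sq_le (le_trans ?_ hq)
        rw [← hconj]
        exact Finset.single_le_sum (f := fun c => dist (g • k) (x c • g • k) ^ 2)
          (fun _ _ => sq_nonneg _) (Finset.mem_univ c)
      have h3 : dist k q₀ ≤ R := hR hk
      refine ⟨(g⁻¹ * x c * g) • k, ⟨k, ?_, rfl⟩, ?_⟩
      · exact h3.trans (le_add_of_nonneg_right (Real.sqrt_nonneg _))
      · have := dist_triangle_left ((g⁻¹ * x c * g) • k) q₀ k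
        rw [Metric.mem_closedBall]
        linarith
    refine ⟨γ ⟨_, h1⟩ • k, Set.mem_iUnion.2 ⟨⟨_, h1⟩, k, hk, rfl⟩, ?_⟩
    refine Finset.sum_congr rfl fun c _ => ?_
    rw [hconj, hconj, ← hγ ⟨_, h1⟩ c]
  obtain ⟨q₁, hq₁, e₁⟩ := key q₀ le_rfl
  obtain ⟨p, -, hp⟩ := hK'.exists_isMinOn ⟨q₁, hq₁⟩ hc.continuousOn
  refine ⟨p, fun q => ?_⟩
  by_cases hq : E q ≤ E q₀
  · obtain ⟨q', hq', e⟩ := key q hq
    exact (hp hq').trans e.le
  · exact ((hp hq₁).trans e₁.le).trans (not_le.1 hq).le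

include hX in
theorem exists_harmonic [ProperSpace X] [Nonempty X] {G P : Type} [Group G] [MulAction G X]
    (hG : IsGeometricAction G X) [Fintype P] [Nonempty P] (σ : P → P) (hσ : ∀ c, σ (σ c) = c)
    (x : P → G) (hx : ∀ c, x (σ c) = (x c)⁻¹) :
    ∃ p : X, ∀ q : X,
      dist q p ^ 2 + (𝔼 c, dist p (x c • p) ^ 2) ≤ 𝔼 c, dist q (x c • p) ^ 2 := by
  obtain ⟨p, hp⟩ := exists_min hG x
  haveI := hG.1
  refine ⟨p, fun q => ?_⟩
  set n : ℝ := (Fintype.card P : ℝ) with hn
  have hn0 : 0 < n := by rw [hn]; exact_mod_cast Fintype.card_pos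
  set A := ∑ c, dist p (x c • p) ^ 2
  set B := ∑ c, dist q (x c • q) ^ 2
  set F := ∑ c, dist q (x c • p) ^ 2 with hF
  set D := dist q p ^ 2
  have hF' : ∑ c, dist p (x c • q) ^ 2 = F := by
    rw [hF, ← Equiv.sum_comp (Function.Involutive.toPerm σ hσ)]
    refine Finset.sum_congr rfl fun c _ => ?_
    rw [Function.Involutive.coe_toPerm, hx, ← dist_smul (x c), smul_inv_smul, dist_comm]
  have key : ∀ t : ℝ, 0 < t → t ≤ 1 → 0 ≤ -2 * A + 2 * (F - n * D) +
      t * (A - 2 * (F - n * D) + B) := by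
    intro t h0 h1
    have h2 := hp (pt hX t p q)
    have h3 : ∑ c, dist (pt hX t p q) (x c • pt hX t p q) ^ 2 ≤
        ∑ c, ((1 - t) ^ 2 * dist p (x c • p) ^ 2 + t * (1 - t) * dist q (x c • p) ^ 2 +
          t * (1 - t) * dist p (x c • q) ^ 2 + t ^ 2 * dist q (x c • q) ^ 2 -
          2 * t * (1 - t) * D) := by
      refine Finset.sum_le_sum fun c _ => ?_
      rw [pt_smul hX h0.le h1]
      have e1 := cn hX h0.le h1 (x c • p) (x c • q) (pt hX t p q)
      have e2 := cn hX h0.le h1 p q (x c • p)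
      have e3 := cn hX h0.le h1 p q (x c • q)
      rw [dist_smul, dist_comm _ (x c • p), dist_comm _ (x c • q), dist_comm p q] at e1
      rw [dist_comm _ p, dist_comm _ q, dist_comm p q] at e2 e3
      have e4 := mul_le_mul_of_nonneg_left e2 (sub_nonneg.2 h1)
      have e5 := mul_le_mul_of_nonneg_left e3 h0.le
      simp only [D]
      nlinarith
    simp only [Finset.sum_sub_distrib, Finset.sum_add_distrib, ← Finset.mul_sum, Finset.sum_const,
      Finset.card_univ, nsmul_eq_mul] at h3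
    rw [hF'] at h3
    have h4 : 0 ≤ t * (-2 * A + 2 * (F - n * D) + t * (A - 2 * (F - n * D) + B)) := by
      nlinarith
    exact (mul_nonneg_iff_of_pos_left h0).1 h4
  have h5 : 0 ≤ -2 * A + 2 * (F - n * D) := by
    have h6 : Filter.Tendsto (fun t : ℝ => -2 * A + 2 * (F - n * D) +
        t * (A - 2 * (F - n * D) + B)) (nhdsWithin 0 (Set.Ioi 0))
        (nhds (-2 * A + 2 * (F - n * D) + 0 * (A - 2 * (F - n * D) + B))) :=
      (Continuous.tendsto (by fun_prop) 0).mono_left nhdsWithin_le_nhds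
    rw [zero_mul, add_zero] at h6
    refine ge_of_tendsto h6 ?_
    filter_upwards [Ioc_mem_nhdsGT (zero_lt_one' ℝ)] with t ht
    exact key t ht.1 ht.2
  rw [Fintype.expect_eq_sum_div_card, Fintype.expect_eq_sum_div_card, ← hn,
    le_div_iff₀ hn0, add_mul, div_mul_cancel₀ _ hn0.ne']
  linarith

end Crest.Agent.R196
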