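import Crest.Agent.R196.Prob

/-!
Task R196-P2: the second moment lemma `cons` and the weight of non-generic labellings.

`cons`: write `Wt J v φ = W' (φ ∘ ι) * W'' φ` with `W' = Wt J' v'`, `W'' = Wt (J \ J') v`.  For `ρ : V' → P` let `Y ρ` be the average
of `W'' φ` over the `φ` with `φ ∘ ι = ρ` (e.g. `φ = Function.extend ι ρ χ`, `χ : V → P` uniform; `(ρ, χ) ↦ φ` pushes the
uniform measure to the uniform measure).  The difference in the statement is at most `TV ω = 𝔼 ρ, W' ρ * |Y ρ - 1|`.  By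
Cauchy–Schwarz (or `|y| ≤ η + y²/η`) and `exp_pres` (objects of different colours are different):
`𝔼 ω, W' ρ = 1`, `𝔼 ω, W' ρ * Y ρ = 1`, `𝔼 ω, W' ρ * W'' φ * W'' φ' = ∏_{c ∈ J \ J', φ ∘ v c = φ' ∘ v c} nn c`, and
`∏_{c ∈ 𝒦₀} nn c - 1 ≤ ∑_{∅ ≠ 𝒦 ⊆ J \ J'} [φ = φ' on the variables of 𝒦] ∏_{c ∈ 𝒦} nn c`.  Two independent extensions of `ρ` agree on
the variables of `𝒦` with probability `n ^ (-#(variables of 𝒦 outside range ι))`, so by `Sur` each term is at most
`r ^ card 𝒦 / n ≤ r ^ (K - 1) / (2 r ^ K)`.  Conclude with `WHP.of_expect`.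

`gen_whp`: `𝔼 ω, Wt φ = 1`, and the fraction of non-generic `φ` is at most `card V ^ 2 / r ^ K`.
-/

set_option autoImplicit false

namespace Crest.Agent.R196

open Finset Filter Topology
open scoped BigOperators

theorem push {V V' P : Type} [Fintype V] [DecidableEq V] [Fintype V'] [DecidableEq V'] [Fintype P]
    [Nonempty P] (ι : V' → V) (hι : Function.Injective ι) (G : (V → P) → ℝ) :
    (𝔼 φ, G φ) = 𝔼 ρ : V' → P, 𝔼 χ : V → P, G (Function.extend ι ρ χ) := by
  classical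
  let e : (V' → P) × (V → P) → (V' → P) × (V → P) :=
    fun p => (p.2 ∘ ι, Function.extend ι p.1 p.2)
  have he : Function.Involutive e := by
    rintro ⟨ρ, χ⟩
    refine Prod.ext (funext fun a => hι.extend_apply _ _ a) (funext fun a => ?_)
    by_cases h : ∃ b, ι b = a
    · obtain ⟨b, rfl⟩ := h
      exact hι.extend_apply _ _ b
    · simp only [e, Function.extend_apply' _ _ _ h]
  have h1 := Fintype.expect_bijective e he.bijective (fun p => G (Function.extend ι p.1 p.2))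
    (fun p => G p.2) (fun _ => rfl)
  rw [← univ_product_univ, expect_product' univ univ (fun ρ χ => G (Function.extend ι ρ χ)),
    expect_product' univ univ (fun _ χ => G χ), Fintype.expect_const] at h1
  exact h1.symm

theorem exp_prod_fun {V P : Type} [Fintype V] [DecidableEq V] [Fintype P] [Nonempty P]
    (U : Finset V) (g : V → P → ℝ) :
    (𝔼 χ : V → P, ∏ a ∈ U, g a (χ a)) = ∏ a ∈ U, 𝔼 x, g a x := by
  classical
  have e1 : ∀ χ : V → P, ∏ a ∈ U, g a (χ a) = ∏ a, if a ∈ U then g a (χ a) else 1 := fun χ => by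
    rw [prod_ite_mem, univ_inter]
  simp only [e1, Fintype.expect_eq_sum_div_card]
  rw [← Fintype.piFinset_univ, ← prod_univ_sum (fun _ : V => (univ : Finset P))
    (fun a x => if a ∈ U then g a x else 1), Fintype.card_pi, Nat.cast_prod, ← prod_div_distrib,
    ← univ_inter U, ← prod_ite_mem, univ_inter]
  refine prod_congr rfl fun o _ => ?_
  have : (Fintype.card P : ℝ) ≠ 0 := by exact_mod_cast Fintype.card_ne_zero
  split_ifs
  · rfl
  · simp

theorem exp_agree {V P : Type} [Fintype V] [DecidableEq V] [Fintype P] [DecidableEq P] [Nonempty P]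
    (U : Finset V) (χ : V → P) :
    (𝔼 χ' : V → P, if ∀ a ∈ U, χ a = χ' a then (1 : ℝ) else 0) =
      (1 / (Fintype.card P : ℝ)) ^ U.card := by
  have := exp_prod_fun U (fun a x => if χ a = x then (1 : ℝ) else 0)
  refine (Eq.trans (expect_congr rfl fun χ' _ => ?_) this).trans ?_
  · rw [prod_boole]; congr
  · rw [← prod_const]
    refine prod_congr rfl fun a _ => ?_
    rw [Fintype.expect_eq_sum_div_card]
    simp

theorem abs_le_eta {η : ℝ} (hη : 0 < η) (y : ℝ) : |y| ≤ η + y ^ 2 / η := by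
  rw [← sq_abs y, ← sub_nonneg]
  have : η + |y| ^ 2 / η - |y| = ((η - |y|) ^ 2 + η * |y|) / η := by field_simp; ring
  rw [this]; positivity

namespace Model

variable {M : Model}

theorem Wt_nonneg {r : ℕ} (ω : M.Om r) {V : Type} (J : Finset M.Col)
    (v : (c : M.Col) → Fin (M.ar c) → V) (φ : V → PP M.K r) : 0 ≤ Wt ω J v φ := by
  unfold Wt
  exact prod_nonneg fun c _ => by split_ifs <;> positivity

theorem obj_inj {r : ℕ} (f : (c : M.Col) → Fin (M.ar c) → PP M.K r) :
    Function.Injective (fun c => (⟨c, f c⟩ : M.Obj r)) := fun _ _ h => congrArg Obj.c h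

open Classical in
theorem Wt_eq {r : ℕ} (ω : M.Om r) {V : Type} (J : Finset M.Col)
    (v : (c : M.Col) → Fin (M.ar c) → V) (φ : V → PP M.K r) :
    Wt ω J v φ = ∏ o ∈ J.image (fun c => (⟨c, fun s => φ (v c s)⟩ : M.Obj r)),
      if Pres ω o then (M.nn r o.c : ℝ) else 0 := by
  rw [prod_image (obj_inj (fun c s => φ (v c s))).injOn]; rfl

theorem exp_Wt {r : ℕ} (hr : 0 < r) {V : Type} (J : Finset M.Col)
    (v : (c : M.Col) → Fin (M.ar c) → V) (φ : V → PP M.K r) : (𝔼 ω : M.Om r, Wt ω J v φ) = 1 := by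
  simp only [Wt_eq]; exact exp_pres hr _

open Classical in
theorem exp_Wt2 {r : ℕ} (hr : 0 < r) {V : Type} (J L : Finset M.Col)
    (v : (c : M.Col) → Fin (M.ar c) → V) (φ φ' : V → PP M.K r) :
    (𝔼 ω : M.Om r, Wt ω J v φ * Wt ω L v φ') ≤
      ∏ c ∈ L, (1 + if ∀ s, φ (v c s) = φ' (v c s) then (M.nn r c : ℝ) else 0) := by
  set T1 := J.image (fun c => (⟨c, fun s => φ (v c s)⟩ : M.Obj r)) with hT1
  set T2 := L.image (fun c => (⟨c, fun s => φ' (v c s)⟩ : M.Obj r)) with hT2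
  have e1 : ∀ ω : M.Om r, Wt ω J v φ * Wt ω L v φ' =
      (∏ o ∈ T1 ∪ T2, if Pres ω o then (M.nn r o.c : ℝ) else 0) *
        ∏ o ∈ T1 ∩ T2, (M.nn r o.c : ℝ) := fun ω => by
    rw [Wt_eq, Wt_eq, ← hT1, ← hT2, ← prod_union_inter]
    by_cases h : ∀ o ∈ T1 ∩ T2, Pres ω o
    · congr 1
      exact prod_congr rfl fun o ho => if_pos (h o ho)
    · push Not at h
      obtain ⟨o, ho, h⟩ := h
      rw [prod_eq_zero (mem_union_left _ (mem_inter.1 ho).1) (if_neg h), zero_mul, zero_mul]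
  simp only [e1]
  rw [← expect_mul, exp_pres hr, one_mul, inter_comm, ← prod_ite_mem, hT2,
    prod_image (obj_inj (fun c s => φ' (v c s))).injOn]
  refine prod_le_prod (fun c _ => by split_ifs <;> positivity) fun c _ => ?_
  by_cases h : (⟨c, fun s => φ' (v c s)⟩ : M.Obj r) ∈ T1
  · obtain ⟨c', _, h'⟩ := mem_image.1 h
    obtain rfl : c' = c := congrArg Obj.c h'
    have h2 : (fun s => φ (v c' s)) = fun s => φ' (v c' s) := by simpa using h'
    rw [if_pos h, if_pos (fun s => congrFun h2 s)]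
    simp
  · rw [if_neg h]
    split_ifs
    · simp
    · simp

theorem card_PP (K r : ℕ) : Fintype.card (PP K r) = 2 * r ^ K := by simp [mul_comm]

theorem pp_nonempty {K r : ℕ} (hr : 0 < r) : Nonempty (PP K r) := ⟨(⟨0, by positivity⟩, true)⟩

open Classical in
theorem second {V V' : Type} [Fintype V] [DecidableEq V] [Fintype V'] [DecidableEq V'] (ι : V' → V)
    (J L : Finset M.Col) (hK : L.card < M.K)
    (v : (c : M.Col) → Fin (M.ar c) → V) (hS : Sur L v (univ.image ι)) {r : ℕ} (hr : 0 < r)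
    (ρ : V' → PP M.K r) (χ : V → PP M.K r) :
    (𝔼 χ', 𝔼 ω : M.Om r, Wt ω J v (Function.extend ι ρ χ) * Wt ω L v (Function.extend ι ρ χ')) ≤
      1 + 2 ^ L.card / r := by
  have := pp_nonempty (K := M.K) hr
  have hr' : (1 : ℝ) ≤ r := by exact_mod_cast hr
  refine (expect_le_expect fun χ' _ => exp_Wt2 hr J L v _ _).trans ?_
  simp only [prod_one_add]
  rw [expect_sum_comm]
  have key : ∀ 𝒦 ∈ L.powerset, (𝔼 χ' : V → PP M.K r, ∏ c ∈ 𝒦,
      if ∀ s, Function.extend ι ρ χ (v c s) = Function.extend ι ρ χ' (v c s)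
        then (M.nn r c : ℝ) else 0) ≤ (if 𝒦 = ∅ then 1 else 0) + 1 / r := by
    intro 𝒦 h𝒦
    rcases 𝒦.eq_empty_or_nonempty with rfl | hne
    · simp
    rw [if_neg hne.ne_empty, zero_add]
    have hL := mem_powerset.1 h𝒦
    have h1 := hS 𝒦 hL hne
    set U := 𝒦.biUnion (fun c => univ.image (v c)) \ univ.image ι with hU
    have h2 : ∀ χ' : V → PP M.K r, (∏ c ∈ 𝒦,
        if ∀ s, Function.extend ι ρ χ (v c s) = Function.extend ι ρ χ' (v c s)
          then (M.nn r c : ℝ) else 0) ≤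
        (if ∀ a ∈ U, χ a = χ' a then (1 : ℝ) else 0) * ∏ c ∈ 𝒦, (M.nn r c : ℝ) := by
      intro χ'
      by_cases h : ∀ a ∈ U, χ a = χ' a
      · rw [if_pos h, one_mul]
        exact prod_le_prod (fun c _ => by split_ifs <;> positivity)
          fun c _ => by split_ifs <;> first | rfl | positivity
      · rw [if_neg h, zero_mul]
        push Not at h
        obtain ⟨a, ha, h⟩ := h
        obtain ⟨ha1, ha2⟩ := mem_sdiff.1 ha
        obtain ⟨c, hc, ha1⟩ := mem_biUnion.1 ha1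
        obtain ⟨s, _, rfl⟩ := mem_image.1 ha1
        have h3 : ¬ ∃ b, ι b = v c s := fun ⟨b, hb⟩ => ha2 (mem_image.2 ⟨b, mem_univ _, hb⟩)
        refine (prod_eq_zero hc (if_neg fun h4 => h ?_)).le
        have := h4 s
        rwa [Function.extend_apply' _ _ _ h3, Function.extend_apply' _ _ _ h3] at this
    refine (expect_le_expect fun χ' _ => h2 χ').trans ?_
    rw [← expect_mul, exp_agree, card_PP]
    simp only [nn]
    push_cast
    rw [prod_mul_distrib, prod_pow_eq_pow_sum, prod_const]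
    set n : ℝ := 2 * (r : ℝ) ^ M.K with hn
    have hrK : (r : ℝ) ^ 𝒦.card * r ≤ n := by
      rw [← pow_succ]
      have : (r : ℝ) ^ (𝒦.card + 1) ≤ r ^ M.K :=
        pow_le_pow_right₀ hr' (lt_of_le_of_lt (card_le_card hL) hK)
      have : (0 : ℝ) ≤ r ^ M.K := by positivity
      linarith
    have hn1 : 1 ≤ n := le_trans (by
      have : (1 : ℝ) ≤ r ^ 𝒦.card := one_le_pow₀ hr'
      nlinarith) hrK
    have h5 : (1 / n) ^ U.card ≤ (1 / n) ^ (∑ c ∈ 𝒦, M.kk c + 1) :=
      pow_le_pow_of_le_one (by positivity) (by rw [div_le_one (by positivity)]; exact hn1) h1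
    refine (mul_le_mul_of_nonneg_right h5 (by positivity)).trans ?_
    have : (1 / n) ^ (∑ c ∈ 𝒦, M.kk c + 1) * (n ^ (∑ c ∈ 𝒦, M.kk c) * (r : ℝ) ^ 𝒦.card) =
        (r : ℝ) ^ 𝒦.card / n := by
      rw [pow_succ, one_div_pow]; field_simp
    rw [this, div_le_div_iff₀ (by positivity) (by positivity), one_mul]
    exact hrK
  refine (sum_le_sum key).trans ?_
  rw [sum_add_distrib, sum_ite_eq' L.powerset ∅ (fun _ => (1 : ℝ)), if_pos (empty_mem_powerset L),
    sum_const, card_powerset]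
  simp [div_eq_mul_inv]

theorem cons {V V' : Type} [Fintype V] [DecidableEq V] [Fintype V'] [DecidableEq V'] (ι : V' → V)
    (hι : Function.Injective ι) (J J' : Finset M.Col) (hJ : J' ⊆ J) (hK : J.card < M.K)
    (v : (c : M.Col) → Fin (M.ar c) → V) (v' : (c : M.Col) → Fin (M.ar c) → V')
    (hv : ∀ c ∈ J', ∀ s, v c s = ι (v' c s)) (hS : Sur (J \ J') v (univ.image ι))
    {δ : ℝ} (hδ : 0 < δ) :
    WHP (fun r (ω : M.Om r) => ∀ F : (V' → PP M.K r) → ℝ, (∀ ρ, |F ρ| ≤ 1) →
      |(𝔼 φ, Wt ω J v φ * F (φ ∘ ι)) - 𝔼 ρ, Wt ω J' v' ρ * F ρ| ≤ δ) := by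
  have hL : (J \ J').card < M.K := lt_of_le_of_lt (card_le_card sdiff_subset) hK
  have split : ∀ r (ω : M.Om r) ρ (χ : V → PP M.K r), Wt ω J v (Function.extend ι ρ χ) =
      Wt ω J' v' ρ * Wt ω (J \ J') v (Function.extend ι ρ χ) := by
    intro r ω ρ χ
    unfold Wt
    rw [← prod_sdiff hJ, mul_comm]
    congr 1
    refine prod_congr rfl fun c hc => ?_
    have : (fun s => Function.extend ι ρ χ (v c s)) = fun s => ρ (v' c s) :=
      funext fun s => by rw [hv c hc, hι.extend_apply]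
    rw [this]
  let Y : (r : ℕ) → M.Om r → (V' → PP M.K r) → ℝ := fun r ω ρ =>
    𝔼 χ : V → PP M.K r, Wt ω (J \ J') v (Function.extend ι ρ χ)
  let b : ℕ → ℝ := fun r => 2 ^ (J \ J').card / r
  have hb0 : Tendsto b atTop (𝓝 0) := tendsto_const_div_atTop_nhds_zero_nat _
  have main := WHP.of_expect (M := M) (fun r ω => 𝔼 ρ, Wt ω J' v' ρ * |Y r ω ρ - 1|)
    (fun r ω => expect_nonneg fun ρ _ => mul_nonneg (Wt_nonneg _ _ _ _) (abs_nonneg _))
    (fun r => 2 * √(b r)) ?_ (by simpa using hb0.sqrt.const_mul 2) hδ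
  · refine main.mono' ((eventually_gt_atTop 0).mono fun r hr ω h F hF => le_trans ?_ h)
    have := pp_nonempty (K := M.K) hr
    rw [push ι hι, ← expect_sub_distrib]
    refine (abs_expect_le _ _).trans (expect_le_expect fun ρ _ => ?_)
    have e : (𝔼 χ : V → PP M.K r, Wt ω J v (Function.extend ι ρ χ) *
        F (Function.extend ι ρ χ ∘ ι)) - Wt ω J' v' ρ * F ρ =
        Wt ω J' v' ρ * (Y r ω ρ - 1) * F ρ := by
      simp only [split, Function.extend_comp hι, Y]
      rw [← expect_mul, ← mul_expect]; ring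
    rw [e, abs_mul, abs_mul, abs_of_nonneg (Wt_nonneg _ _ _ _)]
    exact mul_le_of_le_one_right (mul_nonneg (Wt_nonneg _ _ _ _) (abs_nonneg _)) (hF ρ)
  refine (eventually_gt_atTop 0).mono fun r hr => ?_
  have := pp_nonempty (K := M.K) hr
  have hb : 0 < b r := by positivity
  have hη : 0 < √(b r) := Real.sqrt_pos.2 hb
  rw [expect_comm]
  refine expect_le univ_nonempty fun ρ _ => ?_
  have m1 : (𝔼 ω : M.Om r, Wt ω J' v' ρ * Y r ω ρ) = 1 := by
    simp only [Y, mul_expect, ← split]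
    rw [expect_comm]
    simp only [exp_Wt hr, Fintype.expect_const]
  have m2 : (𝔼 ω : M.Om r, Wt ω J' v' ρ * Y r ω ρ * Y r ω ρ) ≤ 1 + b r := by
    have e : ∀ ω : M.Om r, Wt ω J' v' ρ * Y r ω ρ * Y r ω ρ = 𝔼 χ, 𝔼 χ',
        Wt ω J v (Function.extend ι ρ χ) * Wt ω (J \ J') v (Function.extend ι ρ χ') := fun ω => by
      simp only [Y, split, ← mul_expect, ← expect_mul]
    simp only [e]
    rw [expect_comm]
    refine expect_le univ_nonempty fun χ _ => ?_
    rw [expect_comm]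
    exact second ι J (J \ J') hL v hS hr ρ χ
  have e2 : ∀ ω : M.Om r, Wt ω J' v' ρ * |Y r ω ρ - 1| ≤ √(b r) * Wt ω J' v' ρ +
      (Wt ω J' v' ρ * Y r ω ρ * Y r ω ρ - 2 * (Wt ω J' v' ρ * Y r ω ρ) + Wt ω J' v' ρ) / √(b r) :=
    fun ω => (mul_le_mul_of_nonneg_left (abs_le_eta hη _) (Wt_nonneg _ _ _ _)).trans (le_of_eq (by ring))
  refine (expect_le_expect fun ω _ => e2 ω).trans ?_
  rw [expect_add_distrib, ← expect_div, expect_add_distrib, expect_sub_distrib, ← mul_expect,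
    ← mul_expect, m1, exp_Wt hr]
  have h3 : ((𝔼 ω : M.Om r, Wt ω J' v' ρ * Y r ω ρ * Y r ω ρ) - 2 * 1 + 1) / √(b r) ≤ √(b r) := by
    rw [div_le_iff₀ hη, Real.mul_self_sqrt hb.le]; linarith
  linarith

open Classical in
theorem gen_whp {V : Type} [Fintype V] [DecidableEq V] (hK : 0 < M.K) (J : Finset M.Col)
    (v : (c : M.Col) → Fin (M.ar c) → V) {δ : ℝ} (hδ : 0 < δ) :
    WHP (fun r (ω : M.Om r) => (𝔼 φ, Wt ω J v φ * (if Gen φ then 0 else 1)) ≤ δ) := by
  refine WHP.of_expect (M := M) _ (fun r ω => expect_nonneg fun φ _ =>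
    mul_nonneg (Wt_nonneg _ _ _ _) (by split_ifs <;> norm_num))
    (fun r => (Fintype.card V : ℝ) ^ 2 / r) ?_ (tendsto_const_div_atTop_nhds_zero_nat _) hδ
  refine (eventually_gt_atTop 0).mono fun r hr => ?_
  have := pp_nonempty (K := M.K) hr
  have hr' : (1 : ℝ) ≤ r := by exact_mod_cast hr
  rw [expect_comm]
  simp only [← expect_mul, exp_Wt hr, one_mul]
  have h1 : ∀ φ : V → PP M.K r, (if Gen φ then (0 : ℝ) else 1) ≤
      ∑ a, ∑ b, if a ≠ b ∧ (φ a).1 = (φ b).1 then 1 else 0 := by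
    intro φ
    have h0 : ∀ a b, (0 : ℝ) ≤ if a ≠ b ∧ (φ a).1 = (φ b).1 then 1 else 0 := fun a b => by
      split_ifs <;> norm_num
    split_ifs with h
    · exact sum_nonneg fun a _ => sum_nonneg fun b _ => h0 a b
    · unfold Gen Function.Injective at h
      push Not at h
      obtain ⟨a, b, h1, h2⟩ := h
      refine le_trans ?_ (single_le_sum (fun a _ => sum_nonneg fun b _ => h0 a b) (mem_univ a))
      refine le_trans ?_ (single_le_sum (fun b _ => h0 a b) (mem_univ b))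
      rw [if_pos ⟨h2, h1⟩]
  have h2 : ∀ a b : V, (𝔼 φ : V → PP M.K r,
      if a ≠ b ∧ (φ a).1 = (φ b).1 then (1 : ℝ) else 0) ≤ 1 / r := by
    intro a b
    by_cases hab : a = b
    · simp [hab]
    rw [push (fun _ : Unit => a) (fun _ _ _ => rfl), expect_comm]
    refine expect_le univ_nonempty fun χ _ => ?_
    have e1 : ∀ ρ : Unit → PP M.K r, Function.extend (fun _ : Unit => a) ρ χ a = ρ () := fun ρ =>
      Function.Injective.extend_apply (f := fun _ : Unit => a) (fun _ _ _ => rfl) ρ χ ()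
    have e2 : ∀ ρ : Unit → PP M.K r, Function.extend (fun _ : Unit => a) ρ χ b = χ b := fun ρ =>
      Function.extend_apply' _ _ _ (fun ⟨_, h⟩ => hab h)
    simp only [e1, e2]
    rw [Fintype.expect_equiv (Equiv.funUnique Unit (PP M.K r)) _
      (fun x => if x.1 = (χ b).1 then (1 : ℝ) else 0) (fun ρ => by simp [hab]),
      Fintype.expect_eq_sum_div_card, card_PP, Fintype.sum_prod_type_right]
    simp only [sum_ite_eq', mem_univ, if_true, sum_const, card_univ, Fintype.card_bool]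
    have : (r : ℝ) ≤ r ^ M.K := le_self_pow₀ hr' hK.ne'
    push_cast
    rw [div_le_div_iff₀ (by positivity) (by positivity)]
    simp only [nsmul_eq_mul]; push_cast; linarith
  refine (expect_le_expect fun φ _ => h1 φ).trans ?_
  rw [expect_sum_comm]
  refine (sum_le_sum fun a _ => (expect_sum_comm _ _ _).le.trans
    (sum_le_sum fun b _ => h2 a b)).trans (le_of_eq ?_)
  simp [sq, div_eq_mul_inv, mul_assoc]

end Model

end Crest.Agent.R196
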