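import Crest.Agent.R177.Defs

/-!
Row 196 (a hyperbolic group with a finite 2-dimensional `K(G,1)` which is not CAT(0)): shared definitions.

Overview.  Labels `P` (`n = card P`, involution `σ`).  A random presentation just below density `1/2`:
* *thetas* (`K_{2,3}`: centres `c, c'`, three leaves; 6 labels; about `n²/r` of them of each colour),
* *hexagons* (6 labels, about `n³/r`),
* *etas* (21 labels = two thetas `C`, `B` sharing the leaf `σ₂` and 9 own labels; about `n³/r³`).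
The group is `R177.Grp S σ τ` for the disjoint union of these graphs (in an eta the second centres `c'`, `β'` are
omitted).  `IsoP` follows from a first moment bound (`nc`) and an accounting argument (`Sys.loc`).  For an action on a
CAT(0) space a harmonic point `p`, Sturm's inductive means and the quadrilateral inequality show
`3 E ≤ avg d²(σ₁, σ₃) ≤ (8/3 + small) E`, so `E = 0`.
-/

set_option autoImplicit false

namespace Crest.Agent.R196

open Finset Filter Topology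
open scoped BigOperators

/-! ### Statistics -/

/-- The label `φ a` is nearly uniform for the weight `W`. -/
def Unif1 {V P : Type} [Fintype V] [DecidableEq V] [Fintype P] (W : (V → P) → ℝ) (a : V) (δ : ℝ) :
    Prop :=
  ∀ F : P → ℝ, (∀ s, |F s| ≤ 1) → |(𝔼 φ, W φ * F (φ a)) - 𝔼 s, F s| ≤ δ

/-- The pair of labels `(φ a, φ b)` is nearly uniform for the weight `W`. -/
def Unif2 {V P : Type} [Fintype V] [DecidableEq V] [Fintype P] (W : (V → P) → ℝ) (a b : V) (δ : ℝ) :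
    Prop :=
  ∀ F : P → P → ℝ, (∀ s t, |F s t| ≤ 1) → |(𝔼 φ, W φ * F (φ a) (φ b)) - 𝔼 s, 𝔼 t, F s t| ≤ δ

/-- A coupling of the weights `W i` in which the labels in `Z` agree, while the tuples of the labels `e`
(and of the labels `e'`) are nearly uniform. -/
def Samp {m : ℕ} {V P : Type} [Fintype V] [DecidableEq V] [Fintype P] (W : Fin m → (V → P) → ℝ)
    (Z : Finset V) (e e' : V) (δ : ℝ) : Prop :=
  ∃ (Ψ : Type) (_ : Fintype Ψ) (μ : Ψ → ℝ) (f : Ψ → Fin m → V → P), (∀ ψ, 0 ≤ μ ψ) ∧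
    (∀ ψ i j, ∀ z ∈ Z, f ψ i z = f ψ j z) ∧
    (∀ (i : Fin m) (F : (V → P) → ℝ), (∀ φ, |F φ| ≤ 1) →
      |∑ ψ, μ ψ * F (f ψ i) - 𝔼 φ, W i φ * F φ| ≤ δ) ∧
    ∀ a, a = e ∨ a = e' → ∀ F : (Fin m → P) → ℝ, (∀ c, |F c| ≤ 1) →
      |∑ ψ, μ ψ * F (fun i => f ψ i a) - 𝔼 c, F c| ≤ δ

open Classical in
/-- All statistics used by the geometric argument.  `Wc i` = corner patterns (15 labels), `We j k` = eta patterns
(21 labels); `Rc`, `Re`, `Rh` = good labellings. -/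
structure Stat {m : ℕ} [NeZero m] {P : Type} [Fintype P] (Wc : Fin m → (Fin 15 → P) → ℝ)
    (We : Fin m → Fin m → (Fin 21 → P) → ℝ) (Rc : (Fin 15 → P) → Prop) (Re : (Fin 21 → P) → Prop)
    (Rh : (Fin 6 → P) → Prop) (δ : ℝ) : Prop where
  c_nonneg : ∀ i φ, 0 ≤ Wc i φ
  e_nonneg : ∀ j k φ, 0 ≤ We j k φ
  c_bad : ∀ i, (𝔼 φ, Wc i φ * (if Rc φ then 0 else 1)) ≤ δ
  e_bad : ∀ j k, (𝔼 φ, We j k φ * (if Re φ then 0 else 1)) ≤ δ
  c_u1 : ∀ i a, Unif1 (Wc i) a δ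
  e_u1 : ∀ j k a, Unif1 (We j k) a δ
  c_u2 : ∀ i, Unif2 (Wc i) 1 6 δ
  e_u2 : ∀ j k, Unif2 (We j k) 12 13 δ ∧ Unif2 (We j k) 14 15 δ ∧ Unif2 (We j k) 16 17 δ ∧
    Unif2 (We j k) 13 0 δ ∧ Unif2 (We j k) 1 7 δ ∧ Unif2 (We j k) 12 6 δ ∧ Unif2 (We j k) 18 19 δ
  c_s1 : Samp Wc {1, 6} 4 9 δ
  c_s2 : Samp Wc {3} 12 12 δ
  e_sC : ∀ j, Samp (We j) {0, 1, 2, 3, 4, 5} 13 7 δ
  e_sB : ∀ k, Samp (fun j => We j k) {6, 7, 8, 9, 10, 11} 1 12 δ
  e_s1 : ∀ d, Samp (fun i => We i (i + d)) {12, 6} 13 13 δ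
  e_s2 : ∀ d, Samp (fun i => We i (i + d)) {13, 0} 12 12 δ
  e_s3 : ∀ d, Samp (fun i => We i (i + d)) {18, 19} 20 20 δ
  e_s4 : ∀ d, Samp (fun i => We i (i + d)) {0} 3 1 δ
  e_s5 : ∀ d, Samp (fun i => We i (i + d)) {6} 9 7 δ
  hex : ∀ (s : P) (𝒢 : Finset P), Fintype.card P ≤ 2 * 𝒢.card →
    ∃ f : Fin 6 → P, f 0 = s ∧ (∀ i, i ≠ 0 → f i ∈ 𝒢) ∧ Rh f

theorem Stat.mono {m : ℕ} [NeZero m] {P : Type} [Fintype P] {Wc : Fin m → (Fin 15 → P) → ℝ}
    {We : Fin m → Fin m → (Fin 21 → P) → ℝ} {Rc Rc' : (Fin 15 → P) → Prop}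
    {Re Re' : (Fin 21 → P) → Prop} {Rh Rh' : (Fin 6 → P) → Prop} {δ : ℝ}
    (h : Stat Wc We Rc Re Rh δ) (hc : ∀ i φ, Wc i φ ≠ 0 → Rc φ → Rc' φ)
    (he : ∀ j k φ, We j k φ ≠ 0 → Re φ → Re' φ) (hh : ∀ f, Rh f → Rh' f) :
    Stat Wc We Rc' Re' Rh' δ := by
  classical
  refine { h with c_bad := fun i => ?_, e_bad := fun j k => ?_, hex := fun s 𝒢 h𝒢 => ?_ }
  · refine le_trans (Finset.expect_le_expect fun φ _ => ?_) (h.c_bad i)
    have h0 := h.c_nonneg i φ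
    by_cases h1 : Wc i φ = 0
    · simp [h1]
    · have := hc i φ h1
      split_ifs <;> first | tauto | linarith
  · refine le_trans (Finset.expect_le_expect fun φ _ => ?_) (h.e_bad j k)
    have h0 := h.e_nonneg j k φ
    by_cases h1 : We j k φ = 0
    · simp [h1]
    · have := he j k φ h1
      split_ifs <;> first | tauto | linarith
  · obtain ⟨f, h1, h2, h3⟩ := h.hex s 𝒢 h𝒢
    exact ⟨f, h1, h2, hh f h3⟩

/-! ### Templates -/

/-- The labelled graph with edges `src i → tgt i` and labels `φ i` maps to the Cayley graph. -/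
def Rel {G P E W : Type} [Group G] (src tgt : E → W) (x : P → G) (φ : E → P) : Prop :=
  ∃ pos : W → G, ∀ i, pos (tgt i) = pos (src i) * x (φ i)

/-- Eta pattern, vertices `0 c, 1 ρ, 2 σ₂, 3 σ₁, 4 c', 5 β, 6 π, 7 σ₃, 8 β', 9 a, 10 b, 11 e, 12 u, 13 w`. -/
def eS : Fin 21 → Fin 14 := ![0, 0, 0, 1, 2, 3, 5, 5, 5, 6, 2, 7, 9, 9, 10, 10, 11, 11, 3, 12, 13]
/-- Targets of the eta pattern. -/
def eT : Fin 21 → Fin 14 := ![1, 2, 3, 4, 4, 4, 6, 2, 7, 8, 8, 8, 6, 1, 6, 3, 1, 7, 12, 13, 7]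
/-- Corner pattern, vertices `0 x, 1 y, 2 P, 3 ℓ, 4 z, 5 Q, 6 ℓ', 7 w, 8 ℓ'', 9 R`. -/
def cS : Fin 15 → Fin 10 := ![0, 0, 0, 1, 2, 3, 0, 0, 1, 5, 6, 1, 4, 7, 8]
/-- Targets of the corner pattern. -/
def cT : Fin 15 → Fin 10 := ![1, 2, 3, 4, 4, 4, 5, 6, 7, 7, 7, 8, 9, 9, 9]

/-- The relations of a theta. -/
def RelT {G P : Type} [Group G] (x : P → G) (f : Fin 6 → P) : Prop :=
  x (f 0) * x (f 3) = x (f 1) * x (f 4) ∧ x (f 0) * x (f 3) = x (f 2) * x (f 5)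

/-- The relation of a hexagon. -/
def RelH {G P : Type} [Group G] (x : P → G) (f : Fin 6 → P) : Prop :=
  x (f 0) * x (f 1) * x (f 2) * x (f 3) * x (f 4) * x (f 5) = 1

/-! ### The random model -/

/-- Labels. -/
abbrev PP (K r : ℕ) : Type := Fin (r ^ K) × Bool

/-- The involution on labels. -/
def sg {N : ℕ} (c : Fin N × Bool) : Fin N × Bool := (c.1, !c.2)

/-- All labels are distinct up to the involution. -/
def Gen {N : ℕ} {V : Type} (φ : V → Fin N × Bool) : Prop := Function.Injective (fun a => (φ a).1)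

/-- A model: colours, arities, exponents, and the exponent `K` (`card P = 2 r^K`). -/
structure Model where
  Col : Type
  fin : Fintype Col
  ar : Col → ℕ
  kk : Col → ℕ
  K : ℕ

attribute [instance] Model.fin

namespace Model

variable (M : Model)

noncomputable instance : DecidableEq M.Col := Classical.decEq _

/-- Labelled objects. -/
structure Obj (r : ℕ) where
  c : M.Col
  f : Fin (M.ar c) → PP M.K r

noncomputable instance (r : ℕ) : DecidableEq (M.Obj r) := Classical.decEq _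

noncomputable instance (r : ℕ) : Fintype (M.Obj r) :=
  Fintype.ofEquiv (Σ c : M.Col, Fin (M.ar c) → PP M.K r)
    ⟨fun z => ⟨z.1, z.2⟩, fun o => ⟨o.c, o.f⟩, fun _ => rfl, fun _ => rfl⟩

/-- An object of colour `c` is present with probability `1 / nn r c`. -/
def nn (r : ℕ) (c : M.Col) : ℕ := (2 * r ^ M.K) ^ M.kk c * r

/-- The probability space (with the uniform measure). -/
abbrev Om (r : ℕ) : Type := (o : M.Obj r) → Fin (M.nn r o.c)

variable {M}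

/-- Present objects. -/
def Pres {r : ℕ} (ω : M.Om r) (o : M.Obj r) : Prop := (ω o : ℕ) = 0

open Classical in
/-- The weight of a labelling `φ` of a pattern with positions `J` (colours) and slot maps `v`. -/
noncomputable def Wt {r : ℕ} (ω : M.Om r) {V : Type} (J : Finset M.Col)
    (v : (c : M.Col) → Fin (M.ar c) → V) (φ : V → PP M.K r) : ℝ :=
  ∏ c ∈ J, if Pres ω ⟨c, fun s => φ (v c s)⟩ then (M.nn r c : ℝ) else 0

open Classical in
/-- With high probability as `r → ∞`. -/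
def WHP (A : (r : ℕ) → M.Om r → Prop) : Prop :=
  Tendsto (fun r => ((univ.filter (fun ω : M.Om r => ¬ A r ω)).card : ℝ) / Fintype.card (M.Om r))
    atTop (𝓝 0)

/-- "No compression". -/
def NC {r : ℕ} (ω : M.Om r) (B : ℕ) : Prop :=
  ∀ T : Finset (M.Obj r), T.card ≤ B → (∀ o ∈ T, Pres ω o) →
    (M.K + 1) * ∑ o ∈ T, M.kk o.c + T.card ≤
      (M.K + 1) * (T.biUnion (fun o => univ.image (fun s => (o.f s).1))).card

/-- The surplus condition: every nonempty set of positions has more variables outside `R` than it costs. -/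
def Sur {V : Type} [DecidableEq V] (J : Finset M.Col) (v : (c : M.Col) → Fin (M.ar c) → V)
    (R : Finset V) : Prop :=
  ∀ 𝒦 ⊆ J, 𝒦.Nonempty →
    ∑ c ∈ 𝒦, M.kk c + 1 ≤ (𝒦.biUnion (fun c => univ.image (v c)) \ R).card

end Model

/-- Colours: thetas `(r, i)`, etas `(j, k)`, hexagons. -/
abbrev Col (m : ℕ) : Type := (Fin 3 × Fin m) ⊕ (Fin m × Fin m) ⊕ Unit

/-- The concrete model. -/
@[reducible] def Mod (m : ℕ) : Model where
  Col := Col m
  fin := inferInstance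
  ar := fun c => match c with
    | Sum.inl _ => 6
    | Sum.inr (Sum.inl _) => 21
    | Sum.inr (Sum.inr _) => 6
  kk := fun c => match c with
    | Sum.inl _ => 4
    | Sum.inr (Sum.inl _) => 10
    | Sum.inr (Sum.inr _) => 3
  K := 3 * m + 1

/-- Theta objects. -/
def thO {m r : ℕ} (a : Fin 3) (i : Fin m) (f : Fin 6 → PP (3 * m + 1) r) : (Mod m).Obj r :=
  ⟨Sum.inl (a, i), f⟩

/-- Eta objects. -/
def etO {m r : ℕ} (j k : Fin m) (f : Fin 21 → PP (3 * m + 1) r) : (Mod m).Obj r :=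
  ⟨Sum.inr (Sum.inl (j, k)), f⟩

/-- Hexagon objects. -/
def hxO {m r : ℕ} (f : Fin 6 → PP (3 * m + 1) r) : (Mod m).Obj r := ⟨Sum.inr (Sum.inr ()), f⟩

/-- The slots of the three thetas of a corner. -/
def vc3 : Fin 3 → Fin 6 → Fin 15 := ![![0, 1, 2, 3, 4, 5], ![0, 6, 7, 8, 9, 10], ![3, 8, 11, 12, 13, 14]]

/-- The slots of the two thetas of an eta. -/
def ve3 : Fin 3 → Fin 6 → Fin 21 := ![![0, 1, 2, 3, 4, 5], ![6, 7, 8, 9, 10, 11], ![0, 1, 2, 3, 4, 5]]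

/-- Slot maps of the corner pattern. -/
def vc {m : ℕ} : (c : Col m) → Fin ((Mod m).ar c) → Fin 15
  | Sum.inl z => vc3 z.1
  | Sum.inr _ => fun _ => 0

/-- Slot maps of the eta pattern. -/
def ve {m : ℕ} : (c : Col m) → Fin ((Mod m).ar c) → Fin 21
  | Sum.inl z => ve3 z.1
  | Sum.inr (Sum.inl _) => id
  | Sum.inr (Sum.inr _) => fun _ => 0

/-- Positions of the `i`-th corner pattern. -/
noncomputable def Jc {m : ℕ} (i : Fin m) : Finset (Mod m).Col :=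
  {Sum.inl (0, i), Sum.inl (1, i), Sum.inl (2, i)}

/-- Positions of the eta pattern `(j, k)`. -/
noncomputable def Je {m : ℕ} (j k : Fin m) : Finset (Mod m).Col :=
  {Sum.inl (0, j), Sum.inl (1, k), Sum.inr (Sum.inl (j, k))}

/-! ### Two-level systems of labelled graphs -/

open Classical in
/-- A labelled graph whose components (`cp`) share some label slots.  The half-edge `h` carries the slot
`(ow h, ix h)`; `par κ` = the thetas whose stars are used by the component `κ`. -/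
structure Sys (Hf V P Q Cp : Type) where
  S : R177.HS Hf V P
  σ : P → P
  τ : Hf → Hf
  cls : P → Q
  cp : Hf → Cp
  ow : Hf → Cp
  ix : Hf → ℕ
  lab : Cp → ℕ → Q
  own : Cp → Finset ℕ
  par : Cp → Finset Cp
  th : Cp → Prop
  g : Cp → ℕ
  kk : Cp → ℕ
  K₀ : ℕ
  B : ℕ
  σσ : ∀ c, σ (σ c) = c
  σne : ∀ c, σ c ≠ c
  ττ : ∀ h, τ (τ h) = h
  τne : ∀ h, τ h ≠ h
  τcol : ∀ h, S.col (τ h) = σ (S.col h)
  cls_σ : ∀ c, cls (σ c) = cls c
  cp_τ : ∀ h, cp (τ h) = cp h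
  ow_τ : ∀ h, ow (τ h) = ow h
  ix_τ : ∀ h, ix (τ h) = ix h
  cp_vert : ∀ h h', S.vert h = S.vert h' → cp h = cp h'
  lab_eq : ∀ h, lab (ow h) (ix h) = cls (S.col h)
  ix_mem : ∀ h, ix h ∈ own (ow h)
  slot_inj : ∀ h h', cp h = cp h' → ow h = ow h' → ix h = ix h' → h' = h ∨ h' = τ h
  ow_ne : ∀ h, ow h ≠ cp h → ow h ∈ par (cp h) ∧ ix h < 3
  par_th : ∀ κ, ∀ θ ∈ par κ, th θ
  th_par : ∀ θ, th θ → par θ = ∅ ∧ (own θ).card = kk θ + 2
  ctr : ∀ h₀, th (ow h₀) → ix h₀ < 3 → ∃ v, ∀ h, cp h = cp h₀ → ow h = ow h₀ → ix h < 3 →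
    S.vert h = v ∨ S.vert (τ h) = v
  g_eq : ∀ κ, g κ + 2 * kk κ = 2 * (own κ).card + 4 * (par κ).card
  g_le : ∀ κ, g κ ≤ 6
  par_le : ∀ κ, (par κ).card ≤ 2
  girth : ∀ (l : ℕ) (p : ℕ → Hf), 0 < l → l < g (cp (p 0)) →
    (∀ i, i + 1 < l → S.vert (τ (p i)) = S.vert (p (i + 1)) ∧ p (i + 1) ≠ τ (p i)) →
    S.vert (τ (p (l - 1))) ≠ S.vert (p 0)
  few : ∀ (κ : Cp) (s : Finset Hf), (∀ h ∈ s, cp h = κ) → s.card ≤ 30
  nc : ∀ T : Finset Cp, T.card ≤ B → (∀ κ ∈ T, par κ ⊆ T) →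
    K₀ * ∑ κ ∈ T, kk κ + T.card ≤ K₀ * (T.biUnion (fun κ => (own κ).image (lab κ))).card

/-- The generators of the group of a system. -/
def Sys.x {Hf V P Q Cp : Type} (Y : Sys Hf V P Q Cp) (c : P) : R177.Grp Y.S Y.σ Y.τ :=
  R177.gx Y.S Y.σ Y.τ (Sum.inl c)

theorem Sys.isMatch {Hf V P Q Cp : Type} (Y : Sys Hf V P Q Cp) :
    R177.IsMatch Y.S Y.σ (fun _ => ()) Y.τ :=
  ⟨Y.ττ, Y.τne, Y.τcol, fun _ => rfl⟩

/-- A family of independent `4`-cycles. -/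
def Cyc {Hf V P : Type} (S : R177.HS Hf V P) (τ : Hf → Hf) {I : Type} (p : I → Fin 4 → Hf) : Prop :=
  (∀ i j, S.vert (τ (p i j)) = S.vert (p i (j + 1))) ∧
    ∀ i i' j, p i' j = p i 0 ∨ p i' j = τ (p i 0) → i' = i ∧ j = 0

end Crest.Agent.R196
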