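import Crest.Agent.R196.GeoA

/-!
Task R196-G4: the fixed point theorem from the statistics.

Take `p` from `exists_harmonic`, `u c = x c • p`, `E = 𝔼 c, d²(p, u c)`, `A = 𝔼 s, 𝔼 t, d²(u s, u t) ≥ 2 E`.  If `E = 0` then `p` is
fixed.  Assume `E > 0`.
1. *Boundedness*: `𝒢 = {c | d²(p, u c) ≤ 2 E}` has at least half of the labels (Markov); `Stat.hex` gives
   `d(p, u s) ≤ 5 √(2E)`, i.e. `d² ≤ 50 E` for all `s`.  So a word of length `≤ k` moves `p` by `d² ≤ 50 k² E`.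
2. *Corner* (`A ≤ (2 + small) E`): `contr` for `c_s1` with `g₁ φ = x (φ 1)`, `g₂ φ = x (φ 6)`; `lb` for `c_s2` with
   `q φ = (x (φ 3))⁻¹ • p`; for `φ` with `Rel cS cT x φ`, `quad` on the vertices `y, z, R, w` gives
   `d²(x₁x₄p, x₆x₉p) + (d²(q, u (φ 12)) - d²(q, p)) ≤ d²(p, u (φ 12)) + d²(p, u (φ 13)) + d²(p, u (φ 8))`; use `c_u1`, `c_u2`,
   `c_bad`.
3. *Eta*: define the atoms `Lw`, `Ed`, `Pr` as functions of `φ : Fin 21 → P` by words relative to the vertex `v` in question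
   (table below); if `Rel eS eT x φ` with positions `pos`, they equal `Lw hX v`, `Ed v`, `Pr v` for `v i = pos i • p`
   (`pt_smul`, isometries).  Average `point` against `We j k` and over `(j, k)` (`(i, d) ↦ (i, i + d)` is a bijection):
   `(1 - γ) E ∑ α ≤ E ∑ β + A ∑ γ + small`, contradiction.
   `lb` is used with `u` or with `u ∘ σ` (the hypotheses on `u` are invariant under the bijection `σ`):
   `L1`: `e_sC`, `a = 13`, `u ∘ σ`, `q = mid p (x₀⁻¹ x₁ p)`;  `L2`: `e_s1`, `13`, `u`, `q = mid p (x₁₂ x₆⁻¹ p)`;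
   `L3`: `e_sB`, `1`, `u ∘ σ`, `q = x₇⁻¹ x₆ p`;  `L1'`: `e_sB`, `12`, `u ∘ σ`, `q = mid p (x₆⁻¹ x₇ p)`;
   `L2'`: `e_s2`, `12`, `u`, `q = mid p (x₁₃ x₀⁻¹ p)`;  `L3'`: `e_sC`, `7`, `u ∘ σ`, `q = x₁⁻¹ x₀ p`;
   `L4`: `e_s3`, `20`, `u`, `q = x₁₉⁻¹ x₁₈⁻¹ p`;  `T1`: `e_s4`, `3`, `u`, `q = x₀⁻¹ p`;  `T2`: `e_s4`, `1`, `u`, `q = x₀ p`;
   `T1'`: `e_s5`, `9`, `q = x₆⁻¹ p`;  `T2'`: `e_s5`, `7`, `q = x₆ p`   (`xᵢ = x (φ i)`).
   Pairs: `πρ = d²(x₁₂ p, x₁₃ p)`, `πσ₁ = d²(x₁₄ p, x₁₅ p)`, `ρσ₃ = d²(x₁₆ p, x₁₇ p)`, `ac = d²(x₁₃⁻¹ p, x₀⁻¹ p)`,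
   `cβ = d²(x₁⁻¹ p, x₇⁻¹ p)`, `aβ = d²(x₁₂⁻¹ p, x₆⁻¹ p)`, `σ₁w = d²(x₁₈⁻¹ p, x₁₉ p)`; each has uniform average `A`.
-/

set_option autoImplicit false

namespace Crest.Agent.R196

open Crest.Geometry
open scoped BigOperators

universe u

section Main

variable {X : Type u} [MetricSpace X] (hX : IsCAT0Space X) {G P : Type} [Group G] [MulAction G X]
  [IsIsometricSMul G X] [Fintype P] [Nonempty P] {p : X} {x : P → G} {m : ℕ} [NeZero m]
  {Wc : Fin m → (Fin 15 → P) → ℝ} {We : Fin m → Fin m → (Fin 21 → P) → ℝ} {δ g E D : ℝ}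

/-- The conclusion of `lb` for given data. -/
def LB (m : ℕ) (δ g E : ℝ) (p : X) (u : P → X) (V : Type) [Fintype V] [DecidableEq V] : Prop :=
  ∀ (W : Fin m → (V → P) → ℝ) (Z : Finset V) (e e' a : V), Samp W Z e e' δ → a = e ∨ a = e' →
    ∀ q : (V → P) → X, (∀ φ φ', (∀ z ∈ Z, φ z = φ' z) → q φ = q φ') →
      (∀ φ, dist (q φ) p ^ 2 ≤ 1000 * E) →
      (1 - g) * E ≤ 𝔼 i, 𝔼 φ, W i φ * (dist (q φ) (u (φ a)) ^ 2 - dist (q φ) p ^ 2)

theorem lw_avg (S : Stat Wc We (Rel cS cT x) (Rel eS eT x) (RelH x) δ)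
    (hD : ∀ c, dist p (x c • p) ≤ D) (hDE : D ^ 2 = 50 * E) (hE0 : 0 < E)
    (hL1 : LB m δ g E p (fun c => x c • p) (Fin 21))
    (hL2 : LB m δ g E p (fun c => (x c)⁻¹ • p) (Fin 21)) (i : Fin 11) :
    (1 - g) * E ≤ 𝔼 j, 𝔼 k, 𝔼 φ, We j k φ * LwF hX p x φ i := by
  have hq : ∀ φ i, dist (qF hX p x φ i) p ^ 2 ≤ 1000 * E := fun φ i => by
    have h4 := pow_le_pow_left₀ dist_nonneg (qF_le hX hD φ i) 2
    nlinarith
  fin_cases i
  · exact le_expect_of_forall fun j => hL2 _ _ _ _ 13 (S.e_sC j) (Or.inl rfl)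
        (fun φ => pt hX (1 / 2) p (((x (φ 0))⁻¹ * x (φ 1)) • p))
        (fun φ φ' h => by simp only [h 0 (by decide), h 1 (by decide)]) (fun φ => hq φ 0)
  · rw [expect_diag]
    exact le_expect_of_forall fun d => hL1 _ _ _ _ 13 (S.e_s1 d) (Or.inl rfl)
        (fun φ => pt hX (1 / 2) p ((x (φ 12) * (x (φ 6))⁻¹) • p))
        (fun φ φ' h => by simp only [h 12 (by decide), h 6 (by decide)]) (fun φ => hq φ 1)
  · rw [Finset.expect_comm]
    exact le_expect_of_forall fun k => hL2 _ _ _ _ 1 (S.e_sB k) (Or.inl rfl)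
        (fun φ => ((x (φ 7))⁻¹ * x (φ 6)) • p)
        (fun φ φ' h => by simp only [h 7 (by decide), h 6 (by decide)]) (fun φ => hq φ 2)
  · rw [Finset.expect_comm]
    exact le_expect_of_forall fun k => hL2 _ _ _ _ 12 (S.e_sB k) (Or.inr rfl)
        (fun φ => pt hX (1 / 2) p (((x (φ 6))⁻¹ * x (φ 7)) • p))
        (fun φ φ' h => by simp only [h 6 (by decide), h 7 (by decide)]) (fun φ => hq φ 3)
  · rw [expect_diag]
    exact le_expect_of_forall fun d => hL1 _ _ _ _ 12 (S.e_s2 d) (Or.inl rfl)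
        (fun φ => pt hX (1 / 2) p ((x (φ 13) * (x (φ 0))⁻¹) • p))
        (fun φ φ' h => by simp only [h 13 (by decide), h 0 (by decide)]) (fun φ => hq φ 4)
  · exact le_expect_of_forall fun j => hL2 _ _ _ _ 7 (S.e_sC j) (Or.inr rfl)
        (fun φ => ((x (φ 1))⁻¹ * x (φ 0)) • p)
        (fun φ φ' h => by simp only [h 1 (by decide), h 0 (by decide)]) (fun φ => hq φ 5)
  · rw [expect_diag]
    exact le_expect_of_forall fun d => hL1 _ _ _ _ 20 (S.e_s3 d) (Or.inl rfl)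
        (fun φ => ((x (φ 19))⁻¹ * (x (φ 18))⁻¹) • p)
        (fun φ φ' h => by simp only [h 19 (by decide), h 18 (by decide)]) (fun φ => hq φ 6)
  · rw [expect_diag]
    exact le_expect_of_forall fun d => hL1 _ _ _ _ 3 (S.e_s4 d) (Or.inl rfl)
        (fun φ => (x (φ 0))⁻¹ • p)
        (fun φ φ' h => by simp only [h 0 (by decide)]) (fun φ => hq φ 7)
  · rw [expect_diag]
    exact le_expect_of_forall fun d => hL1 _ _ _ _ 1 (S.e_s4 d) (Or.inr rfl)
        (fun φ => x (φ 0) • p)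
        (fun φ φ' h => by simp only [h 0 (by decide)]) (fun φ => hq φ 8)
  · rw [expect_diag]
    exact le_expect_of_forall fun d => hL1 _ _ _ _ 9 (S.e_s5 d) (Or.inl rfl)
        (fun φ => (x (φ 6))⁻¹ • p)
        (fun φ φ' h => by simp only [h 6 (by decide)]) (fun φ => hq φ 9)
  · rw [expect_diag]
    exact le_expect_of_forall fun d => hL1 _ _ _ _ 7 (S.e_s5 d) (Or.inr rfl)
        (fun φ => x (φ 6) • p)
        (fun φ φ' h => by simp only [h 6 (by decide)]) (fun φ => hq φ 10)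

omit [Nonempty P] in
theorem pair_avg (σ : P → P) (hσ : ∀ c, σ (σ c) = c) (hx : ∀ c, x (σ c) = (x c)⁻¹) :
    (𝔼 s, 𝔼 t, dist ((x s)⁻¹ • p) ((x t)⁻¹ • p) ^ 2) = (𝔼 s, 𝔼 t, dist (x s • p) (x t • p) ^ 2) ∧
    (𝔼 s, 𝔼 t, dist ((x s)⁻¹ • p) (x t • p) ^ 2) = 𝔼 s, 𝔼 t, dist (x s • p) (x t • p) ^ 2 := by
  have e1 : ∀ F : G → ℝ, (𝔼 s, F (x s)⁻¹) = 𝔼 s, F (x s) := fun F =>
    (Fintype.expect_equiv (Function.Involutive.toPerm σ hσ) _ _ fun s => by
      rw [Function.Involutive.coe_toPerm, hx])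
  refine ⟨?_, e1 fun g => 𝔼 t, dist (g • p) (x t • p) ^ 2⟩
  rw [e1 fun g => 𝔼 t, dist (g • p) ((x t)⁻¹ • p) ^ 2]
  exact Finset.expect_congr rfl fun s _ => e1 fun g => dist (x s • p) (g • p) ^ 2

theorem pr_avg (S : Stat Wc We (Rel cS cT x) (Rel eS eT x) (RelH x) δ)
    (σ : P → P) (hσ : ∀ c, σ (σ c) = c) (hx : ∀ c, x (σ c) = (x c)⁻¹)
    (hD : ∀ c, dist p (x c • p) ≤ D) (hDE : D ^ 2 = 50 * E) (hE0 : 0 < E) (j k : Fin m)
    (i : Fin 7) :
    |(𝔼 φ, We j k φ * PrF p x φ i) - 𝔼 s, 𝔼 t, dist (x s • p) (x t • p) ^ 2| ≤ δ * (1000 * E) := by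
  have hM : 0 < 1000 * E := by positivity
  have hI := len_inv_le hD
  have hb : ∀ {g h : G}, dist p (g • p) ≤ D → dist p (h • p) ≤ D →
      |dist (g • p) (h • p) ^ 2| ≤ 1000 * E := fun hg hh => by
    rw [abs_of_nonneg (sq_nonneg _)]
    have := pair_le hD hg hh
    linarith
  obtain ⟨u1, u2, u3, u4, u5, u6, u7⟩ := S.e_u2 j k
  obtain ⟨a1, a2⟩ := pair_avg (p := p) σ hσ hx
  fin_cases i
  · exact u1.scaled (fun s t => dist (x s • p) (x t • p) ^ 2) hM fun s t => hb (hD s) (hD t)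
  · exact u2.scaled (fun s t => dist (x s • p) (x t • p) ^ 2) hM fun s t => hb (hD s) (hD t)
  · exact u3.scaled (fun s t => dist (x s • p) (x t • p) ^ 2) hM fun s t => hb (hD s) (hD t)
  · rw [← a1]
    exact u4.scaled (fun s t => dist ((x s)⁻¹ • p) ((x t)⁻¹ • p) ^ 2) hM
      fun s t => hb (hI s) (hI t)
  · rw [← a1]
    exact u5.scaled (fun s t => dist ((x s)⁻¹ • p) ((x t)⁻¹ • p) ^ 2) hM
      fun s t => hb (hI s) (hI t)
  · rw [← a1]
    exact u6.scaled (fun s t => dist ((x s)⁻¹ • p) ((x t)⁻¹ • p) ^ 2) hM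
      fun s t => hb (hI s) (hI t)
  · rw [← a2]
    exact u7.scaled (fun s t => dist ((x s)⁻¹ • p) (x t • p) ^ 2) hM
      fun s t => hb (hI s) (hD t)

omit [IsIsometricSMul G X] [Nonempty P] in
theorem ed_avg {V : Type} [Fintype V] [DecidableEq V] {W : (V → P) → ℝ} {a : V} (h : Unif1 W a δ)
    (hD : ∀ c, dist p (x c • p) ≤ D) (hDE : D ^ 2 = 50 * E) (hE0 : 0 < E)
    (hE : E = 𝔼 c, dist p (x c • p) ^ 2) :
    |(𝔼 φ, W φ * dist p (x (φ a) • p) ^ 2) - E| ≤ δ * (1000 * E) := by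
  have := h.scaled (fun s => dist p (x s • p) ^ 2) (M := 1000 * E) (by positivity) fun s => by
    rw [abs_of_nonneg (sq_nonneg _)]
    have h4 := pow_le_pow_left₀ dist_nonneg (hD s) 2
    linarith
  rwa [← hE] at this

include hX in
theorem corner (S : Stat Wc We (Rel cS cT x) (Rel eS eT x) (RelH x) δ)
    (hD : ∀ c, dist p (x c • p) ≤ D) (hDE : D ^ 2 = 50 * E) (hE0 : 0 < E)
    (hE : E = 𝔼 c, dist p (x c • p) ^ 2)
    (hL1 : LB m δ g E p (fun c => x c • p) (Fin 15))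
    (hC : (𝔼 i, 𝔼 φ, Wc i φ * (dist (x (φ 1) • p) (x (φ 6) • p) ^ 2 -
      dist (x (φ 1) • x (φ 4) • p) (x (φ 6) • x (φ 9) • p) ^ 2)) ≤ g * E) :
    (𝔼 s, 𝔼 t, dist (x s • p) (x t • p) ^ 2) ≤ (2 + 2 * g) * E + 5 * (δ * (1000 * E)) := by
  have hI := len_inv_le hD
  have hM : 0 < 1000 * E := by positivity
  have hL := hL1 Wc {3} 12 12 12 S.c_s2 (Or.inl rfl) (fun φ => (x (φ 3))⁻¹ • p)
    (fun φ φ' h => by simp only [h 3 (by decide)]) (fun φ => by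
      have h4 := pow_le_pow_left₀ dist_nonneg (hI (φ 3)) 2
      rw [dist_comm]
      linarith)
  set A := 𝔼 s, 𝔼 t, dist (x s • p) (x t • p) ^ 2 with hA
  have key : ∀ i, A ≤ (𝔼 φ, Wc i φ * (dist (x (φ 1) • p) (x (φ 6) • p) ^ 2 -
      dist (x (φ 1) • x (φ 4) • p) (x (φ 6) • x (φ 9) • p) ^ 2)) -
      (𝔼 φ, Wc i φ * (dist ((x (φ 3))⁻¹ • p) (x (φ 12) • p) ^ 2 - dist ((x (φ 3))⁻¹ • p) p ^ 2)) +
      (3 * E + 5 * (δ * (1000 * E))) := by
    intro i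
    have b1 := (S.c_u2 i).scaled (fun s t => dist (x s • p) (x t • p) ^ 2) hM fun s t => by
      rw [abs_of_nonneg (sq_nonneg _)]
      have := pair_le hD (hD s) (hD t)
      linarith
    have b2 := ed_avg (S.c_u1 i 12) hD hDE hE0 hE
    have b3 := ed_avg (S.c_u1 i 13) hD hDE hE0 hE
    have b4 := ed_avg (S.c_u1 i 8) hD hDE hE0 hE
    have b5 := bad_le (S.c_nonneg i) (S.c_bad i) (fun φ =>
      dist (x (φ 1) • x (φ 4) • p) (x (φ 6) • x (φ 9) • p) ^ 2 +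
      (dist ((x (φ 3))⁻¹ • p) (x (φ 12) • p) ^ 2 - dist ((x (φ 3))⁻¹ • p) p ^ 2) -
      dist p (x (φ 12) • p) ^ 2 - dist p (x (φ 13) • p) ^ 2 - dist p (x (φ 8) • p) ^ 2) hM.le
      (fun φ h => corner_pt hX p x h) (fun φ => by
        have e1 := pair_le hD (hI (φ 3)) (hD (φ 12))
        have e2 : dist (x (φ 1) • x (φ 4) • p) (x (φ 6) • x (φ 9) • p) ≤ 4 * D := by
          rw [← mul_smul, ← mul_smul]
          linarith [dist_le_len p (x (φ 1) * x (φ 4)) (x (φ 6) * x (φ 9)),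
            len_mul p (x (φ 1)) (x (φ 4)), len_mul p (x (φ 6)) (x (φ 9)), hD (φ 1), hD (φ 4),
            hD (φ 6), hD (φ 9)]
        have e3 := pow_le_pow_left₀ dist_nonneg e2 2
        nlinarith [sq_nonneg (dist ((x (φ 3))⁻¹ • p) p), sq_nonneg (dist p (x (φ 12) • p)),
          sq_nonneg (dist p (x (φ 13) • p)), sq_nonneg (dist p (x (φ 8) • p))])
    simp only [mul_sub, mul_add, Finset.expect_sub_distrib, Finset.expect_add_distrib] at b5 ⊢
    rw [abs_le] at b1 b2 b3 b4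
    linarith [b1.1, b2.2, b3.2, b4.2]
  have h2 := le_expect_of_forall key
  rw [Finset.expect_add_distrib, Finset.expect_sub_distrib, Finset.expect_const Finset.univ_nonempty]
    at h2
  linarith

theorem eta (S : Stat Wc We (Rel cS cT x) (Rel eS eT x) (RelH x) δ)
    (σ : P → P) (hσ : ∀ c, σ (σ c) = c) (hx : ∀ c, x (σ c) = (x c)⁻¹)
    (hD : ∀ c, dist p (x c • p) ≤ D) (hDE : D ^ 2 = 50 * E) (hE0 : 0 < E)
    (hE : E = 𝔼 c, dist p (x c • p) ^ 2) {α : Fin 11 → ℝ} {β : Fin 21 → ℝ} {γ : Fin 7 → ℝ}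
    (hα : ∀ i, 0 ≤ α i)
    (hpt : ∀ v : Fin 14 → X, ∑ i, α i * Lw hX v i ≤ ∑ i, β i * Ed v i + ∑ i, γ i * Pr v i)
    {η : ℝ} (hη : |(𝔼 s, 𝔼 t, dist (x s • p) (x t • p) ^ 2) - 2 * E| ≤ η) (j k : Fin m) :
    ∑ i, α i * (𝔼 φ, We j k φ * LwF hX p x φ i) ≤ (∑ i, β i) * E + (∑ i, γ i) * (2 * E) +
      (∑ i, α i + ∑ i, |β i| + ∑ i, |γ i|) * (2 * (δ * (1000 * E)) + η) := by
  have hM : 0 < 1000 * E := by positivity
  have hη0 : 0 ≤ η := (abs_nonneg _).trans hη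
  have ha0 : 0 ≤ ∑ i, α i := Finset.sum_nonneg fun i _ => hα i
  have hb0 : 0 ≤ ∑ i, |β i| := Finset.sum_nonneg fun i _ => abs_nonneg _
  have hc0 : 0 ≤ ∑ i, |γ i| := Finset.sum_nonneg fun i _ => abs_nonneg _
  have hδ : 0 ≤ δ * (1000 * E) := (abs_nonneg _).trans (ed_avg (S.e_u1 j k 0) hD hDE hE0 hE)
  have b5 := bad_le (S.e_nonneg j k) (S.e_bad j k) (fun φ => ∑ i, α i * LwF hX p x φ i -
      ∑ i, β i * dist p (x (φ i) • p) ^ 2 - ∑ i, γ i * PrF p x φ i)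
    (M := (∑ i, α i + ∑ i, |β i| + ∑ i, |γ i|) * (1000 * E)) (by positivity)
    (fun φ h => by
      obtain ⟨v, h1, h2, h3⟩ := atoms hX p x h
      have := hpt v
      simp only [h1, h2, h3] at this
      linarith)
    (fun φ => by
      have e1 : ∑ i, α i * LwF hX p x φ i ≤ (∑ i, α i) * (1000 * E) := by
        rw [Finset.sum_mul]
        refine Finset.sum_le_sum fun i _ => mul_le_mul_of_nonneg_left ?_ (hα i)
        have := LwF_le hX hD φ i
        linarith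
      have e2 : -∑ i, β i * dist p (x (φ i) • p) ^ 2 ≤ (∑ i, |β i|) * (1000 * E) := by
        rw [Finset.sum_mul, ← Finset.sum_neg_distrib]
        refine Finset.sum_le_sum fun i _ => ?_
        have h4 := pow_le_pow_left₀ dist_nonneg (hD (φ i)) 2
        rw [← neg_mul]
        exact mul_le_mul (neg_le_abs _) (by linarith) (sq_nonneg _) (abs_nonneg _)
      have e3 : -∑ i, γ i * PrF p x φ i ≤ (∑ i, |γ i|) * (1000 * E) := by
        rw [Finset.sum_mul, ← Finset.sum_neg_distrib]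
        refine Finset.sum_le_sum fun i _ => ?_
        obtain ⟨h4, h5⟩ := PrF_le hD φ i
        rw [← neg_mul]
        exact mul_le_mul (neg_le_abs _) (by linarith) h4 (abs_nonneg _)
      linarith)
  have lin : ∀ {n : ℕ} (c : Fin n → ℝ) (F : (Fin 21 → P) → Fin n → ℝ),
      (𝔼 φ, We j k φ * ∑ i, c i * F φ i) = ∑ i, c i * 𝔼 φ, We j k φ * F φ i := by
    intro n c F
    simp only [Finset.mul_sum, Finset.mul_expect]
    rw [Finset.expect_sum_comm]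
    exact Finset.sum_congr rfl fun i _ => Finset.expect_congr rfl fun φ _ => by ring
  simp only [mul_sub, Finset.expect_sub_distrib] at b5
  rw [lin α (fun φ i => LwF hX p x φ i), lin β (fun φ i => dist p (x (φ i) • p) ^ 2),
    lin γ (fun φ i => PrF p x φ i)] at b5
  have e2 : ∑ i, β i * (𝔼 φ, We j k φ * dist p (x (φ i) • p) ^ 2) ≤
      (∑ i, β i) * E + (∑ i, |β i|) * (δ * (1000 * E)) := by
    rw [Finset.sum_mul, Finset.sum_mul, ← Finset.sum_add_distrib]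
    refine Finset.sum_le_sum fun i _ => ?_
    have h1 := ed_avg (S.e_u1 j k i) hD hDE hE0 hE
    have h2 := mul_le_mul_of_nonneg_left h1 (abs_nonneg (β i))
    rw [← abs_mul] at h2
    have h3 := le_abs_self (β i * ((𝔼 φ, We j k φ * dist p (x (φ i) • p) ^ 2) - E))
    linarith
  have e3 : ∑ i, γ i * (𝔼 φ, We j k φ * PrF p x φ i) ≤
      (∑ i, γ i) * (2 * E) + (∑ i, |γ i|) * (δ * (1000 * E) + η) := by
    rw [Finset.sum_mul, Finset.sum_mul, ← Finset.sum_add_distrib]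
    refine Finset.sum_le_sum fun i _ => ?_
    have h0 := pr_avg S σ hσ hx hD hDE hE0 j k i
    have h1 : |(𝔼 φ, We j k φ * PrF p x φ i) - 2 * E| ≤ δ * (1000 * E) + η :=
      (abs_sub_le _ _ _).trans (add_le_add h0 hη)
    have h2 := mul_le_mul_of_nonneg_left h1 (abs_nonneg (γ i))
    rw [← abs_mul] at h2
    have h3 := le_abs_self (γ i * ((𝔼 φ, We j k φ * PrF p x φ i) - 2 * E))
    linarith
  nlinarith [mul_nonneg ha0 hδ, mul_nonneg ha0 hη0, mul_nonneg hb0 hη0, mul_nonneg hb0 hδ,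
    mul_nonneg hc0 hδ]

end Main

theorem geo : ∃ (m : ℕ) (_ : NeZero m) (δ : ℝ), 0 < δ ∧
    ∀ {G P : Type} [Group G] [Fintype P] [Nonempty P] (σ : P → P) (x : P → G),
      (∀ c, σ (σ c) = c) → (∀ c, x (σ c) = (x c)⁻¹) →
      ∀ (Wc : Fin m → (Fin 15 → P) → ℝ) (We : Fin m → Fin m → (Fin 21 → P) → ℝ),
        Stat Wc We (Rel cS cT x) (Rel eS eT x) (RelH x) δ →
        ∀ (X : Type u) [MetricSpace X] [ProperSpace X] [Nonempty X] [MulAction G X],
          IsCAT0Space X → IsGeometricAction G X → ∃ p : X, ∀ c, x c • p = p := by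
  obtain ⟨α, β, γ, hα, hsum, hpt⟩ := point.{u}
  set C : ℝ := ∑ i, α i + ∑ i, |β i| + ∑ i, |γ i| with hC
  have ha0 : 0 ≤ ∑ i, α i := Finset.sum_nonneg fun i _ => hα i
  have hb0 : 0 ≤ ∑ i, |β i| := Finset.sum_nonneg fun i _ => abs_nonneg _
  have hc0 : 0 ≤ ∑ i, |γ i| := Finset.sum_nonneg fun i _ => abs_nonneg _
  have hC0 : 0 ≤ C := by positivity
  set g : ℝ := 1 / (200 * (C + 1)) with hg
  have hg0 : 0 < g := by positivity
  have hgC : C * g ≤ 1 / 200 := by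
    rw [hg, mul_one_div, div_le_div_iff₀ (by positivity) (by norm_num)]
    linarith
  obtain ⟨m₁, δ₁, hδ₁, hlb⟩ := lb.{u} 1000 g (by norm_num) hg0
  obtain ⟨m₂, δ₂, hδ₂, hco⟩ := contr.{u} 1000 g (by norm_num) hg0
  refine ⟨m₁ + m₂ + 1, ⟨by omega⟩, min (min δ₁ δ₂) (g / 4000), by positivity, ?_⟩
  set δ := min (min δ₁ δ₂) (g / 4000) with hδ
  have hδ0 : 0 < δ := by positivity
  have hd1 : δ ≤ δ₁ := (min_le_left _ _).trans (min_le_left _ _)
  have hd2 : δ ≤ δ₂ := (min_le_left _ _).trans (min_le_right _ _)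
  have hd3 : δ ≤ g / 4000 := min_le_right _ _
  intro G P _ _ _ σ x hσ hx Wc We S X _ _ _ _ hX hG
  haveI := hG.1
  obtain ⟨p, hv⟩ := exists_harmonic hX hG σ hσ x hx
  refine ⟨p, ?_⟩
  set E := 𝔼 c, dist p (x c • p) ^ 2 with hE
  have hEn : 0 ≤ E := Finset.expect_nonneg fun _ _ => sq_nonneg _
  rcases hEn.eq_or_lt with h0 | hE0
  · intro c
    have := (Finset.expect_eq_zero_iff_of_nonneg (s := Finset.univ)
      (f := fun c => dist p (x c • p) ^ 2) fun _ _ => sq_nonneg _).1 h0.symm c (Finset.mem_univ c)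
    exact (dist_eq_zero.1 ((pow_eq_zero_iff two_ne_zero).1 this)).symm
  exfalso
  have hD := bounded p x hE0 hE S.hex
  have hDE : (5 * √(2 * E)) ^ 2 = 50 * E := by
    rw [mul_pow, Real.sq_sqrt (by positivity)]
    ring
  set D := 5 * √(2 * E)
  have hI := len_inv_le hD
  have e1 : ∀ F : G → ℝ, (𝔼 s, F (x s)⁻¹) = 𝔼 s, F (x s) := fun F =>
    (Fintype.expect_equiv (Function.Involutive.toPerm σ hσ) _ _ fun s => by
      rw [Function.Involutive.coe_toPerm, hx])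
  have hb1 : ∀ c, dist p (x c • p) ^ 2 ≤ 1000 * E := fun c => by
    have h4 := pow_le_pow_left₀ dist_nonneg (hD c) 2
    linarith
  have hb2 : ∀ c, dist p ((x c)⁻¹ • p) ^ 2 ≤ 1000 * E := fun c => by
    have h4 := pow_le_pow_left₀ dist_nonneg (hI c) 2
    linarith
  have hL1 : LB (m₁ + m₂ + 1) δ g E p (fun c => x c • p) (Fin 21) :=
    hlb _ (by omega) δ hd1 hX p (fun c => x c • p) E hE hv hb1
  have hL1' : LB (m₁ + m₂ + 1) δ g E p (fun c => x c • p) (Fin 15) :=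
    hlb _ (by omega) δ hd1 hX p (fun c => x c • p) E hE hv hb1
  have hL2 : LB (m₁ + m₂ + 1) δ g E p (fun c => (x c)⁻¹ • p) (Fin 21) :=
    hlb _ (by omega) δ hd1 hX p (fun c => (x c)⁻¹ • p) E
      (hE.trans (e1 fun g => dist p (g • p) ^ 2).symm)
      (fun q => (hv q).trans_eq (e1 fun g => dist q (g • p) ^ 2).symm) hb2
  have hCo := hco _ (by omega) δ hd2 hX p (fun c => x c • p) E hE hv hb1 Wc {1, 6} 4 9 S.c_s1
    (fun φ => x (φ 1)) (fun φ => x (φ 6))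
    (fun φ φ' h => by simp only [h 1 (by decide), h 6 (by decide), and_self]) (fun φ => by
      have := pair_le hD (hD (φ 1)) (hD (φ 6))
      linarith)
  have hA1 := corner hX S hD hDE hE0 hE hL1' hCo
  have hA2 : 2 * E ≤ 𝔼 s, 𝔼 t, dist (x s • p) (x t • p) ^ 2 := by
    have h1 : (𝔼 s, (dist p (x s • p) ^ 2 + E)) ≤ 𝔼 s, 𝔼 t, dist (x s • p) (x t • p) ^ 2 :=
      Finset.expect_le_expect fun s _ => by
        rw [dist_comm p]
        exact hv (x s • p)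
    rw [Finset.expect_add_distrib, Finset.expect_const Finset.univ_nonempty, ← hE] at h1
    linarith
  have hη : |(𝔼 s, 𝔼 t, dist (x s • p) (x t • p) ^ 2) - 2 * E| ≤
      2 * g * E + 5 * (δ * (1000 * E)) := by
    rw [abs_of_nonneg (by linarith)]
    linarith
  have h1 := expect_le_of_forall fun j => expect_le_of_forall fun k =>
    eta hX S σ hσ hx hD hDE hE0 hE hα (hpt hX) hη j k
  have h2 : (∑ i, α i) * ((1 - g) * E) ≤
      𝔼 j, 𝔼 k, ∑ i, α i * (𝔼 φ, We j k φ * LwF hX p x φ i) := by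
    simp only [Finset.expect_sum_comm, ← Finset.mul_expect]
    rw [Finset.sum_mul]
    exact Finset.sum_le_sum fun i _ =>
      mul_le_mul_of_nonneg_left (lw_avg hX S hD hDE hE0 hL1 hL2 i) (hα i)
  have h3 := h2.trans h1
  rw [← hC] at h3
  have h4 : C * (δ * 1000) ≤ 1 / 800 := by
    have := mul_le_mul_of_nonneg_left hd3 hC0
    nlinarith
  have h5 : (∑ i, α i) * g ≤ 1 / 200 := by
    have : ∑ i, α i ≤ C := by rw [hC]; linarith
    nlinarith
  have h6 := mul_le_mul_of_nonneg_right hsum hE0.le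
  have h7 := mul_le_mul_of_nonneg_right h4 hE0.le
  have h8 := mul_le_mul_of_nonneg_right h5 hE0.le
  have h9 := mul_le_mul_of_nonneg_right hgC hE0.le
  nlinarith

end Crest.Agent.R196
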