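import Crest.Agent.R196.Defs
import Crest.Agent.R196.Cat

/-!
Task R196-G3: the pointwise inequality on the eta pattern.  Vertices
`0 c, 1 ρ, 2 σ₂, 3 σ₁, 4 c', 5 β, 6 π, 7 σ₃, 8 β', 9 a, 10 b, 11 e, 12 u, 13 w`.

Write `D x y = dist x y ^ 2`, `μC = mid ρ σ₂`, `μB = mid π σ₂`, `ν = mid a β`, `ν' = mid a c`, `νC = mid c c'`, `νB = mid β β'`,
`c₁ = pt (1/3) μC π`, `c₂ = pt (1/3) μB ρ`, `Dπ = D π μC`, `Dρ = D ρ μB`.
* `D σ₁ σ₃ ≤ (17/8) (D σ₁ c₁ + D σ₃ c₂) + 17 D c₁ c₂` (triangle inequality),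
* `D σ₁ c₁ ≤ (2/3) D σ₁ μC + (1/3) D σ₁ π - (2/9) Dπ`, `D σ₁ μC ≤ (17/16) D σ₁ νC + 17 D νC μC`,
  `D σ₁ νC ≤ (D σ₁ c + D σ₁ c')/2 - D c c'/4`, `D νC μC ≤ (D νC ρ + D νC σ₂)/2 - D ρ σ₂/4`; the same for `σ₃, c₂, μB, νB, ρ`;
* `D c₁ c₂ ≤ (4/9) D μC μB + (2/9) (D μC ρ + D π μB) + (1/9) D π ρ - (2/9) (Dπ + Dρ)` (`cn` three times),
  `D μC μB ≤ D ρ π / 4` (`pt_convex`), `D μC ρ = D ρ σ₂ / 4`, and `D ρ σ₂ + D c c' ≤` four edges (`quad`);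
* `quad π μC c ν`: `D π c + D μC ν ≤ Dπ + D μC c + D c ν + D ν π`; `quad μC ν a ρ`:
  `D μC a + D ν ρ ≤ D μC ν + D ν a + D a ρ + D ρ μC`; `cn` for `D μC c`, `D c ν`, `D ν π`; symmetrically for `Dρ`
  (`quad ρ μB β ν'`, `quad μB ν' a π`).
The statement collects the result: if all edges have `D ≤ 1 + s`, etc., one gets `3 ≤ 2.93 + O(s)`.  Since the inequality
has to be averaged, it is stated in linear form with explicit coefficients: `Lw` = the eleven differences that are bounded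
below by `lb`, `Ed` = edges, `Pr` = the seven uniform pairs.
-/

set_option autoImplicit false

namespace Crest.Agent.R196

open Crest.Geometry Finset

universe u

variable {X : Type u} [MetricSpace X] (hX : IsCAT0Space X)

/-- The eleven differences `L1, L2, L3, L1', L2', L3', L4, T1, T2, T1', T2'`. -/
noncomputable def Lw (v : Fin 14 → X) : Fin 11 → ℝ :=
  ![dist (pt hX (1 / 2) (v 1) (v 2)) (v 9) ^ 2 - dist (pt hX (1 / 2) (v 1) (v 2)) (v 1) ^ 2,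
    dist (pt hX (1 / 2) (v 9) (v 5)) (v 1) ^ 2 - dist (pt hX (1 / 2) (v 9) (v 5)) (v 9) ^ 2,
    dist (v 6) (v 0) ^ 2 - dist (v 6) (v 2) ^ 2,
    dist (pt hX (1 / 2) (v 6) (v 2)) (v 9) ^ 2 - dist (pt hX (1 / 2) (v 6) (v 2)) (v 6) ^ 2,
    dist (pt hX (1 / 2) (v 9) (v 0)) (v 6) ^ 2 - dist (pt hX (1 / 2) (v 9) (v 0)) (v 9) ^ 2,
    dist (v 1) (v 5) ^ 2 - dist (v 1) (v 2) ^ 2,
    dist (v 3) (v 7) ^ 2 - dist (v 3) (v 13) ^ 2,
    dist (v 0) (v 4) ^ 2 - dist (v 0) (v 1) ^ 2,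
    dist (v 1) (v 2) ^ 2 - dist (v 1) (v 0) ^ 2,
    dist (v 5) (v 8) ^ 2 - dist (v 5) (v 6) ^ 2,
    dist (v 6) (v 2) ^ 2 - dist (v 6) (v 5) ^ 2]

/-- The edges. -/
noncomputable def Ed (v : Fin 14 → X) (i : Fin 21) : ℝ := dist (v (eS i)) (v (eT i)) ^ 2

/-- The seven uniform pairs `πρ, πσ₁, ρσ₃, ac, cβ, aβ, σ₁w`. -/
noncomputable def Pr (v : Fin 14 → X) : Fin 7 → ℝ :=
  ![dist (v 6) (v 1) ^ 2, dist (v 6) (v 3) ^ 2, dist (v 1) (v 7) ^ 2, dist (v 9) (v 0) ^ 2,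
    dist (v 0) (v 5) ^ 2, dist (v 9) (v 5) ^ 2, dist (v 3) (v 13) ^ 2]

theorem tri2 (x y z : X) : dist x z ^ 2 ≤ 17 / 16 * dist x y ^ 2 + 17 * dist y z ^ 2 := by
  have h := pow_le_pow_left₀ dist_nonneg (dist_triangle x y z) 2
  nlinarith [sq_nonneg (dist x y - 16 * dist y z)]

theorem tri3 (x y z w : X) :
    dist x w ^ 2 ≤ 17 / 8 * (dist x y ^ 2 + dist w z ^ 2) + 17 * dist y z ^ 2 := by
  have h := pow_le_pow_left₀ dist_nonneg (dist_triangle4 x y z w) 2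
  rw [dist_comm z w] at h
  nlinarith [sq_nonneg (dist x y - 8 * dist y z), sq_nonneg (dist w z - 8 * dist y z),
    sq_nonneg (dist x y - dist w z)]

theorem mid (x y z : X) : dist z (pt hX (1 / 2) x y) ^ 2 ≤
    1 / 2 * dist z x ^ 2 + 1 / 2 * dist z y ^ 2 - 1 / 4 * dist x y ^ 2 := by
  have := cn hX (t := 1 / 2) (by norm_num) (by norm_num) x y z
  linarith

theorem third (x y z : X) : dist z (pt hX (1 / 3) x y) ^ 2 ≤
    2 / 3 * dist z x ^ 2 + 1 / 3 * dist z y ^ 2 - 2 / 9 * dist x y ^ 2 := by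
  have := cn hX (t := 1 / 3) (by norm_num) (by norm_num) x y z
  linarith

theorem mid_left (x y : X) : dist (pt hX (1 / 2) x y) x ^ 2 = 1 / 4 * dist x y ^ 2 := by
  rw [dist_comm, pt_left hX (by norm_num) (by norm_num)]
  ring

/-- One half of the estimate. -/
theorem side (c c' ρ σ σ₁ π β a : X) :
    dist σ₁ (pt hX (1 / 2) ρ σ) ^ 2 ≤
      17 / 16 * (1 / 2 * dist c σ₁ ^ 2 + 1 / 2 * dist σ₁ c' ^ 2 - 1 / 4 * dist c c' ^ 2) +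
      17 * (1 / 4 * dist c ρ ^ 2 + 1 / 4 * dist ρ c' ^ 2 + 1 / 4 * dist c σ ^ 2 +
        1 / 4 * dist σ c' ^ 2 - 1 / 4 * dist c c' ^ 2 - 1 / 4 * dist ρ σ ^ 2) ∧
    dist π c ^ 2 + (dist (pt hX (1 / 2) ρ σ) a ^ 2 - dist (pt hX (1 / 2) ρ σ) ρ ^ 2) +
      (dist (pt hX (1 / 2) a β) ρ ^ 2 - dist (pt hX (1 / 2) a β) a ^ 2) - dist a ρ ^ 2 -
      (1 / 2 * dist c ρ ^ 2 + 1 / 2 * dist c σ ^ 2 - 1 / 4 * dist ρ σ ^ 2) -
      (1 / 2 * dist a c ^ 2 + 1 / 2 * dist c β ^ 2 - 1 / 4 * dist a β ^ 2) -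
      (1 / 2 * dist a π ^ 2 + 1 / 2 * dist β π ^ 2 - 1 / 4 * dist a β ^ 2) ≤
      dist (pt hX (1 / 2) ρ σ) π ^ 2 := by
  constructor
  · have h1 := tri2 σ₁ (pt hX (1 / 2) c c') (pt hX (1 / 2) ρ σ)
    have h2 := mid hX c c' σ₁
    have h3 := mid hX ρ σ (pt hX (1 / 2) c c')
    have h4 := mid hX c c' ρ
    have h5 := mid hX c c' σ
    rw [dist_comm σ₁ c] at h2
    rw [dist_comm ρ, dist_comm ρ c] at h4
    rw [dist_comm σ, dist_comm σ c] at h5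
    linarith
  · have h1 := quad hX π (pt hX (1 / 2) ρ σ) c (pt hX (1 / 2) a β)
    have h2 := quad hX (pt hX (1 / 2) ρ σ) (pt hX (1 / 2) a β) a ρ
    have h3 := mid hX ρ σ c
    have h4 := mid hX a β c
    have h5 := mid hX a β π
    rw [dist_comm π (pt hX (1 / 2) ρ σ), dist_comm (pt hX (1 / 2) ρ σ) c,
      dist_comm (pt hX (1 / 2) a β) π] at h1
    rw [dist_comm ρ (pt hX (1 / 2) ρ σ)] at h2
    rw [dist_comm c a] at h4
    rw [dist_comm π a, dist_comm π β] at h5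
    linarith

theorem cc (ρ σ π : X) :
    dist (pt hX (1 / 3) (pt hX (1 / 2) ρ σ) π) (pt hX (1 / 3) (pt hX (1 / 2) π σ) ρ) ^ 2 ≤
      2 / 9 * dist π ρ ^ 2 + 1 / 18 * dist ρ σ ^ 2 + 1 / 18 * dist π σ ^ 2 -
        2 / 9 * dist (pt hX (1 / 2) ρ σ) π ^ 2 - 2 / 9 * dist (pt hX (1 / 2) π σ) ρ ^ 2 := by
  have h1 := third hX (pt hX (1 / 2) π σ) ρ (pt hX (1 / 3) (pt hX (1 / 2) ρ σ) π)
  have h2 := third hX (pt hX (1 / 2) ρ σ) π (pt hX (1 / 2) π σ)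
  have h3 := third hX (pt hX (1 / 2) ρ σ) π ρ
  have h4 := pt_convex hX (t := 1 / 2) (by norm_num) (by norm_num) π σ ρ σ
  have h5 := pow_le_pow_left₀ dist_nonneg h4 2
  have h6 := mid_left hX ρ σ
  have h7 := mid_left hX π σ
  rw [dist_comm _ (pt hX (1 / 2) π σ), dist_comm _ ρ] at h1
  rw [dist_comm ρ (pt hX (1 / 2) ρ σ), dist_comm ρ π] at h3
  rw [dist_self] at h5
  nlinarith

theorem point : ∃ (α : Fin 11 → ℝ) (β : Fin 21 → ℝ) (γ : Fin 7 → ℝ), (∀ i, 0 ≤ α i) ∧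
    ∑ i, β i + 2 * ∑ i, γ i + 1 / 20 ≤ ∑ i, α i ∧
    ∀ {X : Type u} [MetricSpace X] (hX : IsCAT0Space X) (v : Fin 14 → X),
      ∑ i, α i * Lw hX v i ≤ ∑ i, β i * Ed v i + ∑ i, γ i * Pr v i := by
  refine ⟨![17/4, 17/4, 17/4, 17/4, 17/4, 17/4, 1, 4913/768, 187/18, 4913/768, 187/18],
    ![-15011/2304, 391/48, 289/384, 289/48, 289/48, 289/384, -15011/2304, 391/48, 289/384, 289/48,
      289/48, 289/384, 51/8, 51/8, 0, 0, 0, 0, 0, 0, 0], ![34/9, 17/24, 17/24, 0, 17/4, 0, -1],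
    fun i => ?_, ?_, fun {X} _ hX v => ?_⟩
  · fin_cases i <;> simp <;> norm_num
  · simp only [Fin.sum_univ_succ, Fin.sum_univ_zero, Matrix.cons_val_zero, Matrix.cons_val_succ]
    norm_num
  · obtain ⟨a1, a2⟩ := side hX (v 0) (v 4) (v 1) (v 2) (v 3) (v 6) (v 5) (v 9)
    obtain ⟨b1, b2⟩ := side hX (v 5) (v 8) (v 6) (v 2) (v 7) (v 1) (v 0) (v 9)
    have c := cc hX (v 1) (v 2) (v 6)
    have d := tri3 (v 3) (pt hX (1 / 3) (pt hX (1 / 2) (v 1) (v 2)) (v 6))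
      (pt hX (1 / 3) (pt hX (1 / 2) (v 6) (v 2)) (v 1)) (v 7)
    have e1 := third hX (pt hX (1 / 2) (v 1) (v 2)) (v 6) (v 3)
    have e2 := third hX (pt hX (1 / 2) (v 6) (v 2)) (v 1) (v 7)
    rw [dist_comm (v 3) (v 6)] at e1
    rw [dist_comm (v 7) (v 1)] at e2
    rw [dist_comm (v 5) (v 0)] at b2
    simp only [Lw, Ed, Pr, eS, eT, Fin.sum_univ_succ, Fin.sum_univ_zero, Matrix.cons_val_zero,
      Matrix.cons_val_succ]
    rw [dist_comm (v 1) (v 0), dist_comm (v 6) (v 5)]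
    linarith

end Crest.Agent.R196
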