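import Crest.Agent.R196.Sturm
import Crest.Agent.R196.Point

/-!
Task R196-G4, auxiliary lemmas: scaled statistics, word lengths, boundedness, atoms of the eta pattern.
-/

set_option autoImplicit false

namespace Crest.Agent.R196

open Crest.Geometry
open scoped BigOperators

universe u

section Stats

variable {V P : Type} [Fintype V] [DecidableEq V] [Fintype P]

theorem Unif1.scaled {W : (V → P) → ℝ} {a : V} {δ : ℝ} (h : Unif1 W a δ) (F : P → ℝ) {M : ℝ}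
    (hM : 0 < M) (hF : ∀ s, |F s| ≤ M) :
    |(𝔼 φ, W φ * F (φ a)) - 𝔼 s, F s| ≤ δ * M := by
  have h1 := h (fun s => F s / M) (fun s => by
    rw [abs_div, abs_of_pos hM, div_le_one hM]; exact hF s)
  have e1 : (𝔼 φ, W φ * (F (φ a) / M)) = (𝔼 φ, W φ * F (φ a)) / M := by
    rw [Finset.expect_div]
    exact Finset.expect_congr rfl fun φ _ => by ring
  have e2 : (𝔼 s, F s / M) = (𝔼 s, F s) / M := by rw [Finset.expect_div]
  rw [e1, e2, ← sub_div, abs_div, abs_of_pos hM, div_le_iff₀ hM] at h1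
  exact h1

theorem Unif2.scaled {W : (V → P) → ℝ} {a b : V} {δ : ℝ} (h : Unif2 W a b δ) (F : P → P → ℝ)
    {M : ℝ} (hM : 0 < M) (hF : ∀ s t, |F s t| ≤ M) :
    |(𝔼 φ, W φ * F (φ a) (φ b)) - 𝔼 s, 𝔼 t, F s t| ≤ δ * M := by
  have h1 := h (fun s t => F s t / M) (fun s t => by
    rw [abs_div, abs_of_pos hM, div_le_one hM]; exact hF s t)
  have e1 : (𝔼 φ, W φ * (F (φ a) (φ b) / M)) = (𝔼 φ, W φ * F (φ a) (φ b)) / M := by
    rw [Finset.expect_div]
    exact Finset.expect_congr rfl fun φ _ => by ring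
  have e2 : (𝔼 s, 𝔼 t, F s t / M) = (𝔼 s, 𝔼 t, F s t) / M := by
    rw [Finset.expect_div]
    exact Finset.expect_congr rfl fun s _ => by rw [Finset.expect_div]
  rw [e1, e2, ← sub_div, abs_div, abs_of_pos hM, div_le_iff₀ hM] at h1
  exact h1

open Classical in
theorem bad_le {W : (V → P) → ℝ} {R : (V → P) → Prop} {δ : ℝ} (h0 : ∀ φ, 0 ≤ W φ)
    (hb : (𝔼 φ, W φ * (if R φ then 0 else 1)) ≤ δ) (F : (V → P) → ℝ) {M : ℝ} (hM : 0 ≤ M)
    (hR : ∀ φ, R φ → F φ ≤ 0) (hF : ∀ φ, F φ ≤ M) : (𝔼 φ, W φ * F φ) ≤ δ * M := by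
  have e1 : (𝔼 φ, W φ * F φ) ≤ 𝔼 φ, W φ * (if R φ then 0 else 1) * M := by
    refine Finset.expect_le_expect fun φ _ => ?_
    rw [mul_assoc]
    refine mul_le_mul_of_nonneg_left ?_ (h0 φ)
    split_ifs with h
    · simpa using hR φ h
    · simpa using hF φ
  rw [← Finset.expect_mul] at e1
  exact e1.trans (mul_le_mul_of_nonneg_right hb hM)

end Stats

theorem expect_diag {m : ℕ} [NeZero m] (f : Fin m → Fin m → ℝ) :
    (𝔼 j, 𝔼 k, f j k) = 𝔼 d, 𝔼 i, f i (i + d) := by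
  rw [Finset.expect_comm]
  rw [Finset.expect_comm (s := Finset.univ) (t := Finset.univ) (fun d i => f i (i + d)),
    Finset.expect_comm]
  refine Finset.expect_congr rfl fun j _ => ?_
  exact (Fintype.expect_equiv (Equiv.addLeft j) _ _ fun d => rfl).symm

theorem le_expect_of_forall {ι : Type} [Fintype ι] [Nonempty ι] {f : ι → ℝ} {a : ℝ}
    (h : ∀ i, a ≤ f i) : a ≤ 𝔼 i, f i :=
  Finset.le_expect Finset.univ_nonempty fun i _ => h i

theorem expect_le_of_forall {ι : Type} [Fintype ι] [Nonempty ι] {f : ι → ℝ} {a : ℝ}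
    (h : ∀ i, f i ≤ a) : (𝔼 i, f i) ≤ a :=
  Finset.expect_le Finset.univ_nonempty fun i _ => h i

section Len

variable {X : Type u} [MetricSpace X] {G : Type} [Group G] [MulAction G X] [IsIsometricSMul G X]
  (p : X)

theorem len_mul (g h : G) : dist p ((g * h) • p) ≤ dist p (g • p) + dist p (h • p) := by
  rw [mul_smul, ← dist_smul g p (h • p)]
  exact dist_triangle _ _ _

theorem len_inv (g : G) : dist p (g⁻¹ • p) = dist p (g • p) := by
  rw [← dist_smul g, smul_inv_smul, dist_comm]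

theorem dist_le_len (g h : G) : dist (g • p) (h • p) ≤ dist p (g • p) + dist p (h • p) :=
  dist_triangle_left _ _ _

theorem bounded {P : Type} [Fintype P] [Nonempty P] (x : P → G) {E : ℝ} (hE0 : 0 < E)
    (hE : E = 𝔼 c, dist p (x c • p) ^ 2)
    (hex : ∀ (s : P) (𝒢 : Finset P), Fintype.card P ≤ 2 * 𝒢.card →
      ∃ f : Fin 6 → P, f 0 = s ∧ (∀ i, i ≠ 0 → f i ∈ 𝒢) ∧ RelH x f) (s : P) :
    dist p (x s • p) ≤ 5 * √(2 * E) := by
  classical
  set 𝒢 : Finset P := Finset.univ.filter fun c => dist p (x c • p) ^ 2 ≤ 2 * E with h𝒢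
  have hcard : Fintype.card P ≤ 2 * 𝒢.card := by
    have hn0 : (0 : ℝ) < Fintype.card P := by exact_mod_cast Fintype.card_pos
    have h1 : ∑ c, dist p (x c • p) ^ 2 = Fintype.card P * E := by
      rw [hE, Fintype.expect_eq_sum_div_card]
      field_simp
    have h2 : ((𝒢ᶜ).card : ℝ) * (2 * E) ≤ ∑ c, dist p (x c • p) ^ 2 := by
      calc ((𝒢ᶜ).card : ℝ) * (2 * E) = ∑ _c ∈ 𝒢ᶜ, 2 * E := by
            rw [Finset.sum_const, nsmul_eq_mul]
        _ ≤ ∑ c ∈ 𝒢ᶜ, dist p (x c • p) ^ 2 := by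
            refine Finset.sum_le_sum fun c hc => ?_
            rw [Finset.mem_compl, h𝒢, Finset.mem_filter] at hc
            exact (not_le.1 fun h => hc ⟨Finset.mem_univ _, h⟩).le
        _ ≤ ∑ c, dist p (x c • p) ^ 2 :=
            Finset.sum_le_sum_of_subset_of_nonneg (Finset.subset_univ _) fun _ _ _ => sq_nonneg _
    have h3 : (𝒢.card : ℝ) + (𝒢ᶜ).card = Fintype.card P := by
      exact_mod_cast Finset.card_add_card_compl 𝒢
    have h4 : (Fintype.card P : ℝ) ≤ 2 * 𝒢.card := by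
      have : ((𝒢ᶜ).card : ℝ) * 2 ≤ Fintype.card P := by
        have h5 : ((𝒢ᶜ).card : ℝ) * 2 * E ≤ Fintype.card P * E := by linarith
        exact le_of_mul_le_mul_right h5 hE0
      linarith
    exact_mod_cast h4
  obtain ⟨f, hf0, hf, hR⟩ := hex s 𝒢 hcard
  have hb : ∀ i, i ≠ 0 → dist p (x (f i) • p) ≤ √(2 * E) := fun i hi => by
    have := hf i hi
    rw [h𝒢, Finset.mem_filter] at this
    exact Real.le_sqrt_of_sq_le this.2
  have e : x s = (x (f 1) * x (f 2) * x (f 3) * x (f 4) * x (f 5))⁻¹ := by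
    rw [← hf0, eq_inv_iff_mul_eq_one, ← hR]
    simp only [mul_assoc]
  rw [e, len_inv]
  have e1 := len_mul p (x (f 1) * x (f 2) * x (f 3) * x (f 4)) (x (f 5))
  have e2 := len_mul p (x (f 1) * x (f 2) * x (f 3)) (x (f 4))
  have e3 := len_mul p (x (f 1) * x (f 2)) (x (f 3))
  have e4 := len_mul p (x (f 1)) (x (f 2))
  have b1 := hb 1 (by decide)
  have b2 := hb 2 (by decide)
  have b3 := hb 3 (by decide)
  have b4 := hb 4 (by decide)
  have b5 := hb 5 (by decide)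
  linarith

end Len

section Atoms

variable {X : Type u} [MetricSpace X] (hX : IsCAT0Space X) {G P : Type} [Group G] [MulAction G X]
  (p : X) (x : P → G)

/-- The points `q` of the eleven differences. -/
noncomputable def qF (φ : Fin 21 → P) : Fin 11 → X :=
  ![pt hX (1 / 2) p (((x (φ 0))⁻¹ * x (φ 1)) • p),
    pt hX (1 / 2) p ((x (φ 12) * (x (φ 6))⁻¹) • p),
    ((x (φ 7))⁻¹ * x (φ 6)) • p,
    pt hX (1 / 2) p (((x (φ 6))⁻¹ * x (φ 7)) • p),
    pt hX (1 / 2) p ((x (φ 13) * (x (φ 0))⁻¹) • p),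
    ((x (φ 1))⁻¹ * x (φ 0)) • p,
    ((x (φ 19))⁻¹ * (x (φ 18))⁻¹) • p,
    (x (φ 0))⁻¹ • p,
    x (φ 0) • p,
    (x (φ 6))⁻¹ • p,
    x (φ 6) • p]

/-- The second points of the eleven differences. -/
def uF (φ : Fin 21 → P) : Fin 11 → X :=
  ![(x (φ 13))⁻¹ • p, x (φ 13) • p, (x (φ 1))⁻¹ • p, (x (φ 12))⁻¹ • p, x (φ 12) • p,
    (x (φ 7))⁻¹ • p, x (φ 20) • p, x (φ 3) • p, x (φ 1) • p, x (φ 9) • p, x (φ 7) • p]

/-- The eleven differences. -/
noncomputable def LwF (φ : Fin 21 → P) (i : Fin 11) : ℝ :=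
  dist (qF hX p x φ i) (uF p x φ i) ^ 2 - dist (qF hX p x φ i) p ^ 2

/-- The seven pairs. -/
noncomputable def PrF (φ : Fin 21 → P) : Fin 7 → ℝ :=
  ![dist (x (φ 12) • p) (x (φ 13) • p) ^ 2, dist (x (φ 14) • p) (x (φ 15) • p) ^ 2,
    dist (x (φ 16) • p) (x (φ 17) • p) ^ 2, dist ((x (φ 13))⁻¹ • p) ((x (φ 0))⁻¹ • p) ^ 2,
    dist ((x (φ 1))⁻¹ • p) ((x (φ 7))⁻¹ • p) ^ 2, dist ((x (φ 12))⁻¹ • p) ((x (φ 6))⁻¹ • p) ^ 2,
    dist ((x (φ 18))⁻¹ • p) (x (φ 19) • p) ^ 2]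

variable [IsIsometricSMul G X]

theorem dist_base (g a b a' b' : G) (ha : a = g * a') (hb : b = g * b') :
    dist (a • p) (b • p) = dist (a' • p) (b' • p) := by
  rw [ha, hb, mul_smul, mul_smul, dist_smul]

theorem dist_base0 (a b b' : G) (hb : b = a * b') :
    dist (a • p) (b • p) = dist p (b' • p) := by
  rw [hb, mul_smul, dist_smul]

theorem dist_base1 (a b a' : G) (ha : a = b * a') :
    dist (a • p) (b • p) = dist (a' • p) p := by
  rw [ha, mul_smul, dist_smul]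

theorem dist_mid (a b c b' c' : G) (hb : b = a * b') (hc : c = a * c') :
    dist (pt hX (1 / 2) (a • p) (b • p)) (c • p) = dist (pt hX (1 / 2) p (b' • p)) (c' • p) := by
  rw [hb, hc, mul_smul, mul_smul, ← pt_smul hX (by norm_num) (by norm_num), dist_smul]

theorem dist_mid0 (a b b' : G) (hb : b = a * b') :
    dist (pt hX (1 / 2) (a • p) (b • p)) (a • p) = dist (pt hX (1 / 2) p (b' • p)) p := by
  rw [hb, mul_smul, ← pt_smul hX (by norm_num) (by norm_num), dist_smul]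

theorem atoms {φ : Fin 21 → P} (h : Rel eS eT x φ) :
    ∃ v : Fin 14 → X, (∀ i, Lw hX v i = LwF hX p x φ i) ∧
      (∀ i, Ed v i = dist p (x (φ i) • p) ^ 2) ∧ ∀ i, Pr v i = PrF p x φ i := by
  obtain ⟨pos, hpos⟩ := h
  have h0 : pos 1 = pos 0 * x (φ 0) := hpos 0
  have h1 : pos 2 = pos 0 * x (φ 1) := hpos 1
  have h3 : pos 4 = pos 1 * x (φ 3) := hpos 3
  have h6 : pos 6 = pos 5 * x (φ 6) := hpos 6
  have h7 : pos 2 = pos 5 * x (φ 7) := hpos 7
  have h9 : pos 8 = pos 6 * x (φ 9) := hpos 9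
  have h12 : pos 6 = pos 9 * x (φ 12) := hpos 12
  have h13 : pos 1 = pos 9 * x (φ 13) := hpos 13
  have h14 : pos 6 = pos 10 * x (φ 14) := hpos 14
  have h15 : pos 3 = pos 10 * x (φ 15) := hpos 15
  have h16 : pos 1 = pos 11 * x (φ 16) := hpos 16
  have h17 : pos 7 = pos 11 * x (φ 17) := hpos 17
  have h18 : pos 12 = pos 3 * x (φ 18) := hpos 18
  have h19 : pos 13 = pos 12 * x (φ 19) := hpos 19
  have h20 : pos 7 = pos 13 * x (φ 20) := hpos 20
  have k0 : pos 0 = pos 1 * (x (φ 0))⁻¹ := by rw [h0, mul_inv_cancel_right]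
  have k1 : pos 0 = pos 2 * (x (φ 1))⁻¹ := by rw [h1, mul_inv_cancel_right]
  have k6 : pos 5 = pos 6 * (x (φ 6))⁻¹ := by rw [h6, mul_inv_cancel_right]
  have k7 : pos 5 = pos 2 * (x (φ 7))⁻¹ := by rw [h7, mul_inv_cancel_right]
  have k12 : pos 9 = pos 6 * (x (φ 12))⁻¹ := by rw [h12, mul_inv_cancel_right]
  have k13 : pos 9 = pos 1 * (x (φ 13))⁻¹ := by rw [h13, mul_inv_cancel_right]
  have k18 : pos 3 = pos 12 * (x (φ 18))⁻¹ := by rw [h18, mul_inv_cancel_right]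
  have k19 : pos 12 = pos 13 * (x (φ 19))⁻¹ := by rw [h19, mul_inv_cancel_right]
  have w0 : pos 2 = pos 1 * ((x (φ 0))⁻¹ * x (φ 1)) := by rw [← mul_assoc, ← k0, h1]
  have w1 : pos 5 = pos 9 * (x (φ 12) * (x (φ 6))⁻¹) := by rw [← mul_assoc, ← h12, k6]
  have w2 : pos 6 = pos 2 * ((x (φ 7))⁻¹ * x (φ 6)) := by rw [← mul_assoc, ← k7, h6]
  have w3 : pos 2 = pos 6 * ((x (φ 6))⁻¹ * x (φ 7)) := by rw [← mul_assoc, ← k6, h7]
  have w4 : pos 0 = pos 9 * (x (φ 13) * (x (φ 0))⁻¹) := by rw [← mul_assoc, ← h13, k0]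
  have w5 : pos 1 = pos 2 * ((x (φ 1))⁻¹ * x (φ 0)) := by rw [← mul_assoc, ← k1, h0]
  have w6 : pos 3 = pos 13 * ((x (φ 19))⁻¹ * (x (φ 18))⁻¹) := by rw [← mul_assoc, ← k19, k18]
  refine ⟨fun i => pos i • p, fun i => ?_, fun i => ?_, fun i => ?_⟩
  · fin_cases i
    · exact congrArg₂ (fun a b : ℝ => a ^ 2 - b ^ 2) (dist_mid hX p _ _ _ _ _ w0 k13)
        (dist_mid0 hX p _ _ _ w0)
    · exact congrArg₂ (fun a b : ℝ => a ^ 2 - b ^ 2) (dist_mid hX p _ _ _ _ _ w1 h13)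
        (dist_mid0 hX p _ _ _ w1)
    · exact congrArg₂ (fun a b : ℝ => a ^ 2 - b ^ 2) (dist_base p _ _ _ _ _ w2 k1)
        (dist_base1 p _ _ _ w2)
    · exact congrArg₂ (fun a b : ℝ => a ^ 2 - b ^ 2) (dist_mid hX p _ _ _ _ _ w3 k12)
        (dist_mid0 hX p _ _ _ w3)
    · exact congrArg₂ (fun a b : ℝ => a ^ 2 - b ^ 2) (dist_mid hX p _ _ _ _ _ w4 h12)
        (dist_mid0 hX p _ _ _ w4)
    · exact congrArg₂ (fun a b : ℝ => a ^ 2 - b ^ 2) (dist_base p _ _ _ _ _ w5 k7)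
        (dist_base1 p _ _ _ w5)
    · exact congrArg₂ (fun a b : ℝ => a ^ 2 - b ^ 2) (dist_base p _ _ _ _ _ w6 h20)
        (dist_base1 p _ _ _ w6)
    · exact congrArg₂ (fun a b : ℝ => a ^ 2 - b ^ 2) (dist_base p _ _ _ _ _ k0 h3)
        (dist_base1 p _ _ _ k0)
    · exact congrArg₂ (fun a b : ℝ => a ^ 2 - b ^ 2) (dist_base p _ _ _ _ _ h0 h1)
        (dist_base1 p _ _ _ h0)
    · exact congrArg₂ (fun a b : ℝ => a ^ 2 - b ^ 2) (dist_base p _ _ _ _ _ k6 h9)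
        (dist_base1 p _ _ _ k6)
    · exact congrArg₂ (fun a b : ℝ => a ^ 2 - b ^ 2) (dist_base p _ _ _ _ _ h6 h7)
        (dist_base1 p _ _ _ h6)
  · exact congrArg (fun a : ℝ => a ^ 2) (dist_base0 p _ _ _ (hpos i))
  · fin_cases i
    · exact congrArg (fun a : ℝ => a ^ 2) (dist_base p _ _ _ _ _ h12 h13)
    · exact congrArg (fun a : ℝ => a ^ 2) (dist_base p _ _ _ _ _ h14 h15)
    · exact congrArg (fun a : ℝ => a ^ 2) (dist_base p _ _ _ _ _ h16 h17)
    · exact congrArg (fun a : ℝ => a ^ 2) (dist_base p _ _ _ _ _ k13 k0)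
    · exact congrArg (fun a : ℝ => a ^ 2) (dist_base p _ _ _ _ _ k1 k7)
    · exact congrArg (fun a : ℝ => a ^ 2) (dist_base p _ _ _ _ _ k12 k6)
    · exact congrArg (fun a : ℝ => a ^ 2) (dist_base p _ _ _ _ _ k18 h19)

include hX in
theorem corner_pt {φ : Fin 15 → P} (h : Rel cS cT x φ) :
    dist (x (φ 1) • x (φ 4) • p) (x (φ 6) • x (φ 9) • p) ^ 2 +
      (dist ((x (φ 3))⁻¹ • p) (x (φ 12) • p) ^ 2 - dist ((x (φ 3))⁻¹ • p) p ^ 2) -
      dist p (x (φ 12) • p) ^ 2 - dist p (x (φ 13) • p) ^ 2 - dist p (x (φ 8) • p) ^ 2 ≤ 0 := by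
  obtain ⟨pos, hpos⟩ := h
  have h1 : pos 2 = pos 0 * x (φ 1) := hpos 1
  have h3 : pos 4 = pos 1 * x (φ 3) := hpos 3
  have h4 : pos 4 = pos 2 * x (φ 4) := hpos 4
  have h6 : pos 5 = pos 0 * x (φ 6) := hpos 6
  have h8 : pos 7 = pos 1 * x (φ 8) := hpos 8
  have h9 : pos 7 = pos 5 * x (φ 9) := hpos 9
  have h12 : pos 9 = pos 4 * x (φ 12) := hpos 12
  have h13 : pos 9 = pos 7 * x (φ 13) := hpos 13
  have k3 : pos 1 = pos 4 * (x (φ 3))⁻¹ := by rw [h3, mul_inv_cancel_right]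
  have w1 : pos 4 = pos 0 * (x (φ 1) * x (φ 4)) := by rw [← mul_assoc, ← h1, h4]
  have w2 : pos 7 = pos 0 * (x (φ 6) * x (φ 9)) := by rw [← mul_assoc, ← h6, h9]
  have q := quad hX (pos 1 • p) (pos 4 • p) (pos 9 • p) (pos 7 • p)
  rw [dist_base p _ _ _ _ _ k3 h12, dist_base p _ _ _ _ _ w1 w2, dist_base1 p _ _ _ k3,
    dist_base0 p _ _ _ h12, dist_comm (pos 9 • p), dist_base0 p _ _ _ h13, dist_comm (pos 7 • p),
    dist_base0 p _ _ _ h8, mul_smul, mul_smul] at q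
  linarith

variable {p x} {D : ℝ} (hD : ∀ c, dist p (x c • p) ≤ D)
include hD

theorem len_inv_le (c : P) : dist p ((x c)⁻¹ • p) ≤ D := (len_inv p _).trans_le (hD c)

theorem mid_le (g : G) (hg : dist p (g • p) ≤ 2 * D) : dist (pt hX (1 / 2) p (g • p)) p ≤ 2 * D := by
  rw [dist_comm, pt_left hX (by norm_num) (by norm_num)]
  have := dist_nonneg (x := p) (y := g • p)
  linarith

theorem qF_le [Nonempty P] (φ : Fin 21 → P) (i : Fin 11) : dist (qF hX p x φ i) p ≤ 2 * D := by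
  have hI := len_inv_le hD
  have hD0 : 0 ≤ D := dist_nonneg.trans (hD (φ 0))
  fin_cases i
  · exact mid_le hX hD _ ((len_mul p _ _).trans (by linarith [hI (φ 0), hD (φ 1)]))
  · exact mid_le hX hD _ ((len_mul p _ _).trans (by linarith [hI (φ 6), hD (φ 12)]))
  · exact (dist_comm _ _).trans_le ((len_mul p _ _).trans (by linarith [hI (φ 7), hD (φ 6)]))
  · exact mid_le hX hD _ ((len_mul p _ _).trans (by linarith [hI (φ 6), hD (φ 7)]))
  · exact mid_le hX hD _ ((len_mul p _ _).trans (by linarith [hI (φ 0), hD (φ 13)]))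
  · exact (dist_comm _ _).trans_le ((len_mul p _ _).trans (by linarith [hI (φ 1), hD (φ 0)]))
  · exact (dist_comm _ _).trans_le ((len_mul p _ _).trans (by linarith [hI (φ 19), hI (φ 18)]))
  · exact (dist_comm _ _).trans_le ((hI (φ 0)).trans (by linarith))
  · exact (dist_comm _ _).trans_le ((hD (φ 0)).trans (by linarith))
  · exact (dist_comm _ _).trans_le ((hI (φ 6)).trans (by linarith))
  · exact (dist_comm _ _).trans_le ((hD (φ 6)).trans (by linarith))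

theorem uF_le (φ : Fin 21 → P) (i : Fin 11) : dist p (uF p x φ i) ≤ D := by
  have hI := len_inv_le hD
  fin_cases i
  · exact hI _
  · exact hD _
  · exact hI _
  · exact hI _
  · exact hD _
  · exact hI _
  · exact hD _
  · exact hD _
  · exact hD _
  · exact hD _
  · exact hD _

theorem LwF_le [Nonempty P] (φ : Fin 21 → P) (i : Fin 11) : LwF hX p x φ i ≤ 9 * D ^ 2 := by
  have h1 := qF_le hX hD φ i
  have h2 := uF_le hD φ i
  have h3 : dist (qF hX p x φ i) (uF p x φ i) ≤ 3 * D := by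
    linarith [dist_triangle (qF hX p x φ i) p (uF p x φ i)]
  have h4 := pow_le_pow_left₀ dist_nonneg h3 2
  have h5 := sq_nonneg (dist (qF hX p x φ i) p)
  unfold LwF
  nlinarith

theorem pair_le {g h : G} (hg : dist p (g • p) ≤ D) (hh : dist p (h • p) ≤ D) :
    dist (g • p) (h • p) ^ 2 ≤ 4 * D ^ 2 := by
  have h3 : dist (g • p) (h • p) ≤ 2 * D := by linarith [dist_le_len p g h]
  have h4 := pow_le_pow_left₀ dist_nonneg h3 2
  nlinarith

theorem PrF_le (φ : Fin 21 → P) (i : Fin 7) : 0 ≤ PrF p x φ i ∧ PrF p x φ i ≤ 4 * D ^ 2 := by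
  have hI := len_inv_le hD
  fin_cases i
  · exact ⟨sq_nonneg _, pair_le hD (hD _) (hD _)⟩
  · exact ⟨sq_nonneg _, pair_le hD (hD _) (hD _)⟩
  · exact ⟨sq_nonneg _, pair_le hD (hD _) (hD _)⟩
  · exact ⟨sq_nonneg _, pair_le hD (hI _) (hI _)⟩
  · exact ⟨sq_nonneg _, pair_le hD (hI _) (hI _)⟩
  · exact ⟨sq_nonneg _, pair_le hD (hI _) (hI _)⟩
  · exact ⟨sq_nonneg _, pair_le hD (hI _) (hD _)⟩

end Atoms

end Crest.Agent.R196
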