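import Crest.Agent.R196.Defs

/-!
Task R196-B1: the labelled graph of `ω`.

An object is *active* if it is present and generic, and, for an eta `etO j k f`, the thetas `thO 0 j (f ∘ ve3 0)` and
`thO 1 k (f ∘ ve3 1)` are present (they are then active).  `Cp` = active objects.  Suggested: `V = Cp × Fin 14`,
`Hf = {z : Cp × Fin 21 × Bool // valid (type of z.1) z.2.1}` with templates
* theta: edges `0..5` with `eS`, `eT`, label `f i`, slot `(o, i)`, `own = range 6`, `g = 4`, `kk = 4`, `th`;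
* hexagon: edges `0..5`, `i → i + 1 (mod 6)`, slot `(o, i)`, `own = range 6`, `g = 6`, `kk = 3`;
* eta: edges `0,1,2,6,7,8,12,…,20` with `eS`, `eT`, label `f i`; slots `(θ_C, i)` for `i < 3`, `(θ_B, i - 6)` for `i = 6,7,8`,
  `(o, i)` for `i ≥ 12`; `own = Ico 12 21`, `par = {θ_C, θ_B}`, `g = 6`, `kk = 10`.
The half-edge `(o, i, true)` sits at the source and has colour `f i`; `(o, i, false)` sits at the target and has colour
`sg (f i)`; `τ` flips the Boolean; `cls = Prod.fst`; `lab o i` = class of the `i`-th label of `o`.  `fold` follows from `Gen`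
(no loops).  The girth of the templates is a finite check (`decide` on non-backtracking paths of length `≤ 5`, e.g. through
a computable list of successors).  `nc` from `NC` (for `T` closed under `par`, the classes of all labels of the objects of
`T` are the classes of the own slots).  The relations follow from `R177.gx_rel` with `pos v = y_{(o, v)}`; for the eta pattern
put `pos c' = pos ρ * x (f 3)`, `pos β' = pos π * x (f 9)` and use `RelT`.
-/

set_option autoImplicit false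

namespace Crest.Agent.R196

open Finset Model

namespace Gr

/-! ### Tables (`0` theta, `1` eta, `2` hexagon) -/

/-- Edges that are present. -/
def valid (t : Fin 3) (i : Fin 21) : Bool :=
  if t = 1 then decide (i.1 < 3 ∨ (6 ≤ i.1 ∧ i.1 < 9) ∨ 12 ≤ i.1) else decide (i.1 < 6)

/-- Sources. -/
def src (t : Fin 3) (i : Fin 21) : Fin 14 := if t = 2 then Fin.ofNat 14 i.1 else eS i

/-- Targets. -/
def tgt (t : Fin 3) (i : Fin 21) : Fin 14 := if t = 2 then Fin.ofNat 14 ((i.1 + 1) % 6) else eT i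

/-- The vertex of a half-edge. -/
def vx (t : Fin 3) (a : Fin 21 × Bool) : Fin 14 := if a.2 then src t a.1 else tgt t a.1

/-- The opposite half-edge. -/
def rv (a : Fin 21 × Bool) : Fin 21 × Bool := (a.1, !a.2)

/-- Owners. -/
def owT (t : Fin 3) (i : ℕ) : Fin 3 := if t = 1 then (if i < 6 then 1 else if i < 12 then 2 else 0) else 0

/-- Indices. -/
def ixT (t : Fin 3) (i : ℕ) : ℕ := if t = 1 ∧ 6 ≤ i ∧ i < 12 then i - 6 else i

/-- Own slots. -/
def ownT (t : Fin 3) : Finset ℕ := if t = 1 then Ico 12 21 else range 6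

/-- Girths. -/
def gT (t : Fin 3) : ℕ := if t = 0 then 4 else 6

/-- Arities. -/
def arT (t : Fin 3) : ℕ := if t = 1 then 21 else 6

/-- All half-edges. -/
def allH : List (Fin 21 × Bool) := (List.finRange 21).flatMap (fun i => [(i, true), (i, false)])

/-- Successors. -/
def nx (t : Fin 3) (a : Fin 21 × Bool) : List (Fin 21 × Bool) :=
  allH.filter (fun b => valid t b.1 && decide (vx t (rv a) = vx t b) && decide (b ≠ rv a))

/-- Reachable half-edges. -/
def reach (t : Fin 3) (a : Fin 21 × Bool) : ℕ → List (Fin 21 × Bool)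
  | 0 => [a]
  | k + 1 => (reach t a k).flatMap (nx t)

theorem mem_allH : ∀ a, a ∈ allH := by decide

theorem reach_ok : ∀ (t : Fin 3) (a : Fin 21 × Bool), valid t a.1 = true → ∀ k : Fin 5,
    k.1 + 1 < gT t → ∀ b ∈ reach t a k.1, vx t (rv b) ≠ vx t a := by decide +kernel

theorem girthT (t : Fin 3) (l : ℕ) (q : ℕ → Fin 21 × Bool) (hl : 0 < l) (hg : l < gT t)
    (hv : ∀ i < l, valid t (q i).1 = true)
    (h : ∀ i, i + 1 < l → vx t (rv (q i)) = vx t (q (i + 1)) ∧ q (i + 1) ≠ rv (q i)) :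
    vx t (rv (q (l - 1))) ≠ vx t (q 0) := by
  have h1 : ∀ k < l, q k ∈ reach t (q 0) k := by
    intro k
    induction k with
    | zero => intro _; simp [reach]
    | succ k ih =>
      intro hk
      simp only [reach, List.mem_flatMap]
      refine ⟨q k, ih (by omega), ?_⟩
      simp only [nx, List.mem_filter, mem_allH, true_and, Bool.and_eq_true, decide_eq_true_eq]
      exact ⟨⟨hv _ hk, (h k hk).1⟩, (h k hk).2⟩
  have h6 : gT t ≤ 6 := by unfold gT; split_ifs <;> omega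
  exact reach_ok t (q 0) (hv 0 hl) ⟨l - 1, by omega⟩ (by simp only; omega) _ (h1 (l - 1) (by omega))

theorem valid_lt : ∀ t i, valid t i = true → i.1 < arT t := by decide

theorem slotT : ∀ (t : Fin 3) (i i' : Fin 21), owT t i = owT t i' → ixT t i = ixT t i' → i = i' := by
  decide +kernel

theorem ow_neT : ∀ (t : Fin 3) (i : Fin 21), valid t i = true → owT t i ≠ 0 → ixT t i < 3 := by
  decide

theorem ctrT : ∀ (t : Fin 3) (i i' : Fin 21), t ≠ 2 → owT t i = owT t i' → ixT t i < 3 →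
    ixT t i' < 3 → src t i = src t i' := by
  decide +kernel

theorem fewT : ∀ t : Fin 3,
    (univ.filter (fun a : Fin 21 × Bool => valid t a.1 = true)).card ≤ 30 := by
  decide +kernel

/-! ### Objects -/

variable {m r : ℕ}

/-- The type of an object. -/
def ty (o : (Mod m).Obj r) : Fin 3 :=
  match o.c with
  | Sum.inl _ => 0
  | Sum.inr (Sum.inl _) => 1
  | Sum.inr (Sum.inr _) => 2

theorem ar_eq (o : (Mod m).Obj r) : (Mod m).ar o.c = arT (ty o) := by
  rcases o with ⟨_ | _ | _, f⟩ <;> rfl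

theorem ar_pos (o : (Mod m).Obj r) : 0 < (Mod m).ar o.c := by
  rw [ar_eq, arT]
  split_ifs <;> omega

/-- Labels. -/
def lb (o : (Mod m).Obj r) (i : ℕ) : PP (3 * m + 1) r := o.f ⟨i % _, Nat.mod_lt _ (ar_pos o)⟩

theorem lb_eq (o : (Mod m).Obj r) (s : Fin ((Mod m).ar o.c)) : lb o s = o.f s := by
  unfold lb
  congr 1
  exact Fin.ext (Nat.mod_eq_of_lt s.2)

theorem lb_inj {o : (Mod m).Obj r} (ho : Gen o.f) {i j : ℕ} (hi : i < arT (ty o))
    (hj : j < arT (ty o)) (h : (lb o i).1 = (lb o j).1) : i = j := by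
  rw [← ar_eq] at hi hj
  have := congrArg Fin.val (ho h)
  simpa [Nat.mod_eq_of_lt hi, Nat.mod_eq_of_lt hj] using this

/-- The thetas of an eta. -/
def sub (a : Fin 3) : (Mod m).Obj r → (Mod m).Obj r
  | ⟨Sum.inr (Sum.inl z), f⟩ =>
    if a = 1 then thO 0 z.1 (fun s => f (ve3 0 s)) else if a = 2 then thO 1 z.2 (fun s => f (ve3 1 s))
    else ⟨Sum.inr (Sum.inl z), f⟩
  | o => o

theorem sub_zero (o : (Mod m).Obj r) : sub 0 o = o := by
  rcases o with ⟨_ | _ | _, f⟩ <;> rfl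

theorem sub_of_ne {o : (Mod m).Obj r} (h : ty o ≠ 1) (a : Fin 3) : sub a o = o := by
  rcases o with ⟨_ | _ | _, f⟩
  · rfl
  · exact absurd rfl h
  · rfl

theorem ty_sub {o : (Mod m).Obj r} (h : ty o = 1) {a : Fin 3} (ha : a ≠ 0) : ty (sub a o) = 0 := by
  rcases o with ⟨_ | _ | _, f⟩
  · exact absurd h (by decide : (0 : Fin 3) ≠ 1)
  · fin_cases a
    · exact absurd rfl ha
    · rfl
    · rfl
  · exact absurd h (by decide : (2 : Fin 3) ≠ 1)

theorem sub_inj {o : (Mod m).Obj r} (h : ty o = 1) {a b : Fin 3} (e : sub a o = sub b o) :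
    a = b := by
  rcases o with ⟨_ | _ | _, f⟩
  · exact absurd h (by decide : (0 : Fin 3) ≠ 1)
  · have e' := congrArg Obj.c e
    fin_cases a <;> fin_cases b <;> first | rfl | simp [sub, thO] at e'
  · exact absurd h (by decide : (2 : Fin 3) ≠ 1)

theorem lb_sub (o : (Mod m).Obj r) (i : Fin 21) :
    lb (sub (owT (ty o) i) o) (ixT (ty o) i) = lb o i := by
  rcases o with ⟨_ | _ | _, f⟩
  · rfl
  · fin_cases i <;> rfl
  · rfl

theorem ix_sub (o : (Mod m).Obj r) (i : Fin 21) (hi : i.1 < arT (ty o)) :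
    ixT (ty o) i ∈ ownT (ty (sub (owT (ty o) i) o)) := by
  rcases o with ⟨_ | _ | _, f⟩
  · exact mem_range.mpr hi
  · by_cases h : owT 1 i = 0
    · change ixT 1 i ∈ ownT (ty (sub (owT 1 i) _))
      rw [h]
      exact (by decide : ∀ i : Fin 21, owT 1 i = 0 → ixT 1 i ∈ ownT 1) i h
    · change ixT 1 i ∈ ownT (ty (sub (owT 1 i) _))
      rw [ty_sub rfl h]
      exact (by decide : ∀ i : Fin 21, owT 1 i ≠ 0 → ixT 1 i ∈ ownT 0) i h
  · exact mem_range.mpr hi

theorem ve3_inj : ∀ a, Function.Injective (ve3 a) := by decide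

theorem vc3_inj : ∀ a, Function.Injective (vc3 a) := by decide

variable (ω : (Mod m).Om r)

/-- Active objects. -/
def Act (o : (Mod m).Obj r) : Prop := Gen o.f ∧ ∀ a, Pres ω (sub a o)

variable {ω}

theorem act_of_ne {o : (Mod m).Obj r} (h : ty o ≠ 1) (h1 : Gen o.f) (h2 : Pres ω o) : Act ω o :=
  ⟨h1, fun a => by rw [sub_of_ne h]; exact h2⟩

theorem Act.sub {o : (Mod m).Obj r} (h : Act ω o) (a : Fin 3) : Act ω (sub a o) := by
  by_cases h1 : ty o = 1
  · by_cases ha : a = 0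
    · rw [ha, sub_zero]; exact h
    · refine act_of_ne (by rw [ty_sub h1 ha]; decide) ?_ (h.2 a)
      rcases o with ⟨_ | _ | _, f⟩
      · exact h.1
      · fin_cases a
        · exact absurd rfl ha
        · exact h.1.comp (ve3_inj 0)
        · exact h.1.comp (ve3_inj 1)
      · exact h.1
  · rw [sub_of_ne h1]; exact h

variable (ω)

/-- Components. -/
abbrev Cp : Type := {o : (Mod m).Obj r // Act ω o}

/-- Half-edges. -/
abbrev Hf : Type := {z : Cp ω × Fin 21 × Bool // valid (ty z.1.1) z.2.1 = true}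

variable {ω}

/-- The thetas of a component. -/
def subC (a : Fin 3) (κ : Cp ω) : Cp ω := ⟨sub a κ.1, κ.2.sub a⟩

/-- Colours. -/
def col (h : Hf ω) : PP (3 * m + 1) r :=
  if h.1.2.2 then lb h.1.1.1 h.1.2.1 else sg (lb h.1.1.1 h.1.2.1)

theorem col_fst (h : Hf ω) : (col h).1 = (lb h.1.1.1 h.1.2.1).1 := by
  unfold col
  split_ifs <;> rfl

theorem sg_ne {N : ℕ} (c : Fin N × Bool) : sg c ≠ c := by
  intro h
  have := congrArg Prod.snd h
  simp [sg] at this

theorem sg_sg {N : ℕ} (c : Fin N × Bool) : sg (sg c) = c := by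
  simp [sg]

variable (ω)

/-- The half-edge system. -/
def hs : R177.HS (Hf ω) (Cp ω × Fin 14) (PP (3 * m + 1) r) where
  vert h := (h.1.1, vx (ty h.1.1.1) h.1.2)
  col := col
  fold := by
    rintro ⟨⟨κ, i, b⟩, hv⟩ ⟨⟨κ', i', b'⟩, hv'⟩ e1 e2
    obtain rfl : κ = κ' := congrArg Prod.fst e1
    have e3 := congrArg Prod.fst e2
    rw [col_fst, col_fst] at e3
    obtain rfl : i = i' := Fin.ext (lb_inj κ.2.1 (valid_lt _ _ hv) (valid_lt _ _ hv') e3)
    cases b <;> cases b'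
    · rfl
    · exact absurd e2 (sg_ne _)
    · exact absurd e2.symm (sg_ne _)
    · rfl

variable {ω}

/-- The matching. -/
def ta (h : Hf ω) : Hf ω := ⟨(h.1.1, rv h.1.2), h.2⟩

open Classical in
/-- Parents. -/
noncomputable def par (κ : Cp ω) : Finset (Cp ω) := if ty κ.1 = 1 then {subC 1 κ, subC 2 κ} else ∅

theorem mem_par {κ θ : Cp ω} : θ ∈ par κ ↔ ty κ.1 = 1 ∧ ∃ a, a ≠ 0 ∧ θ = subC a κ := by
  classical
  unfold par
  split_ifs with h
  · simp only [mem_insert, mem_singleton, h, true_and]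
    constructor
    · rintro (h | h)
      · exact ⟨1, by decide, h⟩
      · exact ⟨2, by decide, h⟩
    · rintro ⟨a, ha, h⟩
      fin_cases a
      · exact absurd rfl ha
      · exact Or.inl h
      · exact Or.inr h
  · simp [h]

theorem owT_ne {t : Fin 3} {i : ℕ} (h : owT t i ≠ 0) : t = 1 := by
  by_contra h1
  exact h (by simp [owT, h1])

theorem owT_eq {κ : Cp ω} {i j : ℕ} (h : subC (owT (ty κ.1) i) κ = subC (owT (ty κ.1) j) κ) :
    owT (ty κ.1) i = owT (ty κ.1) j := by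
  by_cases h1 : ty κ.1 = 1
  · exact sub_inj h1 (congrArg Subtype.val h)
  · simp [owT, h1]

theorem card_par (κ : Cp ω) : (par κ).card = if ty κ.1 = 1 then 2 else 0 := by
  classical
  unfold par
  split_ifs with h
  · refine card_pair fun e => ?_
    exact absurd (sub_inj h (congrArg Subtype.val e)) (by decide)
  · rfl

variable (ω)

/-- The system. -/
noncomputable def sys (B : ℕ) (hnc : NC ω B) :
    Sys (Hf ω) (Cp ω × Fin 14) (PP (3 * m + 1) r) (Fin (r ^ (3 * m + 1))) (Cp ω) where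
  S := hs ω
  σ := sg
  τ := ta
  cls := Prod.fst
  cp h := h.1.1
  ow h := subC (owT (ty h.1.1.1) h.1.2.1) h.1.1
  ix h := ixT (ty h.1.1.1) h.1.2.1
  lab κ i := (lb κ.1 i).1
  own κ := ownT (ty κ.1)
  par := par
  th κ := ty κ.1 = 0
  g κ := gT (ty κ.1)
  kk κ := (Mod m).kk κ.1.c
  K₀ := 3 * m + 2
  B := B
  σσ := sg_sg
  σne := sg_ne
  ττ := by
    rintro ⟨⟨κ, i, b⟩, hv⟩
    simp [ta, rv]
  τne := by
    rintro ⟨⟨κ, i, b⟩, hv⟩ h
    simp [ta, rv] at h
  τcol := by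
    rintro ⟨⟨κ, i, _ | _⟩, hv⟩
    · exact (sg_sg _).symm
    · rfl
  cls_σ _ := rfl
  cp_τ _ := rfl
  ow_τ _ := rfl
  ix_τ _ := rfl
  cp_vert _ _ e := congrArg (fun z : Cp ω × Fin 14 => z.1) e
  lab_eq h := by
    change (lb (sub _ _) _).1 = (col h).1
    rw [lb_sub, col_fst]
  ix_mem h := ix_sub _ _ (valid_lt _ _ h.2)
  slot_inj := by
    rintro ⟨⟨κ, i, b⟩, hv⟩ ⟨⟨κ', i', b'⟩, hv'⟩ e1 e2 e3
    obtain rfl : κ = κ' := e1
    obtain rfl : i = i' := slotT _ _ _ (owT_eq e2) e3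
    cases b <;> cases b'
    · exact Or.inl rfl
    · exact Or.inr rfl
    · exact Or.inr rfl
    · exact Or.inl rfl
  ow_ne h e := by
    have h1 : owT (ty h.1.1.1) h.1.2.1 ≠ 0 := fun h0 => e (Subtype.ext (by
      change sub _ _ = _
      rw [h0, sub_zero]))
    exact ⟨mem_par.mpr ⟨owT_ne h1, _, h1, rfl⟩, ow_neT _ _ h.2 h1⟩
  par_th κ θ h := by
    obtain ⟨h1, a, ha, rfl⟩ := mem_par.mp h
    exact ty_sub h1 ha
  th_par θ h := by
    refine ⟨card_eq_zero.mp (by rw [card_par, h]; rfl), ?_⟩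
    rcases θ with ⟨⟨_ | _ | _, f⟩, _⟩
    · rfl
    · exact absurd h (by decide : (1 : Fin 3) ≠ 0)
    · exact absurd h (by decide : (2 : Fin 3) ≠ 0)
  ctr := by
    rintro ⟨⟨κ, i, b⟩, hv⟩ h1 h2
    refine ⟨(κ, src (ty κ.1) i), ?_⟩
    rintro ⟨⟨κ', i', b'⟩, hv'⟩ e1 e2 e3
    obtain rfl : κ' = κ := e1
    have h3 : ty κ'.1 ≠ 2 := fun h => by
      change ty (sub _ _) = 0 at h1
      rw [sub_of_ne (by rw [h]; decide), h] at h1
      exact absurd h1 (by decide)
    have h4 := ctrT _ _ _ h3 (owT_eq e2) e3 h2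
    cases b'
    · exact Or.inr (Prod.ext rfl h4)
    · exact Or.inl (Prod.ext rfl h4)
  g_eq κ := by
    rw [card_par]
    rcases κ with ⟨⟨_ | _ | _, f⟩, _⟩ <;> rfl
  g_le κ := by unfold gT; split_ifs <;> omega
  par_le κ := by rw [card_par]; split_ifs <;> omega
  girth l p hl hg h e := by
    have h1 : ∀ i < l, (p i).1.1 = (p 0).1.1 := by
      intro i
      induction i with
      | zero => intro _; rfl
      | succ i ih =>
        intro hi
        rw [← ih (by omega)]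
        exact (congrArg Prod.fst (h i hi).1).symm
    refine girthT (ty (p 0).1.1.1) l (fun i => (p i).1.2) hl hg (fun i hi => ?_) (fun i hi => ?_) ?_
    · rw [← h1 i hi]; exact (p i).2
    · have h2 := congrArg Prod.snd (h i hi).1
      change vx (ty (p i).1.1.1) _ = vx (ty (p (i + 1)).1.1.1) _ at h2
      rw [h1 i (by omega), h1 _ hi] at h2
      refine ⟨h2, fun h3 => (h i hi).2 (Subtype.ext (Prod.ext ?_ h3))⟩
      exact (h1 _ hi).trans (h1 i (by omega)).symm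
    · have h2 := congrArg Prod.snd e
      change vx (ty (p (l - 1)).1.1.1) _ = _ at h2
      rw [h1 _ (by omega)] at h2
      exact h2
  few κ s hs := by
    refine le_trans (card_le_card_of_injOn (fun h => h.1.2) ?_ ?_) (fewT (ty κ.1))
    · intro h hh
      rw [mem_coe, mem_filter, ← hs h hh]
      exact ⟨mem_univ _, h.2⟩
    · intro h hh h' hh' e
      exact Subtype.ext (Prod.ext ((hs h hh).trans (hs h' hh').symm) e)
  nc T hT hp := by
    classical
    have h1 := hnc (T.map (Function.Embedding.subtype _)) (by rw [card_map]; exact hT) (by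
      intro o ho
      obtain ⟨κ, _, rfl⟩ := mem_map.mp ho
      have := κ.2.2 0
      rwa [sub_zero] at this)
    rw [sum_map, card_map] at h1
    refine h1.trans (Nat.mul_le_mul_left _ (card_le_card ?_))
    intro l hl
    simp only [mem_biUnion, mem_image, mem_map, mem_univ, true_and] at hl ⊢
    obtain ⟨o, ⟨κ, hκ, rfl⟩, s, rfl⟩ := hl
    have h2 : s.1 < arT (ty κ.1) := by rw [← ar_eq]; exact s.2
    have h3 : s.1 < 21 := lt_of_lt_of_le h2 (by unfold arT; split_ifs <;> omega)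
    refine ⟨subC (owT (ty κ.1) s.1) κ, ?_, ixT (ty κ.1) s.1, ix_sub κ.1 ⟨s.1, h3⟩ h2, ?_⟩
    · by_cases h0 : owT (ty κ.1) s.1 = 0
      · have : subC (owT (ty κ.1) s.1) κ = κ := Subtype.ext (by
          change sub _ _ = _
          rw [h0, sub_zero])
        rw [this]; exact hκ
      · exact hp κ hκ (mem_par.mpr ⟨owT_ne h0, _, h0, rfl⟩)
    · exact congrArg Prod.fst ((lb_sub κ.1 ⟨s.1, h3⟩).trans (lb_eq κ.1 s))

variable {ω}

/-- Positions. -/
noncomputable def yy (κ : Cp ω) (v : Fin 14) : R177.Grp (hs ω) sg ta :=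
  R177.gx (hs ω) sg ta (Sum.inr ((κ, v), true))

/-- Generators. -/
noncomputable def xx (ω : (Mod m).Om r) (c : PP (3 * m + 1) r) : R177.Grp (hs ω) sg ta :=
  R177.gx (hs ω) sg ta (Sum.inl c)

theorem edge (κ : Cp ω) (i : Fin 21) (hi : valid (ty κ.1) i = true) :
    yy κ (tgt (ty κ.1) i) = yy κ (src (ty κ.1) i) * xx ω (lb κ.1 i) :=
  (R177.gx_rel (hs ω) sg ta ⟨(κ, i, true), hi⟩).symm

theorem relT {a : Fin 3} {i : Fin m} {f : Fin 6 → PP (3 * m + 1) r} (h1 : Gen f)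
    (h2 : Pres ω (thO a i f)) : RelT (xx ω) f := by
  let κ : Cp ω := ⟨thO a i f, act_of_ne (by decide : (0 : Fin 3) ≠ 1) h1 h2⟩
  have e0 : yy κ 1 = yy κ 0 * xx ω (f 0) := edge κ 0 rfl
  have e1 : yy κ 2 = yy κ 0 * xx ω (f 1) := edge κ 1 rfl
  have e2 : yy κ 3 = yy κ 0 * xx ω (f 2) := edge κ 2 rfl
  have e3 : yy κ 4 = yy κ 1 * xx ω (f 3) := edge κ 3 rfl
  have e4 : yy κ 4 = yy κ 2 * xx ω (f 4) := edge κ 4 rfl
  have e5 : yy κ 4 = yy κ 3 * xx ω (f 5) := edge κ 5 rfl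
  rw [e0, mul_assoc] at e3
  rw [e1, mul_assoc] at e4
  rw [e2, mul_assoc] at e5
  exact ⟨mul_left_cancel (e3.symm.trans e4), mul_left_cancel (e3.symm.trans e5)⟩

theorem relH {f : Fin 6 → PP (3 * m + 1) r} (h1 : Gen f) (h2 : Pres ω (hxO f)) :
    RelH (xx ω) f := by
  let κ : Cp ω := ⟨hxO f, act_of_ne (by decide : (2 : Fin 3) ≠ 1) h1 h2⟩
  have e0 : yy κ 1 = yy κ 0 * xx ω (f 0) := edge κ 0 rfl
  have e1 : yy κ 2 = yy κ 1 * xx ω (f 1) := edge κ 1 rfl
  have e2 : yy κ 3 = yy κ 2 * xx ω (f 2) := edge κ 2 rfl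
  have e3 : yy κ 4 = yy κ 3 * xx ω (f 3) := edge κ 3 rfl
  have e4 : yy κ 5 = yy κ 4 * xx ω (f 4) := edge κ 4 rfl
  have e5 : yy κ 0 = yy κ 5 * xx ω (f 5) := edge κ 5 rfl
  rw [e4, e3, e2, e1, e0] at e5
  simp only [mul_assoc] at e5
  unfold RelH
  simp only [mul_assoc]
  exact (left_eq_mul.mp e5)

theorem pres_of_Wt {V : Type} {J : Finset (Mod m).Col}
    {v : (c : (Mod m).Col) → Fin ((Mod m).ar c) → V} {φ : V → PP (3 * m + 1) r}
    (h : Wt ω J v φ ≠ 0) {c : (Mod m).Col} (hc : c ∈ J) : Pres ω ⟨c, fun s => φ (v c s)⟩ := by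
  by_contra h1
  exact h (Finset.prod_eq_zero hc (if_neg h1))

theorem relC {i : Fin m} {φ : Fin 15 → PP (3 * m + 1) r} (h : Wt ω (Jc i) vc φ ≠ 0) (hφ : Gen φ) :
    Rel cS cT (xx ω) φ := by
  have h0 : ∀ a : Fin 3, RelT (xx ω) (fun s => φ (vc3 a s)) := fun a =>
    relT (a := a) (i := i) (hφ.comp (vc3_inj a)) (pres_of_Wt h (c := Sum.inl (a, i)) (by
      fin_cases a <;> simp [Jc]))
  set x := fun s => xx ω (φ s) with hx
  obtain ⟨a1, a2⟩ : x 0 * x 3 = x 1 * x 4 ∧ x 0 * x 3 = x 2 * x 5 := h0 0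
  obtain ⟨b1, b2⟩ : x 0 * x 8 = x 6 * x 9 ∧ x 0 * x 8 = x 7 * x 10 := h0 1
  obtain ⟨c1, c2⟩ : x 3 * x 12 = x 8 * x 13 ∧ x 3 * x 12 = x 11 * x 14 := h0 2
  refine ⟨![1, x 0, x 1, x 2, x 0 * x 3, x 6, x 7, x 0 * x 8, x 0 * x 11, x 0 * x 3 * x 12],
    fun j => ?_⟩
  fin_cases j
  · exact (one_mul _).symm
  · exact (one_mul _).symm
  · exact (one_mul _).symm
  · rfl
  · exact a1
  · exact a2
  · exact (one_mul _).symm
  · exact (one_mul _).symm
  · rfl
  · exact b1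
  · exact b2
  · rfl
  · rfl
  · exact show x 0 * x 3 * x 12 = x 0 * x 8 * x 13 by rw [mul_assoc, c1, mul_assoc]
  · exact show x 0 * x 3 * x 12 = x 0 * x 11 * x 14 by rw [mul_assoc, c2, mul_assoc]

theorem relE {j k : Fin m} {φ : Fin 21 → PP (3 * m + 1) r} (h : Wt ω (Je j k) ve φ ≠ 0)
    (hφ : Gen φ) : Rel eS eT (xx ω) φ := by
  have p0 : Pres ω (thO 0 j (fun s => φ (ve3 0 s))) :=
    pres_of_Wt h (c := Sum.inl (0, j)) (by simp [Je])
  have p1 : Pres ω (thO 1 k (fun s => φ (ve3 1 s))) :=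
    pres_of_Wt h (c := Sum.inl (1, k)) (by simp [Je])
  have p2 : Pres ω (etO j k φ) := pres_of_Wt h (c := Sum.inr (Sum.inl (j, k))) (by simp [Je])
  let κ : Cp ω := ⟨etO j k φ, hφ, fun a => by
    fin_cases a
    · exact p2
    · exact p0
    · exact p1⟩
  set x := fun s => xx ω (φ s) with hx
  obtain ⟨a1, a2⟩ : x 0 * x 3 = x 1 * x 4 ∧ x 0 * x 3 = x 2 * x 5 :=
    relT (hφ.comp (ve3_inj 0)) p0
  obtain ⟨b1, b2⟩ : x 6 * x 9 = x 7 * x 10 ∧ x 6 * x 9 = x 8 * x 11 :=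
    relT (hφ.comp (ve3_inj 1)) p1
  have e0 : yy κ 1 = yy κ 0 * x 0 := edge κ 0 rfl
  have e1 : yy κ 2 = yy κ 0 * x 1 := edge κ 1 rfl
  have e2 : yy κ 3 = yy κ 0 * x 2 := edge κ 2 rfl
  have e6 : yy κ 6 = yy κ 5 * x 6 := edge κ 6 rfl
  have e7 : yy κ 2 = yy κ 5 * x 7 := edge κ 7 rfl
  have e8 : yy κ 7 = yy κ 5 * x 8 := edge κ 8 rfl
  refine ⟨![yy κ 0, yy κ 1, yy κ 2, yy κ 3, yy κ 1 * x 3, yy κ 5, yy κ 6, yy κ 7, yy κ 6 * x 9,
    yy κ 9, yy κ 10, yy κ 11, yy κ 12, yy κ 13], fun i => ?_⟩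
  fin_cases i
  · exact e0
  · exact e1
  · exact e2
  · rfl
  · exact show yy κ 1 * x 3 = yy κ 2 * x 4 by rw [e0, e1, mul_assoc, a1, mul_assoc]
  · exact show yy κ 1 * x 3 = yy κ 3 * x 5 by rw [e0, e2, mul_assoc, a2, mul_assoc]
  · exact e6
  · exact e7
  · exact e8
  · rfl
  · exact show yy κ 6 * x 9 = yy κ 2 * x 10 by rw [e6, e7, mul_assoc, b1, mul_assoc]
  · exact show yy κ 6 * x 9 = yy κ 7 * x 11 by rw [e6, e8, mul_assoc, b2, mul_assoc]
  · exact edge κ 12 rfl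
  · exact edge κ 13 rfl
  · exact edge κ 14 rfl
  · exact edge κ 15 rfl
  · exact edge κ 16 rfl
  · exact edge κ 17 rfl
  · exact edge κ 18 rfl
  · exact edge κ 19 rfl
  · exact edge κ 20 rfl

/-- The `4`-cycle in a theta. -/
def c4 : Fin 4 → Fin 21 × Bool := ![(0, true), (3, true), (4, false), (1, false)]

end Gr

open Gr in
theorem exists_sys (m r : ℕ) [NeZero m] (ω : (Mod m).Om r) (B : ℕ) (hnc : NC ω B) :
    ∃ (Hf V Cp : Type) (_ : Fintype Hf) (_ : Fintype V)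
      (Y : Sys Hf V (PP (3 * m + 1) r) (Fin (r ^ (3 * m + 1))) Cp),
      Y.σ = sg ∧ Y.K₀ = 3 * m + 2 ∧ Y.B = B ∧
      (∀ i φ, Wt ω (Jc i) vc φ ≠ 0 → Gen φ → Rel cS cT Y.x φ) ∧
      (∀ j k φ, Wt ω (Je j k) ve φ ≠ 0 → Gen φ → Rel eS eT Y.x φ) ∧
      (∀ f, Gen f ∧ Pres ω (hxO f) → RelH Y.x f) ∧
      ∃ p : {f : Fin 6 → PP (3 * m + 1) r // Gen f ∧ Pres ω (thO 0 0 f)} → Fin 4 → Hf,
        Cyc Y.S Y.τ p := by
  classical
  refine ⟨Gr.Hf ω, Gr.Cp ω × Fin 14, Gr.Cp ω, inferInstance, inferInstance, sys ω B hnc, rfl, rfl, rfl,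
    fun i φ h1 h2 => relC h1 h2, fun j k φ h1 h2 => relE h1 h2,
    fun f h => relH h.1 h.2, fun f j =>
      ⟨(⟨thO 0 0 f.1, act_of_ne (by decide : (0 : Fin 3) ≠ 1) f.2.1 f.2.2⟩, c4 j),
        (by decide : ∀ j, valid 0 (c4 j).1 = true) j⟩, fun f j => ?_, fun f f' j h => ?_⟩
  · exact Prod.ext rfl ((by decide : ∀ j, vx 0 (rv (c4 j)) = vx 0 (c4 (j + 1))) j)
  · have h1 : thO 0 0 f'.1 = thO (m := m) 0 0 f.1 := by
      rcases h with h | h <;> exact congrArg (fun z : Gr.Hf ω => z.1.1.1) h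
    have h2 : (c4 j).1 = 0 := by
      rcases h with h | h <;> exact congrArg (fun z : Gr.Hf ω => z.1.2.1) h
    refine ⟨Subtype.ext ?_, (by decide : ∀ j, (c4 j).1 = 0 → j = 0) j h2⟩
    simpa [thO] using h1

end Crest.Agent.R196
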