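import Crest.Agent.R196.Loc
import Crest.Agent.R177.Cluster

/-!
Task R196-B3: the isoperimetric inequality, and the non-triviality of the generators.

`Sys.isoP`: take `R177.cluster` with `lam = 1` and `r`, `b₀` such that `ε = 4/r + (4r+22)/b₀ ≤ 1/(360 K₀ + 1)`, `B = 12 b₀`.  Apply
`Sys.loc` to `U_y = In ∩ cl⁻¹ y` and sum over `y`: a dart counted in `a_y` has `α d ∉ In` or `cl (α d) ≠ cl d`; the number of darts
with `α d ∉ In` is at most `J = card D - card In` (injectivity), same for `φ`.  So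
`card In ≤ 15 K₀ (13 J + 12 ε card D)` and `card D = card In + J`.

`card_le_of_trivial`: for `b : I → ZMod 2` let `κ (g, h) = ∑ i, b i * [h = p i 0 ∨ h = τ (p i 0)]`; `CS` gives `ψ`.  Since all `x c = 1`,
`R177.gx_rel` shows that `y_{vert (p i j)}` does not depend on `j`; call it `y i`.  Summing the `CS` identity at `g = (y i)⁻¹` over
`j : Fin 4` gives `b i = ∑ j, ψ (1, inl (col (p i j)))`.  So `a ↦ (i ↦ ∑ j, a (col (p i j)))` is a surjection
`(P → ZMod 2) → (I → ZMod 2)`.
-/

set_option autoImplicit false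

namespace Crest.Agent.R196

open Finset

open Classical in
theorem sum_cut {D Y : Type} [Fintype D] (In : Finset D) (cl : D → Y) (f : D → D)
    (hf : Function.Injective f) :
    ∑ y ∈ In.image cl, ((In.filter (fun d => cl d = y)).filter
      (fun d => f d ∉ In.filter (fun d => cl d = y))).card ≤
      (univ.filter (fun d => cl (f d) ≠ cl d)).card + (Fintype.card D - In.card) := by
  have h1 : (univ.filter (fun d => f d ∉ In)).card ≤ Fintype.card D - In.card := by
    rw [← card_compl]
    refine card_le_card_of_injOn f ?_ hf.injOn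
    intro d hd
    simpa using hd
  let Z := In.filter (fun d => f d ∉ In ∨ cl (f d) ≠ cl d)
  have h2 : Z.card = ∑ y ∈ In.image cl, (Z.filter (fun d => cl d = y)).card :=
    Finset.card_eq_sum_card_fiberwise (fun d hd => mem_image_of_mem _ (mem_filter.mp hd).1)
  have h3 : Z ⊆ univ.filter (fun d => cl (f d) ≠ cl d) ∪ univ.filter (fun d => f d ∉ In) := by
    intro d hd
    simp only [Z, mem_filter, mem_union, mem_univ, true_and] at hd ⊢
    tauto
  have h4 := (card_le_card h3).trans (card_union_le _ _)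
  refine le_trans (Finset.sum_le_sum fun y _ => card_le_card ?_) (h2.symm.le.trans (by omega))
  intro d hd
  simp only [Z, mem_filter, not_and] at hd ⊢
  refine ⟨⟨hd.1.1, ?_⟩, hd.1.2⟩
  by_cases h : f d ∈ In
  · exact Or.inr (by rw [hd.1.2]; exact hd.2 h)
  · exact Or.inl h

theorem Sys.isoP (K₀ : ℕ) : ∃ B C : ℕ, ∀ {Hf V P Q Cp : Type} (Y : Sys Hf V P Q Cp),
    Y.K₀ = K₀ → Y.B = B → R177.IsoP Y.S Y.σ Y.τ C := by
  classical
  refine ⟨12 * ((4 * (2880 * K₀ + 8) + 22) * (720 * K₀ + 2)), 390 * K₀ + 1, ?_⟩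
  intro Hf V P Q Cp Y hK hB D _ R
  obtain ⟨cl, h1, h2⟩ := R177.cluster R.φ R.α R.αα R.α_ne R.pl 1 (2880 * K₀ + 8)
    ((4 * (2880 * K₀ + 8) + 22) * (720 * K₀ + 2)) one_pos (by omega) (by positivity)
  set ac := (univ.filter (fun d => cl (R.α d) ≠ cl d)).card
  set bc := (univ.filter (fun d => cl (R.φ d) ≠ cl d)).card
  have h3 : (360 * K₀ + 1) * (ac + bc) ≤ Fintype.card D := by
    have e : (4 / ((2880 * K₀ + 8 : ℕ) : ℝ) + (4 * ((2880 * K₀ + 8 : ℕ) : ℝ) + 22) * ((1 : ℕ) : ℝ) /
        (((4 * (2880 * K₀ + 8) + 22) * (720 * K₀ + 2) : ℕ) : ℝ)) = 1 / (360 * K₀ + 1) := by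
      push_cast
      field_simp
      ring
    rw [e, Nat.cast_one, one_mul, one_div, inv_mul_eq_div, le_div_iff₀ (by positivity)] at h2
    have : (((360 * K₀ + 1) * (ac + bc) : ℕ) : ℝ) ≤ Fintype.card D := by
      push_cast
      linarith
    exact_mod_cast this
  have h4 := sum_cut R.In cl R.α (Function.Involutive.injective R.αα)
  have h5 := sum_cut R.In cl R.φ R.φ.injective
  have h6 : R.In.card = ∑ y ∈ R.In.image cl, (R.In.filter (fun d => cl d = y)).card :=
    Finset.card_eq_sum_card_fiberwise (fun d hd => mem_image_of_mem _ hd)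
  have h7 := Finset.sum_le_sum (s := R.In.image cl) fun y _ =>
    Y.loc R (R.In.filter (fun d => cl d = y)) (filter_subset _ _) (by
      have := (card_le_card (filter_subset_filter (fun d => cl d = y) (subset_univ R.In))).trans
        (h1 y)
      omega)
  rw [← h6, ← Finset.mul_sum, Finset.sum_add_distrib, ← Finset.mul_sum, hK] at h7
  have h8 : R.In.card ≤ 15 * K₀ * (ac + (Fintype.card D - R.In.card) +
      12 * (bc + (Fintype.card D - R.In.card))) := by
    refine h7.trans (Nat.mul_le_mul_left _ (Nat.add_le_add ?_ (Nat.mul_le_mul_left _ ?_)))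
    · convert h4
    · convert h5
  have h9 : R.In.card ≤ Fintype.card D := card_le_univ _
  obtain ⟨J, hJ⟩ := Nat.exists_eq_add_of_le h9
  rw [hJ, Nat.add_sub_cancel_left] at h8 ⊢
  rw [hJ] at h3
  nlinarith [Nat.zero_le (K₀ * ac), Nat.zero_le (ac + bc)]

theorem card_le_of_trivial {Hf V P I : Type} [Fintype P] [Fintype I] (S : R177.HS Hf V P)
    (σ : P → P) (τ : Hf → Hf) (hτ : ∀ h, τ (τ h) = h) (hC : R177.CS S σ τ) (p : I → Fin 4 → Hf)
    (hp : Cyc S τ p) (h1 : ∀ c, R177.gx S σ τ (Sum.inl c) = 1) :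
    Fintype.card I ≤ Fintype.card P := by
  classical
  have hsurj : Function.Surjective
      (fun (a : P → ZMod 2) (i : I) => ∑ j : Fin 4, a (S.col (p i j))) := by
    intro b
    obtain ⟨ψ, -, hψ⟩ := hC (ZMod 2)
      (fun z => ∑ i, if z.2 = p i 0 ∨ z.2 = τ (p i 0) then b i else 0) (by
        intro g h
        rw [ZMod.neg_eq_self_mod_two]
        refine Finset.sum_congr rfl fun i _ => if_congr ?_ rfl rfl
        dsimp only
        constructor
        · rintro (e | e)
          · exact Or.inr (by rw [← e, hτ])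
          · exact Or.inl (by rw [← hτ h, e, hτ])
        · rintro (e | e)
          · exact Or.inr (by rw [e])
          · exact Or.inl (by rw [e, hτ]))
    refine ⟨fun c => ψ (1, Sum.inl c), funext fun i => ?_⟩
    have hy : ∀ j, R177.gx S σ τ (Sum.inr (S.vert (p i (j + 1)), true)) =
        R177.gx S σ τ (Sum.inr (S.vert (p i j), true)) := by
      intro j
      rw [← hp.1, ← R177.gx_rel, h1, mul_one]
    set y := R177.gx S σ τ (Sum.inr (S.vert (p i 0), true)) with hy0
    have hy1 := hy 0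
    have hy2 := hy 1
    have hy3 := hy 2
    have hk : ∀ j : Fin 4, (∑ i', if p i j = p i' 0 ∨ p i j = τ (p i' 0) then b i' else 0) =
        if j = 0 then b i else 0 := by
      intro j
      rw [Finset.sum_eq_single i]
      · refine if_congr ⟨fun h => (hp.2 _ _ _ h).2, fun h => Or.inl (by rw [h])⟩ rfl rfl
      · intro i' _ hi'
        rw [if_neg fun h => hi' (hp.2 _ _ _ h).1.symm]
      · simp
    have e0 := hψ y⁻¹ (p i 0)
    have e1 := hψ y⁻¹ (p i 1)
    have e2 := hψ y⁻¹ (p i 2)
    have e3 := hψ y⁻¹ (p i 3)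
    simp only [hk, hp.1] at e0 e1 e2 e3
    simp only [Fin.isValue, zero_add, Fin.reduceAdd] at hy1 hy2 hy3 e0 e1 e2 e3
    rw [hy3, hy2, hy1, ← hy0, inv_mul_cancel] at e3
    rw [hy2, hy1, ← hy0, inv_mul_cancel] at e2
    rw [hy1, ← hy0, inv_mul_cancel] at e1
    rw [← hy0, inv_mul_cancel] at e0
    simp only [Fin.sum_univ_four]
    simp only [Fin.isValue, ↓reduceIte, Fin.reduceEq] at e0 e1 e2 e3
    linear_combination e0 + e1 + e2 + e3
  have h2 := Fintype.card_le_of_surjective _ hsurj
  simp only [Fintype.card_pi, ZMod.card, prod_const, card_univ] at h2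
  exact (Nat.pow_le_pow_iff_right (by norm_num)).mp h2

end Crest.Agent.R196
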