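import Crest.Agent.R196.Defs

/-!
Task R196-B2 (helper1): the local inequality.
-/

set_option autoImplicit false

namespace Crest.Agent.R196

open Finset

theorem cake {X : Type} (s : Finset X) (a f : X → ℕ) (N : ℕ) (hN : ∀ x ∈ s, a x ≤ N) :
    ∑ t ∈ Icc 1 N, ∑ x ∈ s.filter (fun x => t ≤ a x), f x = ∑ x ∈ s, f x * a x := by
  simp only [Finset.sum_filter]
  rw [Finset.sum_comm]
  refine Finset.sum_congr rfl fun x hx => ?_
  rw [← Finset.sum_filter, Finset.sum_const, smul_eq_mul, mul_comm]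
  congr 1
  have : (Icc 1 N).filter (fun t => t ≤ a x) = Icc 1 (a x) := by
    ext t
    simp only [mem_filter, mem_Icc]
    have := hN x hx
    omega
  rw [this, Nat.card_Icc]
  omega

namespace Sys

variable {Hf V P Q Cp D : Type} (Y : Sys Hf V P Q Cp)

open Classical in
theorem layers (T : Finset Cp) (hT : T.card ≤ Y.B) (a : Cp → ℕ)
    (ha : ∀ κ ∈ T, ∀ θ ∈ Y.par κ, θ ∈ T ∧ a κ ≤ a θ) :
    ∃ S₀ : Finset (Cp × ℕ), (∀ s ∈ S₀, s.1 ∈ T ∧ s.2 ∈ Y.own s.1) ∧
      (∀ s ∈ S₀, ∀ s' ∈ S₀, Y.lab s.1 s.2 = Y.lab s'.1 s'.2 → s = s') ∧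
      Y.K₀ * ∑ κ ∈ T, Y.kk κ * a κ + ∑ κ ∈ T, a κ ≤ Y.K₀ * ∑ s ∈ S₀, a s.1 := by
  let S : Finset (Cp × ℕ) := T.biUnion (fun κ => (Y.own κ).image (fun i => (κ, i)))
  have hS : ∀ s, s ∈ S ↔ s.1 ∈ T ∧ s.2 ∈ Y.own s.1 := by
    rintro ⟨κ, i⟩
    simp only [S, mem_biUnion, mem_image, Prod.mk.injEq]
    constructor
    · rintro ⟨κ', h1, i', h2, rfl, rfl⟩
      exact ⟨h1, h2⟩
    · rintro ⟨h1, h2⟩
      exact ⟨κ, h1, i, h2, rfl, rfl⟩
  have hex : ∀ s : Cp × ℕ, ∃ s' : Cp × ℕ, s ∈ S → s' ∈ S ∧ Y.lab s'.1 s'.2 = Y.lab s.1 s.2 ∧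
      ∀ s'' ∈ S, Y.lab s''.1 s''.2 = Y.lab s.1 s.2 → a s''.1 ≤ a s'.1 := by
    intro s
    by_cases hs : s ∈ S
    · obtain ⟨s', h1, h2⟩ := Finset.exists_max_image
        (S.filter (fun s' => Y.lab s'.1 s'.2 = Y.lab s.1 s.2)) (fun s' => a s'.1)
        ⟨s, mem_filter.mpr ⟨hs, rfl⟩⟩
      exact ⟨s', fun _ => ⟨(mem_filter.mp h1).1, (mem_filter.mp h1).2,
        fun s'' h3 h4 => h2 s'' (mem_filter.mpr ⟨h3, h4⟩)⟩⟩
    · exact ⟨s, fun h => absurd h hs⟩
  have hex2 : ∀ l : Q, ∃ s' : Option (Cp × ℕ), ∀ s ∈ S, Y.lab s.1 s.2 = l →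
      ∃ s₁, s' = some s₁ ∧ s₁ ∈ S ∧ Y.lab s₁.1 s₁.2 = l ∧ a s.1 ≤ a s₁.1 := by
    intro l
    by_cases h : ∃ s ∈ S, Y.lab s.1 s.2 = l
    · obtain ⟨s, hs, rfl⟩ := h
      obtain ⟨s', h'⟩ := hex s
      obtain ⟨h1, h2, h3⟩ := h' hs
      exact ⟨some s', fun s'' h4 h5 => ⟨s', rfl, h1, h2, h3 s'' h4 h5⟩⟩
    · exact ⟨none, fun s hs h' => absurd ⟨s, hs, h'⟩ h⟩
  choose top htop using hex2
  let S₀ := S.filter (fun s => top (Y.lab s.1 s.2) = some s)
  refine ⟨S₀, fun s hs => (hS s).mp (mem_filter.mp hs).1, fun s hs s' hs' h => ?_, ?_⟩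
  · have h1 := (mem_filter.mp hs).2
    have h2 := (mem_filter.mp hs').2
    rw [h, h2] at h1
    exact (Option.some.inj h1).symm
  · let N := T.sup a
    have hN : ∀ κ ∈ T, a κ ≤ N := fun κ h => Finset.le_sup h
    have e1 := cake T a Y.kk N hN
    have e2 := cake T a (fun _ => 1) N hN
    have e3 := cake S₀ (fun s => a s.1) (fun _ => 1) N
      (fun s hs => hN _ ((hS s).mp (mem_filter.mp hs).1).1)
    simp only [one_mul] at e2 e3
    rw [← e1, ← e2, ← e3, Finset.mul_sum, Finset.mul_sum, ← Finset.sum_add_distrib]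
    refine Finset.sum_le_sum fun t _ => ?_
    have h1 := Y.nc (T.filter (fun κ => t ≤ a κ)) ((Finset.card_filter_le _ _).trans hT)
      (fun κ hκ θ hθ => by
        have := mem_filter.mp hκ
        have h2 := ha κ this.1 θ hθ
        exact mem_filter.mpr ⟨h2.1, this.2.trans h2.2⟩)
    rw [← Finset.card_eq_sum_ones, ← Finset.card_eq_sum_ones]
    refine h1.trans (Nat.mul_le_mul_left _ ?_)
    refine le_trans (Finset.card_le_card ?_)
      (Finset.card_image_le (f := fun s : Cp × ℕ => Y.lab s.1 s.2))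
    intro l hl
    simp only [mem_biUnion, mem_image, mem_filter] at hl
    obtain ⟨κ, ⟨h2, h3⟩, i, h4, h5⟩ := hl
    obtain ⟨s₁, h6, h7, h8, h9⟩ := htop l (κ, i) ((hS _).mpr ⟨h2, h4⟩) h5
    exact mem_image.mpr ⟨s₁, mem_filter.mpr ⟨mem_filter.mpr ⟨h7, by rw [h8, h6]⟩, h3.trans h9⟩, h8⟩

variable (R : R177.RPS Y.S Y.σ Y.τ D) (U : Finset D)

open Classical in
/-- The darts of the component `κ`. -/
noncomputable def Uk (κ : Cp) : Finset D := U.filter (fun d => Y.cp (R.ε d) = κ)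

open Classical in
/-- The ends of the component `κ`. -/
noncomputable def En (κ : Cp) : Finset D := (Y.Uk R U κ).filter (fun d => R.φ d ∉ U)

open Classical in
/-- The darts starting at `v`. -/
noncomputable def tl (v : V) : Finset D := U.filter (fun d => Y.S.vert (R.ε d) = v)

/-- The level of a component. -/
noncomputable def lv (κ : Cp) : ℕ :=
  (Y.Uk R U κ).sup (fun d => (Y.tl R U (Y.S.vert (R.ε d))).card) + (Y.En R U κ).card

variable {Y R U}

theorem mem_Uk {κ : Cp} {d : D} : d ∈ Y.Uk R U κ ↔ d ∈ U ∧ Y.cp (R.ε d) = κ := by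
  classical
  simp only [Uk, mem_filter]

theorem mem_En {κ : Cp} {d : D} : d ∈ Y.En R U κ ↔ (d ∈ U ∧ Y.cp (R.ε d) = κ) ∧ R.φ d ∉ U := by
  classical
  simp only [En, mem_filter, mem_Uk]

theorem mem_tl {v : V} {d : D} : d ∈ Y.tl R U v ↔ d ∈ U ∧ Y.S.vert (R.ε d) = v := by
  classical
  simp only [tl, mem_filter]

theorem tl_le (h : Hf) :
    (Y.tl R U (Y.S.vert h)).card + (Y.En R U (Y.cp h)).card ≤ Y.lv R U (Y.cp h) := by
  unfold lv
  refine Nat.add_le_add_right ?_ _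
  rcases (Y.tl R U (Y.S.vert h)).eq_empty_or_nonempty with h0 | ⟨d, hd⟩
  · rw [h0]; simp
  · rw [mem_tl] at hd
    rw [← hd.2]
    exact Finset.le_sup (f := fun d => (Y.tl R U (Y.S.vert (R.ε d))).card)
      (mem_Uk.mpr ⟨hd.1, Y.cp_vert _ _ hd.2⟩)

theorem slot_le (hU : U ⊆ R.In) (h : Hf) (s : Finset D)
    (hs : ∀ d ∈ s, d ∈ U ∧ (R.ε d = h ∨ R.ε d = Y.τ h)) : s.card ≤ Y.lv R U (Y.cp h) := by
  classical
  refine le_trans ?_ (tl_le h)
  have h1 := Finset.card_filter_add_card_filter_not (s := s) (fun d => R.ε d = h ∨ R.φ d ∈ U)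
  have h2 : (s.filter (fun d => ¬ (R.ε d = h ∨ R.φ d ∈ U))).card ≤ (Y.En R U (Y.cp h)).card := by
    refine Finset.card_le_card fun d hd => ?_
    obtain ⟨h3, h4⟩ := mem_filter.mp hd
    obtain ⟨h5, h6⟩ := hs d h3
    refine mem_En.mpr ⟨⟨h5, ?_⟩, fun h7 => h4 (Or.inr h7)⟩
    rcases h6 with h6 | h6
    · rw [h6]
    · rw [h6, Y.cp_τ]
  have h3 : (s.filter (fun d => R.ε d = h ∨ R.φ d ∈ U)).card ≤ (Y.tl R U (Y.S.vert h)).card := by
    have key : ∀ d ∈ s.filter (fun d => R.ε d = h ∨ R.φ d ∈ U), R.ε d ≠ h →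
        R.φ d ∈ U ∧ Y.S.vert (R.ε (R.φ d)) = Y.S.vert h ∧ R.ε (R.φ d) ≠ h := by
      intro d hd h4
      obtain ⟨h5, h6⟩ := mem_filter.mp hd
      obtain ⟨h7, h8⟩ := hs d h5
      have h9 := h6.resolve_left h4
      have h10 := h8.resolve_left h4
      have a1 := R.path d (hU h7) (hU h9)
      have a2 := R.nb d (hU h7) (hU h9)
      rw [h10, Y.ττ] at a1 a2
      exact ⟨h9, a1.symm, a2⟩
    refine Finset.card_le_card_of_injOn (fun d => if R.ε d = h then d else R.φ d) ?_ ?_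
    · intro d hd
      rw [Finset.mem_coe] at hd
      rw [Finset.mem_coe, mem_tl]
      by_cases h4 : R.ε d = h
      · simp only [if_pos h4]
        exact ⟨(hs d (mem_filter.mp hd).1).1, by rw [h4]⟩
      · simp only [if_neg h4]
        exact ⟨(key d hd h4).1, (key d hd h4).2.1⟩
    · intro d hd d' hd' e
      rw [Finset.mem_coe] at hd hd'
      by_cases h4 : R.ε d = h <;> by_cases h5 : R.ε d' = h
      · simpa only [if_pos h4, if_pos h5] using e
      · simp only [if_pos h4, if_neg h5] at e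
        exact absurd (e ▸ h4) (key d' hd' h5).2.2
      · simp only [if_neg h4, if_pos h5] at e
        exact absurd (e ▸ h5) (key d hd h4).2.2
      · simp only [if_neg h4, if_neg h5] at e
        exact R.φ.injective e
  omega

theorem star_le (hU : U ⊆ R.In) (h : Hf) (s : Finset D)
    (hs : ∀ d ∈ s, d ∈ U ∧ (Y.S.vert (R.ε d) = Y.S.vert h ∨ Y.S.vert (Y.τ (R.ε d)) = Y.S.vert h)) :
    s.card ≤ 2 * Y.lv R U (Y.cp h) := by
  classical
  have h0 := tl_le (Y := Y) (R := R) (U := U) h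
  have h1 : s ⊆ Y.tl R U (Y.S.vert h) ∪ (Y.tl R U (Y.S.vert h)).image R.φ.symm ∪
      Y.En R U (Y.cp h) := by
    intro d hd
    obtain ⟨h2, h3⟩ := hs d hd
    simp only [mem_union]
    rcases h3 with h3 | h3
    · exact Or.inl (Or.inl (mem_tl.mpr ⟨h2, h3⟩))
    · by_cases h4 : R.φ d ∈ U
      · refine Or.inl (Or.inr (mem_image.mpr ⟨R.φ d, mem_tl.mpr ⟨h4, ?_⟩, by simp⟩))
        rw [← R.path d (hU h2) (hU h4), h3]
      · exact Or.inr (mem_En.mpr ⟨⟨h2, by rw [← Y.cp_τ, Y.cp_vert _ _ h3]⟩, h4⟩)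
  have h2 := (Finset.card_le_card h1).trans ((Finset.card_union_le _ _).trans
    (Nat.add_le_add_right (Finset.card_union_le _ _) _))
  have h3 := Finset.card_image_le (s := Y.tl R U (Y.S.vert h)) (f := R.φ.symm)
  omega

theorem few_le (κ : Cp) : (Y.Uk R U κ).card ≤ 30 * Y.lv R U κ := by
  classical
  have h1 := Y.few κ ((Y.Uk R U κ).image R.ε) (fun h hh => by
    obtain ⟨d, hd, rfl⟩ := mem_image.mp hh
    exact (mem_Uk.mp hd).2)
  refine (Finset.card_le_mul_card_image (f := R.ε) _ (Y.lv R U κ) fun h hh => ?_).trans ?_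
  · obtain ⟨d, hd, rfl⟩ := mem_image.mp hh
    have h2 := tl_le (Y := Y) (R := R) (U := U) (R.ε d)
    rw [(mem_Uk.mp hd).2] at h2
    refine le_trans (Finset.card_le_card fun d' hd' => ?_) (le_trans (Nat.le_add_right _ _) h2)
    obtain ⟨h3, h4⟩ := mem_filter.mp hd'
    exact mem_tl.mpr ⟨(mem_Uk.mp h3).1, by rw [h4]⟩
  · rw [mul_comm]
    exact Nat.mul_le_mul_right _ h1

theorem cp_iter (hU : U ⊆ R.In) {d : D} {j : ℕ} (h : ∀ i ≤ j, R.φ^[i] d ∈ U) :
    Y.cp (R.ε (R.φ^[j] d)) = Y.cp (R.ε d) := by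
  induction j with
  | zero => rfl
  | succ j ih =>
    rw [← ih fun i hi => h i (by omega), Function.iterate_succ_apply']
    have h1 := h j (by omega)
    have h2 := h (j + 1) le_rfl
    rw [Function.iterate_succ_apply'] at h2
    rw [← Y.cp_vert _ _ (R.path _ (hU h1) (hU h2)), Y.cp_τ]

theorem no_ret (hU : U ⊆ R.In) {d : D} {l : ℕ} (hl : 0 < l) (hg : l < Y.g (Y.cp (R.ε d)))
    (h : ∀ i ≤ l, R.φ^[i] d ∈ U) : Y.S.vert (R.ε (R.φ^[l] d)) ≠ Y.S.vert (R.ε d) := by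
  have h1 := Y.girth l (fun i => R.ε (R.φ^[i] d)) hl hg (fun i hi => by
    have h1 := h i (by omega)
    have h2 := h (i + 1) (by omega)
    rw [Function.iterate_succ_apply'] at h2 ⊢
    exact ⟨R.path _ (hU h1) (hU h2), R.nb _ (hU h1) (hU h2)⟩)
  obtain ⟨k, rfl⟩ : ∃ k, l = k + 1 := ⟨l - 1, by omega⟩
  have h2 := h k (by omega)
  have h3 := h (k + 1) le_rfl
  rw [Function.iterate_succ_apply'] at h3 ⊢
  rw [← R.path _ (hU h2) (hU h3)]
  exact h1

theorem iter_inj (hU : U ⊆ R.In) {d d' : D} {i j : ℕ} (hi : i < Y.g (Y.cp (R.ε d)))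
    (hj : j < Y.g (Y.cp (R.ε d'))) (h : ∀ k ≤ i, R.φ^[k] d ∈ U) (h' : ∀ k ≤ j, R.φ^[k] d' ∈ U)
    (hv : Y.S.vert (R.ε d) = Y.S.vert (R.ε d')) (e : R.φ^[i] d = R.φ^[j] d') : d = d' ∧ i = j := by
  have hinj : ∀ k, Function.Injective (R.φ^[k]) := fun k => R.φ.injective.iterate k
  rcases lt_trichotomy i j with hij | hij | hij
  · obtain ⟨l, rfl⟩ : ∃ l, j = i + l := ⟨j - i, by omega⟩
    rw [Function.iterate_add_apply] at e
    have e' := hinj _ e
    exact absurd (by rw [← e', hv]) (no_ret hU (l := l) (by omega) (by omega)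
      (fun k hk => h' k (by omega)))
  · subst hij
    exact ⟨hinj _ e, rfl⟩
  · obtain ⟨l, rfl⟩ : ∃ l, i = j + l := ⟨i - j, by omega⟩
    rw [Function.iterate_add_apply] at e
    have e' := hinj _ e
    exact absurd (by rw [e', hv]) (no_ret hU (l := l) (by omega) (by omega)
      (fun k hk => h k (by omega)))

theorem g_tl (hU : U ⊆ R.In) (h : Hf) : Y.g (Y.cp h) * (Y.tl R U (Y.S.vert h)).card ≤
    (Y.Uk R U (Y.cp h)).card + Y.g (Y.cp h) * (Y.En R U (Y.cp h)).card := by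
  classical
  set T := Y.tl R U (Y.S.vert h) with hT
  set g := Y.g (Y.cp h) with hg
  have hc : ∀ d ∈ T, Y.cp (R.ε d) = Y.cp h := fun d hd => Y.cp_vert _ _ (mem_tl.mp hd).2
  let Qd : D → Prop := fun y => ∀ i < g, R.φ^[i] y ∈ U
  have h1 : (T.filter Qd).card * g ≤ (Y.Uk R U (Y.cp h)).card := by
    have hc' : (T.filter Qd).card * g = (T.filter Qd ×ˢ range g).card := by
      rw [Finset.card_product, Finset.card_range]
    rw [hc']
    refine Finset.card_le_card_of_injOn (fun w => R.φ^[w.2] w.1) ?_ ?_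
    · intro w hw
      rw [Finset.mem_coe, mem_product, mem_filter, mem_range] at hw
      rw [Finset.mem_coe, mem_Uk]
      exact ⟨hw.1.2 _ hw.2, by
        rw [cp_iter hU fun i hi => hw.1.2 i (by omega), hc _ hw.1.1]⟩
    · intro w hw w' hw' e
      rw [Finset.mem_coe, mem_product, mem_filter, mem_range] at hw hw'
      have := iter_inj hU (by rw [hc _ hw.1.1]; exact hw.2) (by rw [hc _ hw'.1.1]; exact hw'.2)
        (fun i hi => hw.1.2 i (by omega)) (fun i hi => hw'.1.2 i (by omega))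
        ((mem_tl.mp hw.1.1).2.trans (mem_tl.mp hw'.1.1).2.symm) e
      exact Prod.ext this.1 this.2
  have h2 : (T.filter (fun y => ¬ Qd y)).card ≤ (Y.En R U (Y.cp h)).card := by
    have hex : ∀ y : D, ∃ j : ℕ, y ∈ T.filter (fun y => ¬ Qd y) →
        j < g ∧ (∀ i ≤ j, R.φ^[i] y ∈ U) ∧ R.φ^[j + 1] y ∉ U := by
      intro y
      by_cases hy : y ∈ T.filter (fun y => ¬ Qd y)
      · rw [mem_filter] at hy
        have hne : ∃ i, R.φ^[i] y ∉ U := by
          by_contra hc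
          push Not at hc
          exact hy.2 fun i _ => hc i
        have hs := Nat.find_spec hne
        have hlt : Nat.find hne < g := by
          by_contra hc
          exact hy.2 fun i hi => by
            by_contra hc'
            have := Nat.find_min' hne hc'
            omega
        have hpos : 0 < Nat.find hne := by
          rcases Nat.eq_zero_or_pos (Nat.find hne) with h | h
          · rw [h] at hs
            exact absurd (mem_tl.mp hy.1).1 hs
          · exact h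
        refine ⟨Nat.find hne - 1, fun _ => ⟨by omega, fun i hi => ?_, ?_⟩⟩
        · by_contra hc
          have := Nat.find_min' hne hc
          omega
        · rwa [Nat.sub_add_cancel hpos]
      · exact ⟨0, fun h => absurd h hy⟩
    choose j hj using hex
    refine Finset.card_le_card_of_injOn (fun y => R.φ^[j y] y) ?_ ?_
    · intro y hy
      have := hj y hy
      rw [Finset.mem_coe, mem_En]
      refine ⟨⟨this.2.1 _ le_rfl, ?_⟩, ?_⟩
      · rw [cp_iter hU this.2.1, hc _ (mem_filter.mp hy).1]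
      · rw [← Function.iterate_succ_apply' R.φ]
        exact this.2.2
    · intro y hy y' hy' e
      have a := hj y hy
      have a' := hj y' hy'
      have b := (mem_filter.mp hy).1
      have b' := (mem_filter.mp hy').1
      exact (iter_inj hU (by rw [hc _ b]; exact a.1) (by rw [hc _ b']; exact a'.1) a.2.1 a'.2.1
        ((mem_tl.mp b).2.trans (mem_tl.mp b').2.symm) e).1
  have h3 := Finset.card_filter_add_card_filter_not (s := T) Qd
  rw [← h3, mul_add, mul_comm g]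
  exact Nat.add_le_add h1 (Nat.mul_le_mul_left _ h2)

theorem g_lv (hU : U ⊆ R.In) (κ : Cp) :
    Y.g κ * Y.lv R U κ ≤ (Y.Uk R U κ).card + 12 * (Y.En R U κ).card := by
  have h6 := Nat.mul_le_mul_right (Y.En R U κ).card (Y.g_le κ)
  unfold lv
  rcases (Y.Uk R U κ).eq_empty_or_nonempty with h0 | h0
  · rw [h0, Finset.sup_empty]
    simp only [bot_eq_zero', zero_add]
    omega
  · obtain ⟨d, hd, e⟩ := Finset.exists_mem_eq_sup _ h0
      (fun d => (Y.tl R U (Y.S.vert (R.ε d))).card)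
    have h1 := g_tl hU (R.ε d)
    rw [(mem_Uk.mp hd).2] at h1
    rw [e, mul_add]
    omega

end Sys

open Sys Classical in
theorem Sys.loc {Hf V P Q Cp D : Type} (Y : Sys Hf V P Q Cp) (R : R177.RPS Y.S Y.σ Y.τ D)
    (U : Finset D) (hU : U ⊆ R.In) (hB : 3 * U.card ≤ Y.B) :
    U.card ≤ 15 * Y.K₀ * ((U.filter (fun d => R.α d ∉ U)).card +
      12 * (U.filter (fun d => R.φ d ∉ U)).card) := by
  let A := Y.lv R U
  let T₀ := U.image (fun d => Y.cp (R.ε d))
  let T := T₀ ∪ T₀.biUnion Y.par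
  have hT₀ : T₀.card ≤ U.card := Finset.card_image_le
  have hTc : T.card ≤ Y.B := by
    have h1 : (T₀.biUnion Y.par).card ≤ T₀.card * 2 :=
      Finset.card_biUnion_le_card_mul _ _ _ fun κ _ => Y.par_le κ
    have h2 : T.card ≤ _ := Finset.card_union_le _ _
    omega
  have hcp : ∀ d ∈ U, Y.cp (R.ε d) ∈ T := fun d hd =>
    mem_union_left _ (mem_image_of_mem _ hd)
  have hpar : ∀ κ ∈ T, ∀ θ ∈ Y.par κ, θ ∈ T := by
    intro κ hκ θ hθ
    rcases mem_union.mp hκ with h | h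
    · exact mem_union_right _ (mem_biUnion.mpr ⟨κ, h, hθ⟩)
    · obtain ⟨u, _, hu⟩ := mem_biUnion.mp h
      rw [(Y.th_par κ (Y.par_th u κ hu)).1] at hθ
      simp at hθ
  have how : ∀ d ∈ U, Y.ow (R.ε d) ∈ T := by
    intro d hd
    by_cases h : Y.ow (R.ε d) = Y.cp (R.ε d)
    · rw [h]; exact hcp d hd
    · exact hpar _ (hcp d hd) _ (Y.ow_ne _ h).1
  let W : Cp → Finset Cp := fun κ => insert κ (T.filter (fun u => κ ∈ Y.par u))
  have hex : ∀ κ, ∃ w ∈ W κ, ∀ u ∈ W κ, A u ≤ A w := fun κ =>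
    Finset.exists_max_image (W κ) A ⟨κ, mem_insert_self _ _⟩
  choose w hwW hw using hex
  let a : Cp → ℕ := fun κ => A (w κ)
  have hcW : ∀ d ∈ U, Y.cp (R.ε d) ∈ W (Y.ow (R.ε d)) := by
    intro d hd
    by_cases h : Y.ow (R.ε d) = Y.cp (R.ε d)
    · rw [h]; exact mem_insert_self _ _
    · exact mem_insert_of_mem (mem_filter.mpr ⟨hcp d hd, (Y.ow_ne _ h).1⟩)
  have hnt : ∀ κ, ¬ Y.th κ → w κ = κ := by
    intro κ hκ
    rcases mem_insert.mp (hwW κ) with h | h
    · exact h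
    · exact absurd (Y.par_th _ _ (mem_filter.mp h).2) hκ
  obtain ⟨S₀, hS₀, hinj, hlay⟩ := Y.layers T hTc a (fun κ hκ θ hθ => ⟨hpar κ hκ θ hθ, by
    have h1 : ¬ Y.th κ := fun h => by
      rw [(Y.th_par κ h).1] at hθ
      simp at hθ
    simp only [a, hnt κ h1]
    exact hw θ κ (mem_insert_of_mem (mem_filter.mpr ⟨hκ, hθ⟩))⟩)
  let S : Finset (Cp × ℕ) := T.biUnion (fun κ => (Y.own κ).image (fun i => (κ, i)))
  have hS : ∀ s, s ∈ S ↔ s.1 ∈ T ∧ s.2 ∈ Y.own s.1 := by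
    rintro ⟨κ, i⟩
    simp only [S, mem_biUnion, mem_image, Prod.mk.injEq]
    constructor
    · rintro ⟨κ', h1, i', h2, rfl, rfl⟩
      exact ⟨h1, h2⟩
    · rintro ⟨h1, h2⟩
      exact ⟨κ, h1, i, h2, rfl, rfl⟩
  have hSsum : ∑ s ∈ S, a s.1 = ∑ κ ∈ T, (Y.own κ).card * a κ := by
    rw [Finset.sum_finset_product S T Y.own hS]
    simp
  let sl : D → Cp × ℕ := fun d => (Y.ow (R.ε d), Y.ix (R.ε d))
  let ex : D → Prop := fun d => Y.th (Y.ow (R.ε d)) ∧ Y.ix (R.ε d) < 3 ∧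
    Y.cp (R.ε d) ≠ w (Y.ow (R.ε d))
  -- two main darts on the same slot lie in the same component
  have hmain : ∀ d d', ¬ ex d → ¬ ex d' → sl d = sl d' → Y.cp (R.ε d) = Y.cp (R.ε d') := by
    intro d d' h1 h2 e
    have e1 : Y.ow (R.ε d) = Y.ow (R.ε d') := congrArg Prod.fst e
    have e2 : Y.ix (R.ε d) = Y.ix (R.ε d') := congrArg Prod.snd e
    by_cases h3 : Y.th (Y.ow (R.ε d)) ∧ Y.ix (R.ε d) < 3
    · have h4 : Y.cp (R.ε d) = w (Y.ow (R.ε d)) := by
        by_contra h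
        exact h1 ⟨h3.1, h3.2, h⟩
      have h5 : Y.cp (R.ε d') = w (Y.ow (R.ε d')) := by
        by_contra h
        exact h2 ⟨e1 ▸ h3.1, e2 ▸ h3.2, h⟩
      rw [h4, h5, e1]
    · have h4 : Y.ow (R.ε d) = Y.cp (R.ε d) := by
        by_contra h
        exact h3 ⟨Y.par_th _ _ (Y.ow_ne _ h).1, (Y.ow_ne _ h).2⟩
      have h5 : Y.ow (R.ε d') = Y.cp (R.ε d') := by
        by_contra h
        exact h3 ⟨e1 ▸ Y.par_th _ _ (Y.ow_ne _ h).1, e2 ▸ (Y.ow_ne _ h).2⟩
      rw [← h4, ← h5, e1]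
  let E := U.filter ex
  let F := U.filter (fun d => ¬ ex d ∧ sl d ∉ S₀)
  let M := U.filter (fun d => ¬ R.α d ∉ U)
  have hM : M.card ≤ 2 * (E.card + F.card) := by
    have h1 : M ⊆ (E ∪ F) ∪ (E ∪ F).image R.α := by
      intro d hd
      obtain ⟨h1, h2⟩ := mem_filter.mp hd
      have h2 := not_not.mp h2
      by_contra hc
      simp only [mem_union, not_or, mem_image, not_exists, not_and] at hc
      have h3 := hc.2 (R.α d)
      rw [R.αα] at h3
      have a1 : ¬ ex d := fun h => hc.1.1 (mem_filter.mpr ⟨h1, h⟩)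
      have a2 : sl d ∈ S₀ := by
        by_contra h
        exact hc.1.2 (mem_filter.mpr ⟨h1, a1, h⟩)
      have a3 : ¬ ex (R.α d) := fun h => h3 (Or.inl (mem_filter.mpr ⟨h2, h⟩)) rfl
      have a4 : sl (R.α d) ∈ S₀ := by
        by_contra h
        exact h3 (Or.inr (mem_filter.mpr ⟨h2, a3, h⟩)) rfl
      have a5 := R.lab d (hU h1) (hU h2)
      have a6 : sl d = sl (R.α d) := hinj _ a2 _ a4 (by
        simp only [sl]
        rw [Y.lab_eq, Y.lab_eq, a5, Y.cls_σ])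
      rcases Y.slot_inj _ _ (hmain _ _ a1 a3 a6) (congrArg Prod.fst a6) (congrArg Prod.snd a6)
        with h | h
      · rw [h] at a5
        exact Y.σne _ a5.symm
      · exact R.red d (hU h1) (hU h2) h
    have h2 := (Finset.card_le_card h1).trans (Finset.card_union_le _ _)
    have h3 := Finset.card_image_le (s := E ∪ F) (f := R.α)
    have h4 := Finset.card_union_le E F
    omega
  have hF : F.card + ∑ s ∈ S₀, a s.1 ≤ ∑ s ∈ S, a s.1 := by
    rw [← Finset.sum_sdiff (s₁ := S₀) (s₂ := S) (fun s hs => (hS s).mpr (hS₀ s hs))]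
    refine Nat.add_le_add_right ?_ _
    rw [Finset.card_eq_sum_card_fiberwise (f := sl) (t := S \ S₀) (fun d hd => by
      obtain ⟨h1, h2⟩ := mem_filter.mp hd
      exact mem_sdiff.mpr ⟨(hS _).mpr ⟨how d h1, Y.ix_mem _⟩, h2.2⟩)]
    refine Finset.sum_le_sum fun s _ => ?_
    rcases (F.filter (fun d => sl d = s)).eq_empty_or_nonempty with h0 | ⟨d, hd⟩
    · rw [h0]; simp
    · obtain ⟨h1, h2⟩ := mem_filter.mp hd
      obtain ⟨h3, h4⟩ := mem_filter.mp h1
      refine (slot_le hU (R.ε d) _ fun d' hd' => ?_).trans ?_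
      · obtain ⟨b1, b2⟩ := mem_filter.mp hd'
        obtain ⟨b3, b4⟩ := mem_filter.mp b1
        have e := h2.trans b2.symm
        exact ⟨b3, Y.slot_inj _ _ (hmain _ _ h4.1 b4.1 e) (congrArg Prod.fst e)
          (congrArg Prod.snd e)⟩
      · rw [← h2]
        exact hw _ _ (hcW d h3)
  let Θ := T.filter Y.th
  have hE : E.card + 2 * ∑ θ ∈ Θ, a θ ≤ 2 * ∑ θ ∈ Θ, ∑ u ∈ W θ, A u := by
    rw [Finset.card_eq_sum_card_fiberwise (f := fun d => Y.ow (R.ε d)) (t := Θ) (fun d hd => by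
      obtain ⟨h1, h2⟩ := mem_filter.mp hd
      exact mem_filter.mpr ⟨how d h1, h2.1⟩), Finset.mul_sum, Finset.mul_sum,
      ← Finset.sum_add_distrib]
    refine Finset.sum_le_sum fun θ _ => ?_
    rw [← Finset.sum_erase_add _ _ (hwW θ), mul_add]
    refine Nat.add_le_add_right ?_ _
    rw [Finset.card_eq_sum_card_fiberwise (f := fun d => Y.cp (R.ε d)) (t := (W θ).erase (w θ))
      (fun d hd => by
        obtain ⟨h1, h2⟩ := mem_filter.mp hd
        obtain ⟨h3, h4⟩ := mem_filter.mp h1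
        rw [← h2]
        exact mem_erase.mpr ⟨h4.2.2, hcW d h3⟩), Finset.mul_sum]
    refine Finset.sum_le_sum fun u _ => ?_
    rcases ((E.filter (fun d => Y.ow (R.ε d) = θ)).filter
      (fun d => Y.cp (R.ε d) = u)).eq_empty_or_nonempty with h0 | ⟨d, hd⟩
    · rw [h0]; simp
    · obtain ⟨h1, h2⟩ := mem_filter.mp hd
      obtain ⟨h3, h4⟩ := mem_filter.mp h1
      obtain ⟨h5, h6⟩ := mem_filter.mp h3
      obtain ⟨v, hv⟩ := Y.ctr (R.ε d) h6.1 h6.2.1
      obtain ⟨h, hh1, hh2⟩ : ∃ h, Y.S.vert h = v ∧ Y.cp h = u := by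
        rcases hv _ rfl rfl h6.2.1 with h | h
        · exact ⟨_, h, h2⟩
        · exact ⟨_, h, by rw [Y.cp_τ, h2]⟩
      subst hh1
      rw [← hh2]
      refine star_le hU h _ fun d' hd' => ?_
      obtain ⟨b1, b2⟩ := mem_filter.mp hd'
      obtain ⟨b3, b4⟩ := mem_filter.mp b1
      obtain ⟨b5, b6⟩ := mem_filter.mp b3
      exact ⟨b5, hv _ (by rw [b2, hh2, h2]) (by rw [b4, h4]) b6.2.1⟩
  have hW : ∑ θ ∈ Θ, ∑ u ∈ W θ, A u ≤ ∑ θ ∈ Θ, A θ + ∑ u ∈ T, (Y.par u).card * A u := by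
    have h1 : ∀ θ ∈ Θ, ∑ u ∈ W θ, A u ≤ A θ + ∑ u ∈ T, if θ ∈ Y.par u then A u else 0 := by
      intro θ _
      rw [← Finset.sum_filter]
      by_cases h : θ ∈ T.filter (fun u => θ ∈ Y.par u)
      · simp only [W, insert_eq_of_mem h]
        exact Nat.le_add_left _ _
      · simp only [W, sum_insert h]
        exact le_rfl
    refine (Finset.sum_le_sum h1).trans ?_
    rw [Finset.sum_add_distrib, Finset.sum_comm]
    refine Nat.add_le_add_left (Finset.sum_le_sum fun u _ => ?_) _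
    rw [← Finset.sum_filter, Finset.sum_const, smul_eq_mul]
    exact Nat.mul_le_mul_right _ (Finset.card_le_card fun θ hθ => (mem_filter.mp hθ).2)
  have hacc : 2 * ∑ κ ∈ T, (Y.own κ).card * a κ + 4 * ∑ θ ∈ Θ, A θ +
      4 * ∑ u ∈ T, (Y.par u).card * A u =
      2 * ∑ κ ∈ T, Y.kk κ * a κ + 4 * ∑ θ ∈ Θ, a θ + ∑ κ ∈ T, Y.g κ * A κ := by
    simp only [Θ, Finset.sum_filter, Finset.mul_sum, ← Finset.sum_add_distrib]
    refine Finset.sum_congr rfl fun κ _ => ?_
    have h1 := Y.g_eq κ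
    by_cases h : Y.th κ
    · obtain ⟨h2, h3⟩ := Y.th_par κ h
      rw [h2, h3, Finset.card_empty] at h1
      have h4 : Y.g κ = 4 := by omega
      simp only [if_pos h, h2, h3, h4, Finset.card_empty]
      ring
    · simp only [if_neg h, a, hnt κ h]
      have h2 := congrArg (fun x => x * A κ) h1
      linarith
  have hUsum : U.card = ∑ κ ∈ T, (Y.Uk R U κ).card := by
    rw [Finset.card_eq_sum_card_fiberwise (f := fun d => Y.cp (R.ε d)) (t := T) hcp]
    rfl
  have hb : ∑ κ ∈ T, (Y.En R U κ).card = (U.filter (fun d => R.φ d ∉ U)).card := by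
    rw [Finset.card_eq_sum_card_fiberwise (f := fun d => Y.cp (R.ε d)) (t := T)
      (s := U.filter (fun d => R.φ d ∉ U)) (fun d hd => hcp d (mem_filter.mp hd).1)]
    refine Finset.sum_congr rfl fun κ _ => ?_
    congr 1
    ext d
    simp only [mem_En, mem_filter]
    tauto
  have hg : ∑ κ ∈ T, Y.g κ * A κ ≤ U.card + 12 * (U.filter (fun d => R.φ d ∉ U)).card := by
    rw [← hb, Finset.mul_sum]
    conv_rhs => rw [hUsum]
    rw [← Finset.sum_add_distrib]
    exact Finset.sum_le_sum fun κ _ => g_lv hU κ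
  have hfew : U.card ≤ 30 * ∑ κ ∈ T, a κ := by
    rw [hUsum, Finset.mul_sum]
    exact Finset.sum_le_sum fun κ _ => (few_le κ).trans
      (Nat.mul_le_mul_left _ (hw κ κ (mem_insert_self _ _)))
  have hsplit := Finset.card_filter_add_card_filter_not (s := U) (fun d => R.α d ∉ U)
  have hfin : 2 * ∑ s ∈ S₀, a s.1 ≤ 2 * ∑ κ ∈ T, Y.kk κ * a κ +
      ((U.filter (fun d => R.α d ∉ U)).card + 12 * (U.filter (fun d => R.φ d ∉ U)).card) := by
    have : M.card = (U.filter (fun d => ¬ R.α d ∉ U)).card := rfl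
    omega
  have h2 := Nat.mul_le_mul_left Y.K₀ hfin
  nlinarith

end Crest.Agent.R196
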