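import Crest.Agent.R196.Defs

/-!
Task R196-P1: basic probability, the first moment bound `nc`, and the hexagon lemma.

* `exp_pres`, `exp_abs`: the coordinates of `ω` are independent and uniform (`Fintype.piFinset`, `Finset.prod_univ_sum`).
* `nc`: call `T` (with `t = card T ≥ 1`, `Λ` = number of classes) bad if `n ^ Λ * r ≤ ∏_{o ∈ T} nn o = n ^ (∑ kk) * r ^ t`
  (`n = 2 r^K ≤ r^(K+1)` for `r ≥ 2`).  If `T` is not bad then `D = Λ - ∑ kk ≥ 1` and `r^((K+1) D) ≥ n^D > r^(t-1)`, so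
  `(K+1) D ≥ t`.  Union bound: enumerate `T` by `Fin t`; it is determined by the colours (`card Col ^ t`), a map from the slots
  (`Fin t × Fin A`, `A` = maximal arity) to `Fin Λ × Bool` and a map `Fin Λ → Fin (r^K)`.  So the expected number of bad present
  `T` is at most `C(B, M) / r`.
* `hex_whp`: for fixed `s` and `𝒢` there are at least `(n/4 - 6)^5`-many generic `f` with `f 0 = s` and the other labels in `𝒢`
  (the classes of `𝒢` number at least `n/4`); all are absent with probability `(1 - 1/nn)^# ≤ exp (-#/nn)`, `nn = n³ r`, and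
  `# / nn ≥ c n² / r ≥ c n r^(K-1)`; union bound over `n 2^n` pairs `(s, 𝒢)`.
-/

set_option autoImplicit false

namespace Crest.Agent.R196

open Finset Filter Topology
open scoped BigOperators

namespace Model

variable {M : Model}

open Classical in
theorem whp_iff {A : (r : ℕ) → M.Om r → Prop} :
    WHP A ↔ Tendsto (fun r => 𝔼 ω : M.Om r, if A r ω then (0 : ℝ) else 1) atTop (𝓝 0) := by
  unfold WHP
  refine tendsto_congr fun r => ?_
  rw [Fintype.expect_eq_sum_div_card, card_filter]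
  congr 1
  push_cast
  exact sum_congr rfl fun ω _ => by by_cases h : A r ω <;> simp [h]

open Classical in
theorem WHP.of_le {A : (r : ℕ) → M.Om r → Prop} (b : ℕ → ℝ)
    (hb : ∀ᶠ r in atTop, (𝔼 ω : M.Om r, if A r ω then (0 : ℝ) else 1) ≤ b r)
    (hb0 : Tendsto b atTop (𝓝 0)) : WHP A :=
  whp_iff.2 (squeeze_zero' (Eventually.of_forall fun _ =>
    expect_nonneg fun _ _ => by split_ifs <;> norm_num) hb hb0)

theorem WHP.mono' {A A' : (r : ℕ) → M.Om r → Prop} (h : WHP A)
    (hA : ∀ᶠ r in atTop, ∀ ω, A r ω → A' r ω) : WHP A' := by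
  refine WHP.of_le _ (hA.mono fun r hr => expect_le_expect fun ω _ => ?_) (whp_iff.1 h)
  have := hr ω
  split_ifs <;> first | tauto | norm_num

theorem WHP.mono {A A' : (r : ℕ) → M.Om r → Prop} (h : WHP A) (hA : ∀ r ω, A r ω → A' r ω) :
    WHP A' := h.mono' (Eventually.of_forall hA)

theorem WHP.and {A A' : (r : ℕ) → M.Om r → Prop} (h : WHP A) (h' : WHP A') :
    WHP (fun r ω => A r ω ∧ A' r ω) := by
  have := (whp_iff.1 h).add (whp_iff.1 h')
  rw [add_zero] at this
  refine WHP.of_le _ (Eventually.of_forall fun r => ?_) this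
  rw [← expect_add_distrib]
  refine expect_le_expect fun ω _ => ?_
  by_cases h1 : A r ω <;> by_cases h2 : A' r ω <;> simp [h1, h2]

theorem WHP.forall {ι : Type} [Finite ι] {A : ι → (r : ℕ) → M.Om r → Prop} (h : ∀ i, WHP (A i)) :
    WHP (fun r ω => ∀ i, A i r ω) := by
  classical
  have := Fintype.ofFinite ι
  have key : ∀ s : Finset ι, WHP (M := M) (fun r ω => ∀ i ∈ s, A i r ω) := fun s => by
    induction s using Finset.induction_on with
    | empty => exact WHP.of_le (fun _ => 0) (Eventually.of_forall fun r => by simp) tendsto_const_nhds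
    | insert a s _ ih =>
      exact ((h a).and ih).mono fun r ω h' => by simpa using h'
  exact (key univ).mono fun r ω h' i => h' i (mem_univ i)

theorem nn_pos {r : ℕ} (hr : 0 < r) (c : M.Col) : 0 < M.nn r c := by
  unfold nn; positivity

theorem om_nonempty {r : ℕ} (hr : 0 < r) : Nonempty (M.Om r) := ⟨fun o => ⟨0, nn_pos hr o.c⟩⟩

theorem WHP.exists {A : (r : ℕ) → M.Om r → Prop} (h : WHP A) (r₀ : ℕ) :
    ∃ r ≥ r₀, ∃ ω, A r ω := by
  obtain ⟨r, h1, h2, h3⟩ := (((whp_iff.1 h).eventually (gt_mem_nhds one_pos)).and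
    ((eventually_ge_atTop r₀).and (eventually_gt_atTop 0))).exists
  refine ⟨r, h2, ?_⟩
  by_contra hc
  push Not at hc
  have := om_nonempty (M := M) h3
  simp [hc] at h1

theorem WHP.of_expect (Y : (r : ℕ) → M.Om r → ℝ) (h0 : ∀ r ω, 0 ≤ Y r ω) (b : ℕ → ℝ)
    (hb : ∀ᶠ r in atTop, (𝔼 ω, Y r ω) ≤ b r) (hb0 : Tendsto b atTop (𝓝 0)) {δ : ℝ} (hδ : 0 < δ) :
    WHP (fun r ω => Y r ω ≤ δ) := by
  refine WHP.of_le (fun r => b r / δ) (hb.mono fun r hr => ?_) (by simpa using hb0.div_const δ)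
  refine le_trans ?_ (div_le_div_of_nonneg_right hr hδ.le)
  rw [expect_div]
  refine expect_le_expect fun ω _ => ?_
  split_ifs with h
  · exact div_nonneg (h0 r ω) hδ.le
  · rw [le_div_iff₀ hδ]; linarith [not_le.1 h]

theorem exp_prod {r : ℕ} (hr : 0 < r) (T : Finset (M.Obj r)) (g : (o : M.Obj r) → ℕ → ℝ) :
    (𝔼 ω : M.Om r, ∏ o ∈ T, g o (ω o)) = ∏ o ∈ T, 𝔼 x : Fin (M.nn r o.c), g o x := by
  have e1 : ∀ ω : M.Om r, ∏ o ∈ T, g o (ω o) = ∏ o, if o ∈ T then g o (ω o) else 1 := fun ω => by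
    rw [prod_ite_mem, univ_inter]
  simp only [e1, Fintype.expect_eq_sum_div_card]
  rw [← Fintype.piFinset_univ, ← prod_univ_sum (fun o : M.Obj r => (univ : Finset (Fin (M.nn r o.c))))
    (fun o x => if o ∈ T then g o x else 1), Fintype.card_pi, Nat.cast_prod, ← prod_div_distrib,
    ← univ_inter T, ← prod_ite_mem, univ_inter]
  refine prod_congr rfl fun o _ => ?_
  have := (nn_pos (M := M) hr o.c).ne'
  split_ifs
  · rfl
  · simp [this]

theorem exp_ind {n : ℕ} (hn : 0 < n) (a b : ℝ) :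
    (𝔼 x : Fin n, if (x : ℕ) = 0 then a else b) = a / n + b * (1 - 1 / n) := by
  obtain ⟨n, rfl⟩ := Nat.exists_eq_succ_of_ne_zero hn.ne'
  rw [Fintype.expect_eq_sum_div_card, Fin.sum_univ_succ]
  simp
  field_simp
  ring

open Classical in
theorem exp_pres {r : ℕ} (hr : 0 < r) (T : Finset (M.Obj r)) :
    (𝔼 ω : M.Om r, ∏ o ∈ T, if Pres ω o then (M.nn r o.c : ℝ) else 0) = 1 := by
  have := exp_prod hr T (fun o x => if x = 0 then (M.nn r o.c : ℝ) else 0)
  refine (Eq.trans (by congr; funext ω; congr; funext o; unfold Pres; congr) this).trans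
    (prod_eq_one fun o _ => ?_)
  have := (nn_pos (M := M) hr o.c)
  rw [exp_ind this, zero_mul, add_zero, div_self (by positivity)]

open Classical in
theorem exp_abs {r : ℕ} (hr : 0 < r) (T : Finset (M.Obj r)) :
    (𝔼 ω : M.Om r, if ∀ o ∈ T, ¬ Pres ω o then (1 : ℝ) else 0) =
      ∏ o ∈ T, (1 - 1 / (M.nn r o.c : ℝ)) := by
  have := exp_prod hr T (fun o x => if x = 0 then (0 : ℝ) else 1)
  refine (Eq.trans (expect_congr rfl fun ω _ => ?_) this).trans (prod_congr rfl fun o _ => ?_)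
  · split_ifs with h
    · exact (prod_eq_one fun o ho => if_neg (h o ho)).symm
    · push Not at h
      obtain ⟨o, ho, h⟩ := h
      exact (prod_eq_zero ho (by exact if_pos h)).symm
  · rw [exp_ind (nn_pos hr o.c)]; simp

open Classical in
theorem exp_pres' {r : ℕ} (hr : 0 < r) (T : Finset (M.Obj r)) :
    (𝔼 ω : M.Om r, if ∀ o ∈ T, Pres ω o then (1 : ℝ) else 0) = 1 / ∏ o ∈ T, (M.nn r o.c : ℝ) := by
  have h0 : (0 : ℝ) < ∏ o ∈ T, (M.nn r o.c : ℝ) :=
    prod_pos fun o _ => by exact_mod_cast nn_pos hr o.c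
  refine Eq.trans (expect_congr rfl fun ω _ => ?_) ((expect_div _ _ _).symm.trans
    (congrArg (· / _) (exp_pres hr T)))
  split_ifs with h
  · rw [prod_congr rfl fun o ho => if_pos (h o ho), div_self h0.ne']
  · push Not at h
    obtain ⟨o, ho, h⟩ := h
    rw [prod_eq_zero ho (by exact if_neg h), zero_div]

/-- The classes used by a set of objects. -/
noncomputable def clsOf {r : ℕ} (T : Finset (M.Obj r)) : Finset (Fin (r ^ M.K)) :=
  T.biUnion (fun o => univ.image (fun s => (o.f s).1))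

theorem card_clsOf {r : ℕ} (T : Finset (M.Obj r)) : (clsOf T).card ≤ T.card * ∑ c, M.ar c := by
  refine card_biUnion_le_card_mul _ _ _ fun o _ => card_image_le.trans ?_
  rw [card_univ, Fintype.card_fin]
  exact single_le_sum (f := M.ar) (fun _ _ => Nat.zero_le _) (mem_univ _)

theorem card_fiber_clsOf {r L : ℕ} (U : Finset (Fin (r ^ M.K))) (hU : U.card ≤ L)
    (S : Finset (Finset (M.Obj r))) :
    (S.filter fun T => clsOf T = U).card ≤ 2 ^ ∑ c, (L * 2) ^ M.ar c := by
  classical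
  let O : Finset (M.Obj r) := univ.filter fun o => ∀ s, (o.f s).1 ∈ U
  have h1 : O.card ≤ ∑ c, (L * 2) ^ M.ar c := by
    refine (card_le_card_of_injOn (t := univ.sigma fun c : M.Col =>
      Fintype.piFinset fun _ : Fin (M.ar c) => U ×ˢ (univ : Finset Bool))
      (fun o => ⟨o.c, o.f⟩) (fun o ho => ?_) (fun o _ o' _ h => ?_)).trans ?_
    · simpa [O] using ho
    · cases o; cases o'; cases h; rfl
    · rw [card_sigma]
      refine sum_le_sum fun c _ => ?_
      simp only [Fintype.card_piFinset, card_product, card_univ, Fintype.card_bool, prod_const,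
        Fintype.card_fin]
      gcongr
  refine (card_le_card (t := O.powerset) fun T hT => ?_).trans
    (by rw [card_powerset]; exact Nat.pow_le_pow_right two_pos h1)
  rw [mem_filter] at hT
  refine mem_powerset.2 fun o ho => mem_filter.2 ⟨mem_univ _, fun s => ?_⟩
  rw [← hT.2]
  exact mem_biUnion.2 ⟨o, ho, mem_image_of_mem _ (mem_univ s)⟩

theorem sum_subsets_le {N : ℕ} (hN : 0 < N) (L : ℕ) :
    ∑ U ∈ univ.filter (fun U : Finset (Fin N) => U.card ≤ L), (1 : ℝ) / (N : ℝ) ^ U.card ≤ L + 1 := by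
  rw [← sum_fiberwise_of_maps_to (s := univ.filter (fun U : Finset (Fin N) => U.card ≤ L))
    (t := range (L + 1)) (g := fun U => U.card)
    (fun U hU => mem_range.2 (Nat.lt_succ_of_le (mem_filter.1 hU).2))]
  refine (sum_le_card_nsmul _ _ 1 fun k _ => ?_).trans (by simp)
  rw [sum_congr rfl (g := fun _ => (1 : ℝ) / (N : ℝ) ^ k) fun U hU => by rw [(mem_filter.1 hU).2],
    sum_const, nsmul_eq_mul, mul_one_div, div_le_one (by positivity)]
  have : ((univ.filter (fun U : Finset (Fin N) => U.card ≤ L)).filter fun U => U.card = k).card ≤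
      N ^ k := by
    refine (card_le_card (t := powersetCard k univ) fun U hU => ?_).trans ?_
    · exact mem_powersetCard.2 ⟨subset_univ _, (mem_filter.1 hU).2⟩
    · rw [card_powersetCard, card_univ, Fintype.card_fin]; exact Nat.choose_le_pow N k
  exact_mod_cast this

theorem bad_le {r : ℕ} (hr : 2 ≤ r) (T : Finset (M.Obj r))
    (h : ¬ (M.K + 1) * ∑ o ∈ T, M.kk o.c + T.card ≤ (M.K + 1) * (clsOf T).card) :
    (r ^ M.K) ^ (clsOf T).card * r ≤ ∏ o ∈ T, M.nn r o.c := by
  unfold nn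
  rw [prod_mul_distrib, prod_pow_eq_pow_sum, prod_const]
  set Λ := (clsOf T).card
  set s := ∑ o ∈ T, M.kk o.c
  set t := T.card with ht
  have h0 : 0 < t := by
    by_contra h0
    have : T = ∅ := card_eq_zero.1 (by omega)
    apply h
    simp [s, ht, this]
  refine le_trans (Nat.mul_le_mul_right _ (Nat.pow_le_pow_left (Nat.le_mul_of_pos_left _ two_pos) _)) ?_
  rcases le_or_gt Λ s with h1 | h1
  · exact Nat.mul_le_mul (Nat.pow_le_pow_right (by positivity) h1) (Nat.le_self_pow h0.ne' r)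
  · obtain ⟨D, hD⟩ := Nat.exists_eq_add_of_le h1.le
    rw [hD, pow_add, mul_assoc]
    refine Nat.mul_le_mul_left _ ?_
    have h2 : (M.K + 1) * D + 1 ≤ t := by rw [hD, mul_add] at h; omega
    calc (2 * r ^ M.K) ^ D * r ≤ (r ^ (M.K + 1)) ^ D * r := by
          gcongr; rw [pow_succ']; gcongr
      _ = r ^ ((M.K + 1) * D + 1) := by rw [← pow_mul, pow_succ]
      _ ≤ r ^ t := Nat.pow_le_pow_right (by omega) h2

theorem nc (B : ℕ) : WHP (fun r (ω : M.Om r) => NC ω B) := by
  classical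
  set L := B * ∑ c, M.ar c
  set C : ℝ := (2 ^ ∑ c, (L * 2) ^ M.ar c : ℕ) * (L + 1)
  refine WHP.of_le (fun r => C / r) ((eventually_ge_atTop 2).mono fun r hr => ?_)
    (tendsto_const_div_atTop_nhds_zero_nat C)
  have hr0 : 0 < r := by omega
  let S : Finset (Finset (M.Obj r)) := univ.filter fun T => T.card ≤ B ∧
    ¬ (M.K + 1) * ∑ o ∈ T, M.kk o.c + T.card ≤ (M.K + 1) * (clsOf T).card
  calc (𝔼 ω : M.Om r, if NC ω B then (0 : ℝ) else 1)
      ≤ 𝔼 ω : M.Om r, ∑ T ∈ S, if ∀ o ∈ T, Pres ω o then (1 : ℝ) else 0 := by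
        refine expect_le_expect fun ω _ => ?_
        split_ifs with h
        · exact sum_nonneg fun _ _ => by split_ifs <;> norm_num
        · simp only [NC, not_forall] at h
          obtain ⟨T, h1, h2, h3⟩ := h
          refine le_trans (by rw [if_pos h2]) (single_le_sum (f := fun T : Finset (M.Obj r) =>
            if ∀ o ∈ T, Pres ω o then (1 : ℝ) else 0) (fun _ _ => by split_ifs <;> norm_num)
            (mem_filter.2 ⟨mem_univ T, h1, h3⟩))
    _ ≤ ∑ T ∈ S, 1 / ((r ^ M.K : ℕ) : ℝ) ^ (clsOf T).card / r := by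
        rw [expect_sum_comm]
        refine sum_le_sum fun T hT => ?_
        rw [exp_pres' hr0, div_div]
        refine one_div_le_one_div_of_le (by positivity) ?_
        exact_mod_cast bad_le hr T (mem_filter.1 hT).2.2
    _ ≤ C / r := by
        rw [← sum_div]
        refine div_le_div_of_nonneg_right ?_ (by positivity)
        rw [← sum_fiberwise_of_maps_to (t := univ.filter fun U : Finset (Fin (r ^ M.K)) => U.card ≤ L)
          (g := clsOf) (fun T hT => mem_filter.2 ⟨mem_univ _, (card_clsOf T).trans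
            (Nat.mul_le_mul_right _ (mem_filter.1 hT).2.1)⟩)]
        refine le_trans (sum_le_sum fun U hU => ?_) (le_trans (mul_sum _ _ _).ge
          (mul_le_mul_of_nonneg_left (sum_subsets_le (N := r ^ M.K) (by positivity) L)
            (by positivity)))
        rw [sum_congr rfl (g := fun _ => (1 : ℝ) / ((r ^ M.K : ℕ) : ℝ) ^ U.card)
          fun T hT => by rw [(mem_filter.1 hT).2], sum_const, nsmul_eq_mul]
        gcongr
        exact card_fiber_clsOf U (mem_filter.1 hU).2 S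

end Model

open Model in
theorem hex_count {m r : ℕ} (s : PP (3 * m + 1) r) (𝒢 : Finset (PP (3 * m + 1) r))
    (h : Fintype.card (PP (3 * m + 1) r) ≤ 2 * 𝒢.card) :
    ∃ T : Finset ((Mod m).Obj r), (r ^ (3 * m + 1) / 2 - 5) ^ 5 ≤ T.card ∧ ∀ o ∈ T, ∃ f, o = hxO f ∧
      f 0 = s ∧ (∀ i, i ≠ 0 → f i ∈ 𝒢) ∧ Gen f := by
  classical
  let U := (𝒢.image Prod.fst).erase s.1
  have h1 : r ^ (3 * m + 1) / 2 - 1 ≤ U.card := by
    have a1 : 𝒢.card ≤ (𝒢.image Prod.fst).card * 2 := by
      refine (card_le_card (t := 𝒢.image Prod.fst ×ˢ (univ : Finset Bool)) fun x hx => ?_).trans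
        (by simp)
      exact mem_product.2 ⟨mem_image_of_mem _ hx, mem_univ _⟩
    have a2 := pred_card_le_card_erase (s := 𝒢.image Prod.fst) (a := s.1)
    simp only [Fintype.card_prod, Fintype.card_fin, Fintype.card_bool] at h
    simp only [U]
    omega
  have h2 : ∀ u : U, ∃ x ∈ 𝒢, x.1 = u.1 := fun u => mem_image.1 (mem_of_mem_erase u.2)
  choose g hg hg' using h2
  let F : (Fin 5 ↪ U) → Fin 6 → PP (3 * m + 1) r := fun e => Fin.cons s fun i => g (e i)
  refine ⟨univ.image fun e => hxO (F e), ?_, fun o ho => ?_⟩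
  · rw [card_image_of_injective _ fun e e' he => ?_, card_univ, Fintype.card_embedding_eq,
      Fintype.card_fin, Fintype.card_coe]
    · exact le_trans (Nat.pow_le_pow_left (by omega) 5) (Nat.pow_sub_le_descFactorial _ 5)
    · have he' : F e = F e' := by simpa [hxO] using he
      ext i
      have := congrArg (fun f => (f i.succ).1) he'
      simp only [F, Fin.cons_succ, hg'] at this
      rw [this]
  · obtain ⟨e, -, rfl⟩ := mem_image.1 ho
    refine ⟨F e, rfl, rfl, fun i hi => ?_, fun i j hij => ?_⟩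
    · obtain ⟨i, rfl⟩ := Fin.exists_succ_eq.2 hi
      exact hg _
    · have hne : ∀ i, (g (e i)).1 ≠ s.1 := fun i => by rw [hg']; exact ne_of_mem_erase (e i).2
      induction i using Fin.cases <;> induction j using Fin.cases
      · rfl
      · exact absurd hij.symm (hne _)
      · exact absurd hij (hne _)
      · simp only [F, Fin.cons_succ, hg'] at hij
        rw [e.injective (Subtype.ext hij)]

theorem hex_num {N r : ℕ} (hr : 40 ≤ r) (hN : r ^ 4 ≤ N) :
    ((N * 2 * 2 ^ (N * 2) : ℕ) : ℝ) * (1 - 1 / (((2 * N) ^ 3 * r : ℕ) : ℝ)) ^ ((N / 2 - 5) ^ 5) ≤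
      1 / r := by
  have h40 : 40 ^ 3 ≤ r ^ 3 := Nat.pow_le_pow_left hr 3
  have hrN : 64000 * r ≤ N := le_trans (by rw [pow_succ]; exact Nat.mul_le_mul_right _ h40) hN
  have hN0 : (0 : ℝ) < N := by exact_mod_cast (by omega : 0 < N)
  have hr0 : (0 : ℝ) < r := by exact_mod_cast (by omega : 0 < r)
  have hrN' : (64000 : ℝ) * r ≤ N := by exact_mod_cast hrN
  have h1 : (N : ℝ) / 4 ≤ ((N / 2 - 5 : ℕ) : ℝ) := by
    rw [div_le_iff₀ (by norm_num)]; exact_mod_cast (by omega : N ≤ (N / 2 - 5) * 4)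
  set q : ℝ := (((2 * N) ^ 3 * r : ℕ) : ℝ) with hq
  have hq' : q = 8 * N ^ 3 * r := by rw [hq]; push_cast; ring
  have hq1 : 1 ≤ q := by
    rw [hq]; exact_mod_cast Nat.mul_pos (pow_pos (by omega) 3) (by omega)
  have h2 : (1 - 1 / q) ^ ((N / 2 - 5) ^ 5) ≤ Real.exp (-(5 * N)) := by
    refine (pow_le_pow_left₀ (by rw [sub_nonneg, div_le_one (by linarith)]; exact hq1)
      (Real.one_sub_le_exp_neg _) _).trans ?_
    rw [← Real.exp_nat_mul, Real.exp_le_exp, mul_neg, neg_le_neg_iff, mul_one_div,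
      le_div_iff₀ (by linarith), hq', Nat.cast_pow]
    refine le_trans ?_ (pow_le_pow_left₀ (by positivity) h1 5)
    have : (0 : ℝ) < N ^ 4 := by positivity
    nlinarith
  have h3 : ((N * 2 * 2 ^ (N * 2) : ℕ) : ℝ) ≤ Real.exp (4 * N) := by
    rw [show (4 : ℝ) * N = N * 2 + ((N * 2 : ℕ) : ℝ) * 1 by push_cast; ring, Real.exp_add,
      Real.exp_nat_mul 1]
    push_cast
    gcongr
    · linarith [Real.add_one_le_exp ((N : ℝ) * 2)]
    · linarith [Real.add_one_le_exp (1 : ℝ)]
  refine (mul_le_mul h3 h2 (pow_nonneg (by rw [sub_nonneg, div_le_one (by linarith)]; exact hq1) _)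
    (by positivity)).trans ?_
  rw [← Real.exp_add, show (4 : ℝ) * N + -(5 * N) = -N by ring, Real.exp_neg, one_div]
  exact inv_anti₀ hr0 (by linarith [Real.add_one_le_exp (N : ℝ)])

open Model in
theorem hex_whp (m : ℕ) [NeZero m] : Model.WHP (M := Mod m) (fun r ω =>
    ∀ (s : PP (3 * m + 1) r) (𝒢 : Finset (PP (3 * m + 1) r)),
      Fintype.card (PP (3 * m + 1) r) ≤ 2 * 𝒢.card →
      ∃ f : Fin 6 → PP (3 * m + 1) r, f 0 = s ∧ (∀ i, i ≠ 0 → f i ∈ 𝒢) ∧
        Gen f ∧ Model.Pres ω (hxO f)) := by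
  classical
  refine WHP.of_le (fun r => 1 / r) ((eventually_ge_atTop 40).mono fun r hr => ?_)
    tendsto_one_div_atTop_nhds_zero_nat
  have hr0 : 0 < r := by omega
  have hm := NeZero.pos m
  choose! T hT hT' using fun z : PP (3 * m + 1) r × Finset (PP (3 * m + 1) r) => hex_count z.1 z.2
  let S : Finset (PP (3 * m + 1) r × Finset (PP (3 * m + 1) r)) :=
    univ.filter fun z => Fintype.card (PP (3 * m + 1) r) ≤ 2 * z.2.card
  refine le_trans (expect_le_expect (g := fun ω : (Mod m).Om r => ∑ z ∈ S,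
    if ∀ o ∈ T z, ¬ Pres ω o then (1 : ℝ) else 0) fun ω _ => ?_) ?_
  · split_ifs with h
    · exact sum_nonneg fun _ _ => by split_ifs <;> norm_num
    · simp only [not_forall] at h
      obtain ⟨s, 𝒢, h1, h2⟩ := h
      refine le_trans (by
        rw [if_pos]
        intro o ho h3
        obtain ⟨f, rfl, h4, h5, h6⟩ := hT' (s, 𝒢) h1 o ho
        exact h2 ⟨f, h4, h5, h6, h3⟩) (single_le_sum (f := fun z =>
        if ∀ o ∈ T z, ¬ Pres ω o then (1 : ℝ) else 0) (fun _ _ => by split_ifs <;> norm_num)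
        (mem_filter.2 ⟨mem_univ (s, 𝒢), h1⟩))
  · rw [expect_sum_comm]
    refine le_trans ?_ (hex_num (N := r ^ (3 * m + 1)) hr (Nat.pow_le_pow_right hr0 (by omega)))
    have hq : (1 : ℝ) ≤ (((2 * r ^ (3 * m + 1)) ^ 3 * r : ℕ) : ℝ) := by
      exact_mod_cast nn_pos (M := Mod m) hr0 (Sum.inr (Sum.inr ()))
    have hq0 : (0 : ℝ) ≤ 1 - 1 / (((2 * r ^ (3 * m + 1)) ^ 3 * r : ℕ) : ℝ) := by
      rw [sub_nonneg, div_le_one (by linarith)]; exact hq
    refine (sum_le_card_nsmul _ _ ((1 - 1 / (((2 * r ^ (3 * m + 1)) ^ 3 * r : ℕ) : ℝ)) ^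
      ((r ^ (3 * m + 1) / 2 - 5) ^ 5)) fun z hz => ?_).trans ?_
    · have hz := (mem_filter.1 hz).2
      rw [exp_abs hr0, prod_congr rfl (g := fun _ => 1 - 1 / (((2 * r ^ (3 * m + 1)) ^ 3 * r : ℕ) : ℝ))
        fun o ho => by obtain ⟨f, rfl, -⟩ := hT' z hz o ho; rfl, prod_const]
      exact pow_le_pow_of_le_one hq0 (sub_le_self _ (by positivity)) (hT z hz)
    · rw [nsmul_eq_mul]
      refine mul_le_mul_of_nonneg_right ?_ (pow_nonneg hq0 _)
      exact_mod_cast (card_le_univ S).trans (by simp)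

end Crest.Agent.R196
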