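import Crest.Agent.R196.Defs
import Crest.Agent.R196.Cat

/-!
Task R196-G2: Sturm's inductive means.

Define `ind k (y : Fin k → X) : X` by `ind 0 _ = p`, `ind (k+1) y = pt (1/(k+1)) (ind k (Fin.tail y)) (y 0)`, and
`Vr (k+1) y = Vr k (tail y) + (1 - 1/(k+1)) * dist (ind k (tail y)) (y 0) ^ 2`.
* (S1) `k * d²(q, ind k y) + Vr k y ≤ ∑ i, d²(q, y i)` for all `q` (induction with `cn`).
* (S2) `k * d(ind k y, ind k y') ≤ ∑ i, d(y i, y' i)` for `k ≥ 1`, also for different base points (`pt_convex`); equivariance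
  `g • ind` by `pt_smul` (or state (S2) directly for `g • ind k y` and `g' • ind k y'`).
* (S3) for `c : Fin k → P` uniform (`Fin.consEquiv`/`Fin.insertNthEquiv`) and `y i = u (c i)`:
  `𝔼 c, Vr k y ≥ E * ∑_{j<k} (1 - 1/(j+1))` (by `hv`), and `k * 𝔼 c, d²(p, ind k y) ≤ E`: indeed with
  `a_k = 𝔼 d²(p, ind k)`, `t = 1/(k+1)`: `a_{k+1} ≤ (1-t) a_k + t E - t (1-t) (a_k + E) = (1-t)² a_k + t² E`.
* By (S1) with `q = p`: `d²(p, ind k y) ≤ B E` and `0 ≤ Vr k y ≤ k B E`.

`lb`: on the coupling `q (f ψ i) = q₀` does not depend on `i`; pointwise, for every `λ > 0`,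
`(1/m) ∑ i (d²(q₀, u_i) - d²(q₀, p)) ≥ Vr/m - d²(p, ind)/λ - λ B E` since
`d²(q₀, ind) ≥ d²(q₀, p) - 2 d(q₀,p) d(p,ind)`.  Integrate against `μ` (total mass `≤ 1 + δ`); all functions are bounded by a
constant (depending on `B`, `λ`) times `E`; apply the `Samp` estimates to the normalised functions (if `E = 0` everything
vanishes).  Use `(1/m) ∑_{j<m} 1/(j+1) → 0`.

`contr`: `d(g₁ p, g₂ p) ≤ d(p, ind e) + d(g₁ ind e, g₂ ind e') + d(ind e', p)`, (S2) and Cauchy–Schwarz, then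
`(a + b + c)² ≤ (1 + λ) b² + 2 (1 + 1/λ) (a² + c²)`.
-/

set_option autoImplicit false

namespace Crest.Agent.R196

open Crest.Geometry
open scoped BigOperators

universe u

section ind

variable {X : Type u} [MetricSpace X] (hX : IsCAT0Space X) (p : X)

/-- Inductive mean. -/
noncomputable def ind : (k : ℕ) → (Fin k → X) → X
  | 0, _ => p
  | k + 1, y => pt hX (1 / (k + 1)) (ind k (Fin.tail y)) (y 0)

/-- Inductive variance. -/
noncomputable def Vr : (k : ℕ) → (Fin k → X) → ℝ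
  | 0, _ => 0
  | k + 1, y => Vr k (Fin.tail y) + (1 - 1 / (k + 1)) * dist (ind hX p k (Fin.tail y)) (y 0) ^ 2

theorem t_nonneg (k : ℕ) : (0 : ℝ) ≤ 1 / (k + 1) := by positivity

theorem t_le (k : ℕ) : (1 : ℝ) / (k + 1) ≤ 1 := by
  rw [div_le_one (by positivity)]
  linarith [(Nat.cast_nonneg k : (0 : ℝ) ≤ k)]

theorem Vr_nonneg : ∀ (k : ℕ) (y : Fin k → X), 0 ≤ Vr hX p k y
  | 0, _ => le_rfl
  | k + 1, y => add_nonneg (Vr_nonneg k _) (mul_nonneg (sub_nonneg.2 (t_le k)) (sq_nonneg _))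

theorem ind_S1 (q : X) : ∀ (k : ℕ) (y : Fin k → X),
    k * dist q (ind hX p k y) ^ 2 + Vr hX p k y ≤ ∑ i, dist q (y i) ^ 2
  | 0, _ => by simp [Vr]
  | k + 1, y => by
    have h1 := ind_S1 q k (Fin.tail y)
    have h2 := cn hX (t_nonneg k) (t_le k) (ind hX p k (Fin.tail y)) (y 0) q
    have h3 := mul_le_mul_of_nonneg_left h2 (show (0 : ℝ) ≤ k + 1 by positivity)
    have e : ∀ a b c : ℝ, (k + 1) * ((1 - 1 / (k + 1)) * a + 1 / (k + 1) * b -
        1 / (k + 1) * (1 - 1 / (k + 1)) * c) = k * a + b - (1 - 1 / (k + 1)) * c := by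
      intro a b c
      field_simp
      ring
    rw [e] at h3
    rw [Fin.sum_univ_succ, ind, Vr]
    push_cast
    simp only [Fin.tail] at h1 h3 ⊢
    linarith

theorem ind_S2 {G : Type*} [Group G] [MulAction G X] [IsIsometricSMul G X] (g g' : G) :
    ∀ (k : ℕ) (y y' : Fin k → X),
      k * dist (g • ind hX p k y) (g' • ind hX p k y') ≤ ∑ i, dist (g • y i) (g' • y' i)
  | 0, _, _ => by simp
  | k + 1, y, y' => by
    have h1 := ind_S2 g g' k (Fin.tail y) (Fin.tail y')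
    have h2 := pt_convex hX (t_nonneg k) (t_le k) (g • ind hX p k (Fin.tail y)) (g • y 0)
      (g' • ind hX p k (Fin.tail y')) (g' • y' 0)
    have h3 := mul_le_mul_of_nonneg_left h2 (show (0 : ℝ) ≤ k + 1 by positivity)
    have e : ∀ a b : ℝ, (k + 1) * ((1 - 1 / (k + 1)) * a + 1 / (k + 1) * b) = k * a + b := by
      intro a b
      field_simp
      ring
    rw [e] at h3
    rw [Fin.sum_univ_succ, ind, ind, pt_smul hX (t_nonneg k) (t_le k),
      pt_smul hX (t_nonneg k) (t_le k)]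
    push_cast
    simp only [Fin.tail] at h1 h3 ⊢
    linarith

variable {P : Type} [Fintype P]

theorem expect_cons {k : ℕ} (F : (Fin (k + 1) → P) → ℝ) :
    𝔼 c, F c = 𝔼 c : Fin k → P, 𝔼 s, F (Fin.cons s c) := by
  rw [Finset.expect_comm, ← Finset.expect_product', Finset.univ_product_univ]
  exact (Fintype.expect_equiv (Fin.consEquiv fun _ => P) _ _ fun _ => rfl).symm

variable [Nonempty P] {p} {u : P → X} {E : ℝ}

theorem ind_S3 (hv : ∀ q, dist q p ^ 2 + E ≤ 𝔼 c, dist q (u c) ^ 2) : ∀ k : ℕ,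
    E * ∑ j ∈ Finset.range k, (1 - 1 / ((j : ℝ) + 1)) ≤
      𝔼 c : Fin k → P, Vr hX p k fun i => u (c i)
  | 0 => by simp [Vr]
  | k + 1 => by
    have h1 := ind_S3 hv k
    rw [Finset.sum_range_succ, mul_add, expect_cons]
    have h2 : ∀ c : Fin k → P, Vr hX p k (fun i => u (c i)) + E * (1 - 1 / ((k : ℝ) + 1)) ≤
        𝔼 s, Vr hX p (k + 1) fun i => u ((Fin.cons s c : Fin (k + 1) → P) i) := by
      intro c
      have e : ∀ s, (Vr hX p (k + 1) fun i => u ((Fin.cons s c : Fin (k + 1) → P) i)) =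
          Vr hX p k (fun i => u (c i)) +
            (1 - 1 / ((k : ℝ) + 1)) * dist (ind hX p k fun i => u (c i)) (u s) ^ 2 := fun s => rfl
      simp only [e]
      rw [Finset.expect_add_distrib, Finset.expect_const Finset.univ_nonempty, ← Finset.mul_expect]
      have h3 := hv (ind hX p k fun i => u (c i))
      have h4 := sub_nonneg.2 (t_le k)
      nlinarith [sq_nonneg (dist (ind hX p k fun i => u (c i)) p)]
    refine le_trans ?_ (Finset.expect_le_expect fun c _ => h2 c)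
    rw [Finset.expect_add_distrib, Finset.expect_const Finset.univ_nonempty]
    linarith

theorem ind_S4 (hE : E = 𝔼 c, dist p (u c) ^ 2)
    (hv : ∀ q, dist q p ^ 2 + E ≤ 𝔼 c, dist q (u c) ^ 2) : ∀ k : ℕ,
    k * (𝔼 c : Fin k → P, dist p (ind hX p k fun i => u (c i)) ^ 2) ≤ E
  | 0 => by
    rw [hE, Nat.cast_zero, zero_mul]
    exact Finset.expect_nonneg fun _ _ => sq_nonneg _
  | k + 1 => by
    have h1 := ind_S4 hE hv k
    rw [expect_cons]
    set t : ℝ := 1 / (k + 1) with ht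
    have h2 : ∀ c : Fin k → P,
        (𝔼 s, dist p (ind hX p (k + 1) fun i => u ((Fin.cons s c : Fin (k + 1) → P) i)) ^ 2) ≤
        (1 - t) ^ 2 * dist p (ind hX p k fun i => u (c i)) ^ 2 + t ^ 2 * E := by
      intro c
      have e : ∀ s, (ind hX p (k + 1) fun i => u ((Fin.cons s c : Fin (k + 1) → P) i)) =
          pt hX t (ind hX p k fun i => u (c i)) (u s) := fun s => rfl
      simp only [e]
      refine (Finset.expect_le_expect fun s _ => cn hX (t_nonneg k) (t_le k) _ _ p).trans ?_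
      rw [Finset.expect_sub_distrib, Finset.expect_add_distrib,
        Finset.expect_const Finset.univ_nonempty, ← Finset.mul_expect, ← Finset.mul_expect, ← hE,
        ← ht]
      have h3 := hv (ind hX p k fun i => u (c i))
      rw [dist_comm] at h3
      have h4 : 0 ≤ t * (1 - t) := mul_nonneg (t_nonneg k) (sub_nonneg.2 (t_le k))
      nlinarith [mul_le_mul_of_nonneg_left h3 h4]
    have h3 := Finset.expect_le_expect fun c (_ : c ∈ Finset.univ) => h2 c
    rw [Finset.expect_add_distrib, Finset.expect_const Finset.univ_nonempty,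
      ← Finset.mul_expect] at h3
    have h4 := mul_le_mul_of_nonneg_left h3 (show (0 : ℝ) ≤ k + 1 by positivity)
    have e : ∀ a : ℝ, (k + 1) * ((1 - t) ^ 2 * a + t ^ 2 * E) = t * (k * (k * a) + E) := by
      intro a
      rw [ht]
      field_simp
      ring
    rw [e] at h4
    push_cast
    refine h4.trans ?_
    have h5 : (k : ℝ) * (k * 𝔼 c : Fin k → P, dist p (ind hX p k fun i => u (c i)) ^ 2) + E ≤
        (k + 1) * E := by
      nlinarith [mul_le_mul_of_nonneg_left h1 (Nat.cast_nonneg k : (0 : ℝ) ≤ k)]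
    refine (mul_le_mul_of_nonneg_left h5 (t_nonneg k)).trans (le_of_eq ?_)
    field_simp

omit [Fintype P] [Nonempty P] in
theorem ind_bd {C : ℝ} (hb : ∀ c, dist p (u c) ^ 2 ≤ C) {k : ℕ} (hk : 0 < k) (c : Fin k → P) :
    dist p (ind hX p k fun i => u (c i)) ^ 2 ≤ C ∧ Vr hX p k (fun i => u (c i)) / k ≤ C := by
  have h1 := ind_S1 hX p p k fun i => u (c i)
  have h2 : ∑ i, dist p (u (c i)) ^ 2 ≤ k * C := by
    simpa using Finset.sum_le_card_nsmul Finset.univ (fun i => dist p (u (c i)) ^ 2) C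
      fun i _ => hb _
  have h3 := Vr_nonneg hX p k fun i => u (c i)
  have hk' : (0 : ℝ) < k := by exact_mod_cast hk
  refine ⟨le_of_mul_le_mul_left (by linarith) hk', ?_⟩
  rw [div_le_iff₀ hk']
  nlinarith [sq_nonneg (dist p (ind hX p k fun i => u (c i)))]

end ind

theorem scale {ι : Type*} {L : (ι → ℝ) → ℝ} {δ M : ℝ} (hL : ∀ (a : ℝ) F, L (fun x => a * F x) = a * L F)
    (h : ∀ F, (∀ x, |F x| ≤ 1) → |L F| ≤ δ) (hM : 0 ≤ M) {F : ι → ℝ} (hF : ∀ x, |F x| ≤ M) :
    |L F| ≤ δ * M := by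
  rcases hM.eq_or_lt with rfl | hM
  · have : F = fun x => 0 * F x := funext fun x => by
      rw [zero_mul]; exact abs_nonpos_iff.1 (hF x)
    rw [this, hL]
    simp
  · have h1 := h (fun x => M⁻¹ * F x) fun x => by
      rw [abs_mul, abs_of_pos (inv_pos.2 hM), inv_mul_le_iff₀ hM, mul_one]
      exact hF x
    rw [hL, abs_mul, abs_of_pos (inv_pos.2 hM), inv_mul_le_iff₀ hM] at h1
    linarith

/-- Transfer of a pointwise inequality on the coupling. -/
theorem Samp.transfer {m : ℕ} {V P : Type} [Fintype V] [DecidableEq V] [Fintype P]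
    {W : Fin m → (V → P) → ℝ} {Z : Finset V} {e e' : V} {δ : ℝ} (h : Samp W Z e e' δ) (hm : 0 < m)
    {a a' : V} (ha : a = e ∨ a = e') (ha' : a' = e ∨ a' = e') {F : (V → P) → ℝ}
    {H H' : (Fin m → P) → ℝ} {M N N' : ℝ} (hM : 0 ≤ M) (hN : 0 ≤ N) (hN' : 0 ≤ N')
    (hF : ∀ φ, |F φ| ≤ M) (hH : ∀ c, |H c| ≤ N) (hH' : ∀ c, |H' c| ≤ N')
    (hpt : ∀ f : Fin m → V → P, (∀ i j, ∀ z ∈ Z, f i z = f j z) →
      (𝔼 i, F (f i)) ≤ H (fun i => f i a) + H' (fun i => f i a')) :
    (𝔼 i, 𝔼 φ, W i φ * F φ) ≤ (𝔼 c, H c) + (𝔼 c, H' c) + δ * (M + N + N') := by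
  obtain ⟨Ψ, _, μ, f, h0, hZ, h1, h2⟩ := h
  haveI : Nonempty (Fin m) := ⟨⟨0, hm⟩⟩
  have k1 : ∀ i, |∑ ψ, μ ψ * F (f ψ i) - 𝔼 φ, W i φ * F φ| ≤ δ * M := fun i =>
    scale (L := fun F => ∑ ψ, μ ψ * F (f ψ i) - 𝔼 φ, W i φ * F φ) (fun a F => by
      simp only [mul_left_comm _ a, mul_sub, Finset.mul_sum, Finset.mul_expect]) (h1 i) hM hF
  have k2 : ∀ b, b = e ∨ b = e' → ∀ {H : (Fin m → P) → ℝ} {N : ℝ}, 0 ≤ N → (∀ c, |H c| ≤ N) →
      |∑ ψ, μ ψ * H (fun i => f ψ i b) - 𝔼 c, H c| ≤ δ * N := fun b hb H N hN hH =>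
    scale (L := fun H => ∑ ψ, μ ψ * H (fun i => f ψ i b) - 𝔼 c, H c) (fun a F => by
      simp only [mul_left_comm _ a, mul_sub, Finset.mul_sum, Finset.mul_expect]) (h2 b hb) hN hH
  have k3 : (𝔼 i, 𝔼 φ, W i φ * F φ) ≤ (𝔼 i, ∑ ψ, μ ψ * F (f ψ i)) + δ * M := by
    rw [← Finset.expect_const (s := Finset.univ (α := Fin m)) Finset.univ_nonempty (δ * M),
      ← Finset.expect_add_distrib]
    exact Finset.expect_le_expect fun i _ => by linarith [(abs_le.1 (k1 i)).1]
  have k4 : (𝔼 i, ∑ ψ, μ ψ * F (f ψ i)) ≤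
      ∑ ψ, μ ψ * H (fun i => f ψ i a) + ∑ ψ, μ ψ * H' (fun i => f ψ i a') := by
    rw [Finset.expect_sum_comm, ← Finset.sum_add_distrib]
    refine Finset.sum_le_sum fun ψ _ => ?_
    rw [← Finset.mul_expect, ← mul_add]
    exact mul_le_mul_of_nonneg_left (hpt (f ψ) (hZ ψ)) (h0 ψ)
  linarith [(abs_le.1 (k2 a ha hN hH)).2, (abs_le.1 (k2 a' ha' hN' hH')).2]

theorem exists_m {γ : ℝ} (hγ : 0 < γ) : ∃ m₀ : ℕ, ∀ m ≥ m₀, 0 < m ∧ (m : ℝ)⁻¹ ≤ γ ∧
    (1 - γ) ≤ (∑ j ∈ Finset.range m, (1 - 1 / ((j : ℝ) + 1))) / m := by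
  have h1 : Filter.Tendsto (fun j : ℕ => 1 - 1 / ((j : ℝ) + 1)) Filter.atTop (nhds (1 - 0)) :=
    tendsto_const_nhds.sub tendsto_one_div_add_atTop_nhds_zero_nat
  have h2 := h1.cesaro.eventually (lt_mem_nhds (show 1 - γ < 1 - 0 by linarith))
  have h3 := (tendsto_inv_atTop_nhds_zero_nat (𝕜 := ℝ)).eventually (gt_mem_nhds hγ)
  obtain ⟨m₀, hm⟩ := Filter.eventually_atTop.1 ((Filter.eventually_gt_atTop 0).and (h3.and h2))
  refine ⟨m₀, fun m h => ⟨(hm m h).1, (hm m h).2.1.le, ?_⟩⟩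
  rw [div_eq_inv_mul]
  exact (hm m h).2.2.le

theorem two_mul_le {a b l : ℝ} (hl : 0 < l) : 2 * a * b ≤ l * a ^ 2 + b ^ 2 / l := by
  have : l * a ^ 2 + b ^ 2 / l - 2 * a * b = (l * a - b) ^ 2 / l := by
    field_simp
    ring
  have h : 0 ≤ (l * a - b) ^ 2 / l := by positivity
  linarith

theorem lb (B γ : ℝ) (hB : 1 ≤ B) (hγ : 0 < γ) :
    ∃ (m₀ : ℕ) (δ₀ : ℝ), 0 < δ₀ ∧ ∀ m ≥ m₀, ∀ δ ≤ δ₀,
      ∀ {X : Type u} [MetricSpace X] (_ : IsCAT0Space X) {P V : Type} [Fintype P] [Nonempty P]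
        [Fintype V] [DecidableEq V] (p : X) (u : P → X) (E : ℝ),
        E = (𝔼 c, dist p (u c) ^ 2) → (∀ q, dist q p ^ 2 + E ≤ 𝔼 c, dist q (u c) ^ 2) →
        (∀ c, dist p (u c) ^ 2 ≤ B * E) →
        ∀ (W : Fin m → (V → P) → ℝ) (Z : Finset V) (e e' a : V), Samp W Z e e' δ → a = e ∨ a = e' →
        ∀ q : (V → P) → X, (∀ φ φ', (∀ z ∈ Z, φ z = φ' z) → q φ = q φ') →
          (∀ φ, dist (q φ) p ^ 2 ≤ B * E) →
          (1 - γ) * E ≤ 𝔼 i, 𝔼 φ, W i φ * (dist (q φ) (u (φ a)) ^ 2 - dist (q φ) p ^ 2) := by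
  set l := γ / (4 * B) with hl
  have hl0 : 0 < l := by positivity
  obtain ⟨m₀, hm₀⟩ := exists_m (γ := min (γ / 4) (γ / 4 * l)) (by positivity)
  set C := 4 * B + (B + B / l + l * B) with hC
  have hC0 : 0 < C := by positivity
  refine ⟨m₀, γ / 4 / C, by positivity, ?_⟩
  intro m hm δ hδ X _ hX P V _ _ _ _ p u E hE hv hb W Z e e' a hS ha q hq hqb
  obtain ⟨hm0, hm1, hm2⟩ := hm₀ m hm
  have hm' : (0 : ℝ) < m := by exact_mod_cast hm0
  have hE0 : 0 ≤ E := hE ▸ Finset.expect_nonneg fun _ _ => sq_nonneg _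
  have hBE : 0 ≤ B * E := by positivity
  have key := hS.transfer hm0 ha ha
    (F := fun φ => -(dist (q φ) (u (φ a)) ^ 2 - dist (q φ) p ^ 2))
    (H := fun c => -(Vr hX p m (fun i => u (c i)) / m) +
      dist p (ind hX p m fun i => u (c i)) ^ 2 / l + l * (B * E))
    (H' := fun _ => 0) (M := 4 * B * E) (N := (B + B / l + l * B) * E) (N' := 0)
    (by positivity) (by positivity) le_rfl (fun φ => by
      have h1 := hqb φ
      have h2 := hb (φ a)
      have h3 : dist (q φ) (u (φ a)) ^ 2 ≤ (dist (q φ) p + dist p (u (φ a))) ^ 2 :=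
        pow_le_pow_left₀ dist_nonneg (dist_triangle _ _ _) 2
      rw [abs_le]
      constructor <;> nlinarith [sq_nonneg (dist (q φ) p - dist p (u (φ a))),
        sq_nonneg (dist (q φ) p), sq_nonneg (dist (q φ) (u (φ a)))])
    (fun c => by
      obtain ⟨h1, h2⟩ := ind_bd hX hb hm0 c
      have h3 : 0 ≤ Vr hX p m (fun i => u (c i)) / m := div_nonneg (Vr_nonneg _ _ _ _) hm'.le
      have h4 : dist p (ind hX p m fun i => u (c i)) ^ 2 / l ≤ B * E / l := by gcongr
      have h5 : 0 ≤ dist p (ind hX p m fun i => u (c i)) ^ 2 / l := by positivity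
      have h6 : 0 ≤ l * (B * E) := by positivity
      have e : (B + B / l + l * B) * E = B * E + B * E / l + l * (B * E) := by ring
      rw [abs_le, e]
      constructor <;> linarith) (fun _ => by simp)
    (fun f hf => by
      set q₀ := q (f ⟨0, hm0⟩)
      have h0 : ∀ i, q (f i) = q₀ := fun i => hq _ _ (hf _ _)
      have h1 := ind_S1 hX p q₀ m fun i => u (f i a)
      have h2 : dist q₀ p ^ 2 ≤ B * E := hqb _
      simp only [h0]
      rw [Fintype.expect_eq_sum_div_card, Fintype.card_fin, Finset.sum_neg_distrib,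
        Finset.sum_sub_distrib, Finset.sum_const, Finset.card_univ, Fintype.card_fin, nsmul_eq_mul,
        div_le_iff₀ hm', add_zero, add_mul, add_mul, neg_mul, div_mul_cancel₀ _ hm'.ne']
      set x := ind hX p m fun i => u (f i a)
      have h3 : dist q₀ p ^ 2 - dist q₀ x ^ 2 ≤ dist p x ^ 2 / l + l * (B * E) := by
        have h4 := dist_triangle_right q₀ p x
        have h5 := two_mul_le (a := dist q₀ p) (b := dist p x) hl0
        have h6 := mul_le_mul_of_nonneg_left h2 hl0.le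
        have h7 : dist q₀ p ^ 2 - dist q₀ x ^ 2 ≤ 2 * dist q₀ p * dist p x := by
          nlinarith [sq_nonneg (dist q₀ p - dist q₀ x), dist_nonneg (x := q₀) (y := p),
            mul_le_mul_of_nonneg_left h4 (dist_nonneg (x := q₀) (y := p))]
        linarith
      nlinarith [mul_le_mul_of_nonneg_left h3 hm'.le])
  simp only [mul_neg, Finset.expect_neg_distrib] at key
  rw [Finset.expect_add_distrib, Finset.expect_add_distrib, Finset.expect_neg_distrib,
    Finset.expect_const Finset.univ_nonempty, Finset.expect_const Finset.univ_nonempty,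
    ← Finset.expect_div, ← Finset.expect_div] at key
  have h1 := ind_S3 hX hv m
  have h2 := ind_S4 hX hE hv m
  have h3 : (1 - γ / 4) * E ≤ (𝔼 c : Fin m → P, Vr hX p m fun i => u (c i)) / m := by
    refine le_trans ?_ (div_le_div_of_nonneg_right h1 hm'.le)
    rw [mul_div_assoc, mul_comm E]
    exact mul_le_mul_of_nonneg_right (by linarith [min_le_left (γ / 4) (γ / 4 * l)]) hE0
  have h4 : (𝔼 c : Fin m → P, dist p (ind hX p m fun i => u (c i)) ^ 2) / l ≤ γ / 4 * E := by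
    rw [div_le_iff₀ hl0]
    have h5 := (le_inv_mul_iff₀ hm').2 h2
    nlinarith [mul_le_mul_of_nonneg_right (hm1.trans (min_le_right _ _)) hE0]
  have h5 : l * (B * E) = γ / 4 * E := by rw [hl]; field_simp
  have h6 : δ * (4 * B * E + (B + B / l + l * B) * E + 0) ≤ γ / 4 * E := by
    have : δ * C ≤ γ / 4 := (le_div_iff₀ hC0).1 hδ
    have e : δ * (4 * B * E + (B + B / l + l * B) * E + 0) = δ * C * E := by rw [hC]; ring
    rw [e]
    exact mul_le_mul_of_nonneg_right this hE0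
  linarith

theorem contr (B γ : ℝ) (hB : 1 ≤ B) (hγ : 0 < γ) :
    ∃ (m₀ : ℕ) (δ₀ : ℝ), 0 < δ₀ ∧ ∀ m ≥ m₀, ∀ δ ≤ δ₀,
      ∀ {X : Type u} [MetricSpace X] (_ : IsCAT0Space X) {G P V : Type} [Group G] [MulAction G X]
        [IsIsometricSMul G X] [Fintype P] [Nonempty P]
        [Fintype V] [DecidableEq V] (p : X) (u : P → X) (E : ℝ),
        E = (𝔼 c, dist p (u c) ^ 2) → (∀ q, dist q p ^ 2 + E ≤ 𝔼 c, dist q (u c) ^ 2) →
        (∀ c, dist p (u c) ^ 2 ≤ B * E) →
        ∀ (W : Fin m → (V → P) → ℝ) (Z : Finset V) (e e' : V), Samp W Z e e' δ →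
        ∀ g₁ g₂ : (V → P) → G, (∀ φ φ', (∀ z ∈ Z, φ z = φ' z) → g₁ φ = g₁ φ' ∧ g₂ φ = g₂ φ') →
          (∀ φ, dist (g₁ φ • p) (g₂ φ • p) ^ 2 ≤ B * E) →
          (𝔼 i, 𝔼 φ, W i φ * (dist (g₁ φ • p) (g₂ φ • p) ^ 2 -
            dist (g₁ φ • u (φ e)) (g₂ φ • u (φ e')) ^ 2)) ≤ γ * E := by
  set l := γ / (8 * B) with hl
  have hl0 : 0 < l := by positivity
  obtain ⟨m₀, hm₀⟩ := exists_m (γ := γ / 8 * l) (by positivity)
  set C := 9 * B + 2 * (B / l + l * B) with hC
  have hC0 : 0 < C := by positivity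
  refine ⟨m₀, γ / 4 / C, by positivity, ?_⟩
  intro m hm δ hδ X _ hX G P V _ _ _ _ _ _ _ p u E hE hv hb W Z e e' hS g₁ g₂ hg hgb
  obtain ⟨hm0, hm1, -⟩ := hm₀ m hm
  have hm' : (0 : ℝ) < m := by exact_mod_cast hm0
  have hE0 : 0 ≤ E := hE ▸ Finset.expect_nonneg fun _ _ => sq_nonneg _
  have hBE : 0 ≤ B * E := by positivity
  have hH : ∀ c : Fin m → P, |dist p (ind hX p m fun i => u (c i)) ^ 2 / l + l * (B * E)| ≤
      (B / l + l * B) * E := fun c => by
    obtain ⟨h1, -⟩ := ind_bd hX hb hm0 c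
    have h4 : dist p (ind hX p m fun i => u (c i)) ^ 2 / l ≤ B * E / l := by gcongr
    have e : (B / l + l * B) * E = B * E / l + l * (B * E) := by ring
    rw [abs_of_nonneg (by positivity), e]
    linarith
  have key := hS.transfer hm0 (Or.inl rfl) (Or.inr rfl)
    (F := fun φ => dist (g₁ φ • p) (g₂ φ • p) ^ 2 - dist (g₁ φ • u (φ e)) (g₂ φ • u (φ e')) ^ 2)
    (M := 9 * B * E) (by positivity) (by positivity) (by positivity) (fun φ => by
      have h1 := hgb φ
      have h2 := hb (φ e)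
      have h3 := hb (φ e')
      have h4 := dist_triangle4 (g₁ φ • u (φ e)) (g₁ φ • p) (g₂ φ • p) (g₂ φ • u (φ e'))
      rw [dist_smul, dist_smul, dist_comm _ p] at h4
      have h5 := pow_le_pow_left₀ dist_nonneg h4 2
      rw [abs_le]
      constructor <;> nlinarith [sq_nonneg (dist p (u (φ e)) - dist (g₁ φ • p) (g₂ φ • p)),
        sq_nonneg (dist p (u (φ e')) - dist (g₁ φ • p) (g₂ φ • p)),
        sq_nonneg (dist p (u (φ e)) - dist p (u (φ e'))),
        sq_nonneg (dist (g₁ φ • p) (g₂ φ • p)),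
        sq_nonneg (dist (g₁ φ • u (φ e)) (g₂ φ • u (φ e')))]) hH hH
    (fun f hf => by
      set a := g₁ (f ⟨0, hm0⟩)
      set b := g₂ (f ⟨0, hm0⟩)
      have h0 : ∀ i, g₁ (f i) = a := fun i => (hg _ _ (hf _ _)).1
      have h0' : ∀ i, g₂ (f i) = b := fun i => (hg _ _ (hf _ _)).2
      have h1 := ind_S2 hX p a b m (fun i => u (f i e)) (fun i => u (f i e'))
      have h2 : dist (a • p) (b • p) ^ 2 ≤ B * E := hgb _
      simp only [h0, h0']
      rw [Fintype.expect_eq_sum_div_card, Fintype.card_fin,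
        Finset.sum_sub_distrib, Finset.sum_const, Finset.card_univ, Fintype.card_fin, nsmul_eq_mul,
        div_le_iff₀ hm']
      set x := ind hX p m fun i => u (f i e)
      set y := ind hX p m fun i => u (f i e')
      have h3 : m * dist (a • x) (b • y) ^ 2 ≤ ∑ i, dist (a • u (f i e)) (b • u (f i e')) ^ 2 := by
        have h4 := sq_sum_le_card_mul_sum_sq (s := Finset.univ)
          (f := fun i => dist (a • u (f i e)) (b • u (f i e')))
        rw [Finset.card_univ, Fintype.card_fin] at h4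
        have h5 := pow_le_pow_left₀ (by positivity) h1 2
        refine le_of_mul_le_mul_left ?_ hm'
        nlinarith
      have h4 := dist_triangle4 (a • p) (a • x) (b • y) (b • p)
      rw [dist_smul, dist_smul, dist_comm y] at h4
      have h5 := two_mul_le (a := dist (a • p) (b • p)) (b := dist p x) hl0
      have h5' := two_mul_le (a := dist (a • p) (b • p)) (b := dist p y) hl0
      have h6 := mul_le_mul_of_nonneg_left h2 hl0.le
      have h7 : dist (a • p) (b • p) ^ 2 - dist (a • x) (b • y) ^ 2 ≤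
          2 * dist (a • p) (b • p) * dist p x + 2 * dist (a • p) (b • p) * dist p y := by
        nlinarith [sq_nonneg (dist (a • p) (b • p) - dist (a • x) (b • y)),
          mul_le_mul_of_nonneg_left h4 (dist_nonneg (x := a • p) (y := b • p))]
      have h8 : dist (a • p) (b • p) ^ 2 - dist (a • x) (b • y) ^ 2 ≤
          dist p x ^ 2 / l + l * (B * E) + (dist p y ^ 2 / l + l * (B * E)) := by linarith
      nlinarith [mul_le_mul_of_nonneg_left h8 hm'.le])
  rw [Finset.expect_add_distrib, Finset.expect_const Finset.univ_nonempty,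
    ← Finset.expect_div] at key
  have h2 := ind_S4 hX hE hv m
  have h4 : (𝔼 c : Fin m → P, dist p (ind hX p m fun i => u (c i)) ^ 2) / l ≤ γ / 8 * E := by
    rw [div_le_iff₀ hl0]
    have h5 := (le_inv_mul_iff₀ hm').2 h2
    nlinarith [mul_le_mul_of_nonneg_right hm1 hE0]
  have h5 : l * (B * E) = γ / 8 * E := by rw [hl]; field_simp
  have h6 : δ * (9 * B * E + (B / l + l * B) * E + (B / l + l * B) * E) ≤ γ / 4 * E := by
    have : δ * C ≤ γ / 4 := (le_div_iff₀ hC0).1 hδ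
    have e : δ * (9 * B * E + (B / l + l * B) * E + (B / l + l * B) * E) = δ * C * E := by
      rw [hC]; ring
    rw [e]
    exact mul_le_mul_of_nonneg_right this hE0
  nlinarith [mul_nonneg hγ.le hE0]

end Crest.Agent.R196
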